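import Vale.Agent.P146.H985.OddP
import Vale.Agent.P146.H93.TlSK

/-!
# P146: the symmetries of the SK system with `K` levels (helper985)

The flip of one spin, the permutations of the sites; the rows which they move; the bound of the
gradient of the density of the levels `≤ l` in a row.
-/

open MeasureTheory ProbabilityTheory

namespace Vale.Agent.P146.H985

open Vale.Agent.P157 Vale.Agent.P157.Lv Vale.Agent.P157.Lv.Sy
open Vale.Agent.P146.H425 Vale.Agent.P146.H93 Vale.Agent.P146.H325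

set_option linter.unusedSectionVars false

variable {n K : ℕ}

/-! ### Bonds -/

lemma bnd_comm {i j : Fin n} (h : i ≠ j) : bnd i j h = bnd j i h.symm := by
  unfold bnd
  rcases lt_or_gt_of_ne h with h1 | h1
  · rw [dif_pos h1, dif_neg (not_lt.2 h1.le)]
  · rw [dif_neg (not_lt.2 h1.le), dif_pos h1]

lemma bnd_self (p : Pair n) : bnd p.1.1 p.1.2 p.2.ne = p := by
  unfold bnd
  rw [dif_pos p.2]

lemma tch_bnd {i j : Fin n} (h : i ≠ j) (k : Fin n) :
    tch k (Sum.inl (bnd i j h) : Pair n ⊕ Fin n) ↔ i = k ∨ j = k := by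
  rw [tch_inl]
  unfold bnd
  split_ifs
  · rfl
  · exact or_comm

lemma bnd_congr {i j i' j' : Fin n} (h : i ≠ j) (hi : i = i') (hj : j = j') :
    bnd i j h = bnd i' j' (hi ▸ hj ▸ h) := by subst hi hj; rfl

/-- the image of a bond under a permutation of the sites -/
def pmap (ρ : Equiv.Perm (Fin n)) (p : Pair n) : Pair n :=
  bnd (ρ p.1.1) (ρ p.1.2) (ρ.injective.ne p.2.ne)

lemma pmap_bnd (ρ : Equiv.Perm (Fin n)) {i j : Fin n} (h : i ≠ j) :
    pmap ρ (bnd i j h) = bnd (ρ i) (ρ j) (ρ.injective.ne h) := by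
  unfold pmap
  rcases lt_or_gt_of_ne h with h1 | h1
  · have e : bnd i j h = ⟨(i, j), h1⟩ := by unfold bnd; rw [dif_pos h1]
    simp only [e]
  · have e : bnd i j h = ⟨(j, i), h1⟩ := by
      unfold bnd; rw [dif_neg (not_lt.2 h1.le)]
    simp only [e]
    exact bnd_comm _

lemma SkS_pmap (ρ : Equiv.Perm (Fin n)) (p : Pair n) (x : Fin n → ℤˣ) :
    SkS (pmap ρ p) x = sp x (ρ p.1.1) * sp x (ρ p.1.2) := SkS_bnd _ _ _ _

lemma pmap_symm (ρ : Equiv.Perm (Fin n)) (p : Pair n) : pmap ρ.symm (pmap ρ p) = p := by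
  have h := pmap_bnd ρ.symm (ρ.injective.ne p.2.ne)
  have e : pmap ρ p = bnd (ρ p.1.1) (ρ p.1.2) (ρ.injective.ne p.2.ne) := rfl
  rw [e, h]
  rw [bnd_congr _ (Equiv.symm_apply_apply ρ _) (Equiv.symm_apply_apply ρ _)]
  exact bnd_self p

/-- the permutation of the bonds -/
def pmE (ρ : Equiv.Perm (Fin n)) : Pair n ≃ Pair n where
  toFun := pmap ρ
  invFun := pmap ρ.symm
  left_inv := pmap_symm ρ
  right_inv := pmap_symm ρ.symm

/-- the permutation of the coordinates -/
def pC (K : ℕ) (ρ : Equiv.Perm (Fin n)) : Cd n K ≃ Cd n K :=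
  Equiv.prodCongr (Equiv.sumCongr (pmE ρ) ρ) (Equiv.refl _)

@[simp] lemma pC_inl (ρ : Equiv.Perm (Fin n)) (p : Pair n) (l : Fin K) :
    pC K ρ (Sum.inl p, l) = (Sum.inl (pmap ρ p), l) := rfl

@[simp] lemma pC_inr (ρ : Equiv.Perm (Fin n)) (j : Fin n) (l : Fin K) :
    pC K ρ (Sum.inr j, l) = (Sum.inr (ρ j), l) := rfl

@[simp] lemma pC_snd (ρ : Equiv.Perm (Fin n)) (e : Cd n K) : (pC K ρ e).2 = e.2 := rfl

/-! ### The actions on the configurations -/

/-- permute the sites -/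
def pX (ρ : Equiv.Perm (Fin n)) : (Fin n → ℤˣ) ≃ (Fin n → ℤˣ) where
  toFun x := fun k => x (ρ k)
  invFun x := fun k => x (ρ.symm k)
  left_inv x := by funext k; simp
  right_inv x := by funext k; simp

@[simp] lemma sp_pX (ρ : Equiv.Perm (Fin n)) (x : Fin n → ℤˣ) (k : Fin n) :
    sp (pX ρ x) k = sp x (ρ k) := rfl

@[simp] lemma sp_pX_symm (ρ : Equiv.Perm (Fin n)) (x : Fin n → ℤˣ) (k : Fin n) :
    sp ((pX ρ).symm x) k = sp x (ρ.symm k) := rfl

/-- flip the spin of the site `i` -/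
def fX (i : Fin n) : (Fin n → ℤˣ) ≃ (Fin n → ℤˣ) where
  toFun x := fun k => if k = i then -x k else x k
  invFun x := fun k => if k = i then -x k else x k
  left_inv x := by funext k; by_cases h : k = i <;> simp [h]
  right_inv x := by funext k; by_cases h : k = i <;> simp [h]

lemma fX_symm (i : Fin n) : (fX i).symm = fX i := rfl

lemma sp_fX (i : Fin n) (x : Fin n → ℤˣ) (k : Fin n) :
    sp (fX i x) k = if k = i then -sp x k else sp x k := by
  unfold sp fX
  simp only [Equiv.coe_fn_mk]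
  split_ifs <;> simp

@[simp] lemma sp_fX_self (i : Fin n) (x : Fin n → ℤˣ) : sp (fX i x) i = -sp x i := by
  rw [sp_fX, if_pos rfl]

@[simp] lemma sp_fX_ne {i k : Fin n} (h : k ≠ i) (x : Fin n → ℤˣ) : sp (fX i x) k = sp x k := by
  rw [sp_fX, if_neg h]

/-- the signs of the coordinates under the flip of the site `i` -/
def fE (i : Fin n) (e : Cd n K) : ℝ := if tch i e.1 then -1 else 1

lemma fE_sq (i : Fin n) (e : Cd n K) : fE i e * fE i e = 1 := by
  unfold fE; split_ifs <;> norm_num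

lemma st_fX (i : Fin n) (e : Pair n ⊕ Fin n) (x : Fin n → ℤˣ) :
    st e (fX i x) = (if tch i e then -1 else 1) * st e x := by
  rcases e with p | j
  · show sp (fX i x) p.1.1 * sp (fX i x) p.1.2 = _ * (sp x p.1.1 * sp x p.1.2)
    have hp := p.2.ne
    rw [sp_fX, sp_fX]
    simp only [tch_inl]
    by_cases h1 : p.1.1 = i
    · have h2 : p.1.2 ≠ i := fun h => hp (h1.trans h.symm)
      simp only [h1, h2, if_true, if_false, true_or]
      ring
    · by_cases h2 : p.1.2 = i
      · simp only [h1, h2, if_true, if_false, false_or]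
        ring
      · simp only [h1, h2, if_false, false_or]
        ring
  · show sp (fX i x) j = _ * sp x j
    rw [sp_fX]
    simp only [tch_inr]
    split_ifs <;> ring

lemma st_pX (ρ : Equiv.Perm (Fin n)) (e : Pair n ⊕ Fin n) (x : Fin n → ℤˣ) :
    st e (pX ρ x) = st (Equiv.sumCongr (pmE ρ) ρ e) x := by
  rcases e with p | j
  · exact (SkS_pmap ρ p x).symm
  · rfl

/-! ### The symmetries -/

variable {m : ℕ → ℝ}

/-- **The flip of one spin is a symmetry.** -/
theorem sys_flip (hm : Em K m) (b w : ℕ → ℝ) (i : Fin n) :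
    SyS (skS n K m b w) (Equiv.refl _) (fE i) (fX i) := by
  refine SyS.of_lin (linS_sk hm b w) (fE_sq i) (fun e => rfl) (fun x e => ?_) (fun _ => rfl)
  show am b w e.1 (e.2 + 1) * st e.1 (fX i x) = fE i e * (am b w e.1 (e.2 + 1) * st e.1 x)
  rw [st_fX]
  unfold fE
  ring

/-- **Every permutation of the sites is a symmetry.** -/
theorem sys_perm (hm : Em K m) (b w : ℕ → ℝ) (ρ : Equiv.Perm (Fin n)) :
    SyS (skS n K m b w) (pC K ρ) (fun _ => 1) (pX ρ) := by
  refine SyS.of_lin (linS_sk hm b w) (fun _ => one_mul 1) (fun e => rfl) (fun x e => ?_)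
    (fun _ => rfl)
  obtain ⟨e, l⟩ := e
  rcases e with p | j
  · show b (l + 1) * st (Sum.inl p) (pX ρ x) = 1 * (b (l + 1) * SkS (pmap ρ p) x)
    rw [st_pX, one_mul]
    rfl
  · show w (l + 1) * sp (pX ρ x) j = 1 * (w (l + 1) * sp x (ρ j))
    rw [one_mul]
    rfl

/-! ### The rows -/

/-- the row of the site `i` at the levels `≤ l` -/
def rwl (K : ℕ) (i : Fin n) (l : ℕ) : Finset (Cd n K) :=
  Finset.univ.filter fun e => e.2 + 1 ≤ l ∧ tch i e.1

/-- the rows of the sites `i` and `j` at the levels `≤ l`, without the bond `{i, j}` -/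
def rw2 (K : ℕ) (i j : Fin n) (l : ℕ) : Finset (Cd n K) :=
  Finset.univ.filter fun e => e.2 + 1 ≤ l ∧ (tch i e.1 ∨ tch j e.1) ∧ ¬(tch i e.1 ∧ tch j e.1)

lemma mem_rwl {i : Fin n} {l : ℕ} {e : Cd n K} : e ∈ rwl K i l ↔ e.2 + 1 ≤ l ∧ tch i e.1 := by
  simp [rwl]

lemma mem_rw2 {i j : Fin n} {l : ℕ} {e : Cd n K} : e ∈ rw2 K i j l ↔
    e.2 + 1 ≤ l ∧ (tch i e.1 ∨ tch j e.1) ∧ ¬(tch i e.1 ∧ tch j e.1) := by
  simp [rw2]

lemma tch_map (ρ : Equiv.Perm (Fin n)) (i : Fin n) (e : Pair n ⊕ Fin n) :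
    tch (ρ i) (Equiv.sumCongr (pmE ρ) ρ e) ↔ tch i e := by
  rcases e with p | j
  · show tch (ρ i) (Sum.inl (pmap ρ p)) ↔ _
    unfold pmap
    rw [tch_bnd, tch_inl]
    simp only [EmbeddingLike.apply_eq_iff_eq]
  · show ρ j = ρ i ↔ j = i
    simp only [EmbeddingLike.apply_eq_iff_eq]

/-- a bond or field which touches no moved site, or both moved sites, is fixed by the swap -/
lemma swap_fix {i j : Fin n} (hij : i ≠ j) {e : Pair n ⊕ Fin n}
    (h : (¬tch i e ∧ ¬tch j e) ∨ (tch i e ∧ tch j e)) :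
    Equiv.sumCongr (pmE (Equiv.swap i j)) (Equiv.swap i j) e = e := by
  rcases e with p | k
  · show Sum.inl (pmap (Equiv.swap i j) p) = Sum.inl p
    congr 1
    simp only [tch_inl, not_or] at h
    unfold pmap
    rcases h with ⟨⟨h1, h2⟩, h3, h4⟩ | ⟨h1, h2⟩
    · rw [bnd_congr _ (Equiv.swap_apply_of_ne_of_ne h1 h3)
        (Equiv.swap_apply_of_ne_of_ne h2 h4)]
      exact bnd_self p
    · rcases h1 with h1 | h1
      · have h3 : p.1.2 = j := by
          rcases h2 with h2 | h2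
          · exact absurd (h1.symm.trans h2) hij
          · exact h2
        have e1 : Equiv.swap i j p.1.1 = p.1.2 := by rw [h1, h3, Equiv.swap_apply_left]
        have e2 : Equiv.swap i j p.1.2 = p.1.1 := by rw [h1, h3, Equiv.swap_apply_right]
        rw [bnd_congr _ e1 e2, bnd_comm]
        exact bnd_self p
      · have h3 : p.1.1 = j := by
          rcases h2 with h2 | h2
          · exact h2
          · exact absurd (h1.symm.trans h2) hij
        have e1 : Equiv.swap i j p.1.1 = p.1.2 := by rw [h1, h3, Equiv.swap_apply_right]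
        have e2 : Equiv.swap i j p.1.2 = p.1.1 := by rw [h1, h3, Equiv.swap_apply_left]
        rw [bnd_congr _ e1 e2, bnd_comm]
        exact bnd_self p
  · show Sum.inr (Equiv.swap i j k) = Sum.inr k
    congr 1
    simp only [tch_inr] at h
    rcases h with ⟨h1, h2⟩ | ⟨h1, h2⟩
    · exact Equiv.swap_apply_of_ne_of_ne h1 h2
    · exact absurd (h1.symm.trans h2) hij

/-- **The flip moves the row of `i`.** -/
theorem mv_flip (m b w : ℕ → ℝ) (i : Fin n) (l : ℕ) :
    Mv (skS n K m b w).lev l (rwl K i l) (Equiv.refl _) (fE i) where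
  sg := fE_sq i
  mem := fun e => Iff.rfl
  fix := fun e he hl => by
    refine ⟨rfl, ?_⟩
    rw [mem_rwl] at he
    have h1 : ¬tch i e.1 := fun h => he ⟨hl, h⟩
    unfold fE
    rw [if_neg h1]

/-- **The swap moves the rows of `i` and `j` without the bond `{i, j}`.** -/
theorem mv_swap (m b w : ℕ → ℝ) {i j : Fin n} (hij : i ≠ j) (l : ℕ) :
    Mv (skS n K m b w).lev l (rw2 K i j l) (pC K (Equiv.swap i j)) (fun _ => 1) where
  sg := fun _ => one_mul 1
  mem := fun e => by
    rw [mem_rw2, mem_rw2]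
    have h1 := tch_map (Equiv.swap i j) i e.1
    have h2 := tch_map (Equiv.swap i j) j e.1
    rw [Equiv.swap_apply_left] at h1
    rw [Equiv.swap_apply_right] at h2
    have e1 : (pC K (Equiv.swap i j) e).1 =
        Equiv.sumCongr (pmE (Equiv.swap i j)) (Equiv.swap i j) e.1 := rfl
    rw [pC_snd, e1, h1, h2, or_comm, and_comm (a := tch j e.1)]
  fix := fun e he hl => by
    refine ⟨?_, rfl⟩
    rw [mem_rw2] at he
    have hl' : (e.2 : ℕ) + 1 ≤ l := hl
    have h1 := swap_fix hij (e := e.1) (by tauto)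
    exact Prod.ext h1 rfl

/-! ### The gradient of the density -/

lemma abs_st (e : Pair n ⊕ Fin n) (x : Fin n → ℤˣ) : |st e x| = 1 := by
  rcases e with p | j
  · show |sp x p.1.1 * sp x p.1.2| = 1
    rw [abs_mul, abs_sp, abs_sp, one_mul]
  · exact abs_sp x j

lemma abs_aSK (b w : ℕ → ℝ) (x : Fin n → ℤˣ) (e : Cd n K) :
    |aSK n K b w x e| = |am b w e.1 (e.2 + 1)| := by
  unfold aSK
  rw [abs_mul, abs_st, mul_one]

/-- the coefficients as derivatives -/
theorem regD_sk (hm : Em K m) (b w : ℕ → ℝ) :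
    (skS n K m b w).RegD (fun e _ x => aSK n K b w x e) := regD (linS_sk hm b w)

lemma abs_T_aSK (hm : Em K m) (b w : ℕ → ℝ) {l : ℕ} (hl : l ≤ K) (e : Cd n K)
    (z : Cd n K → ℝ) :
    |(skS n K m b w).T l (fun _ x => aSK n K b w x e) z| ≤ |am b w e.1 (e.2 + 1)| :=
  (linS_sk hm b w).reg.abs_T_le hl (Nh.snd fun x => aSK n K b w x e)
    (fun _ x => (abs_aSK b w x e).le) z

/-- the derivative of the log-density is at most `2 m_l` times the amplitude -/
lemma abs_VLD_le (hm : Em K m) (b w : ℕ → ℝ) {l : ℕ} (hl : l ≤ K) (e : Cd n K)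
    (z : Cd n K → ℝ) :
    |VLD (skS n K m b w) (fun e _ x => aSK n K b w x e) l e z| ≤
      2 * m l * |am b w e.1 (e.2 + 1)| := by
  have hR := (linS_sk (n := n) hm b w).reg
  set α := |am b w e.1 (e.2 + 1)| with hα
  have hα0 : 0 ≤ α := abs_nonneg _
  have hml : 0 ≤ m l := by
    rcases Nat.eq_zero_or_pos l with h | h
    · rw [h, hm.m0]
    · exact (hR.m_pos (l := l) h (by simp only [skS_K]; omega)).le
  have h2 : |∑ i ∈ Finset.Ico 0 l, (skS n K m b w).p i *
      (if (skS n K m b w).lev e ≤ i then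
        (skS n K m b w).T i ((fun e _ x => aSK n K b w x e) e) z else 0)| ≤
      ∑ i ∈ Finset.Ico 0 l, (m (i + 1) - m i) * α := by
    refine (Finset.abs_sum_le_sum_abs _ _).trans (Finset.sum_le_sum fun i hi => ?_)
    rw [Finset.mem_Ico] at hi
    have hp : 0 ≤ m (i + 1) - m i := sub_nonneg.2 (hm.mono i (by omega))
    have hp' : (skS n K m b w).p i = m (i + 1) - m i := rfl
    rw [abs_mul, hp', abs_of_nonneg hp]
    refine mul_le_mul_of_nonneg_left ?_ hp
    split_ifs
    · exact abs_T_aSK hm b w (by omega) e z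
    · rw [abs_zero]; exact hα0
  have h3 : ∑ i ∈ Finset.Ico 0 l, (m (i + 1) - m i) * α = m l * α := by
    rw [← Finset.sum_mul, Finset.sum_Ico_eq_sum_range]
    simp only [Nat.sub_zero, Nat.zero_add]
    rw [Finset.sum_range_sub (fun i => m i), hm.m0, sub_zero]
  unfold VLD
  refine (abs_sub _ _).trans ?_
  rw [h3] at h2
  have h4 : |(skS n K m b w).m l * (skS n K m b w).T l ((fun e _ x => aSK n K b w x e) e) z| ≤
      m l * α := by
    rw [abs_mul, skS_m, abs_of_nonneg hml]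
    exact mul_le_mul_of_nonneg_left (abs_T_aSK hm b w hl e z) hml
  linarith

/-- the number of bonds of a row: a sum over the row of one level -/
lemma sum_am_sq (b w : ℕ → ℝ) (i : Fin n) (l : Fin K) :
    ∑ e ∈ rw1 i l, am b w e.1 (e.2 + 1) ^ 2 = (n - 1) * b (l + 1) ^ 2 + w (l + 1) ^ 2 := by
  rw [sum_rw1]
  simp only [am, Finset.sum_const, Finset.card_univ, nsmul_eq_mul]
  congr 2
  have h1 : Fintype.card {j : Fin n // j ≠ i} = n - 1 := by
    rw [Fintype.card_subtype_compl, Fintype.card_fin, Fintype.card_subtype_eq]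
  have hn : 1 ≤ n := by
    have := i.2
    omega
  rw [h1, Nat.cast_sub hn, Nat.cast_one]

/-- `Σ VLD²` over the row of `i` at the level `1`, for the law of the level `1` -/
theorem sum_VLD_one (hm : Em K m) (b w : ℕ → ℝ) (i : Fin n) (h1 : 1 ≤ K)
    (z : Cd n K → ℝ) :
    ∑ e ∈ rwl K i 1, VLD (skS n K m b w) (fun e _ x => aSK n K b w x e) 1 e z ^ 2 ≤
      m 1 ^ 2 * (n * b 1 ^ 2 + w 1 ^ 2) := by
  have hR := (linS_sk (n := n) hm b w).reg
  have e0 : rwl K i 1 = rw1 i ⟨0, h1⟩ := by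
    ext e
    rw [mem_rwl]
    unfold rw1
    simp only [Finset.mem_filter, Finset.mem_univ, true_and, Fin.ext_iff]
    constructor
    · rintro ⟨h2, h3⟩
      exact ⟨by omega, h3⟩
    · rintro ⟨h2, h3⟩
      exact ⟨by omega, h3⟩
  rw [e0]
  have h2 : ∀ e ∈ rw1 i (⟨0, h1⟩ : Fin K),
      VLD (skS n K m b w) (fun e _ x => aSK n K b w x e) 1 e z ^ 2 ≤
        m 1 ^ 2 * am b w e.1 (e.2 + 1) ^ 2 := by
    intro e he
    have he' : e.2 = ⟨0, h1⟩ := by
      unfold rw1 at he
      simp only [Finset.mem_filter, Finset.mem_univ, true_and] at he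
      exact he.1
    have hl : (skS n K m b w).lev e = 1 := by rw [skS_lev, he']
    rw [VLD_one hR _ hl, mul_pow]
    refine mul_le_mul_of_nonneg_left ?_ (sq_nonneg _)
    rw [← sq_abs, ← sq_abs (am b w e.1 (e.2 + 1))]
    exact pow_le_pow_left₀ (abs_nonneg _) (abs_T_aSK hm b w h1 e z) 2
  refine (Finset.sum_le_sum h2).trans ?_
  rw [← Finset.mul_sum, sum_am_sq]
  refine mul_le_mul_of_nonneg_left ?_ (sq_nonneg _)
  have h3 : 0 ≤ b ((⟨0, h1⟩ : Fin K) + 1) ^ 2 := sq_nonneg _
  simp only [Nat.zero_add]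
  have h4 : (0 : ℝ) ≤ b 1 ^ 2 := sq_nonneg _
  nlinarith

/-- `Σ VLD²` over the row of `i` at the levels `≤ l`, for the law of the levels `≤ l` -/
theorem sum_VLD_le (hm : Em K m) (b w : ℕ → ℝ) (i : Fin n) {l : ℕ} (hl : l ≤ K)
    (z : Cd n K → ℝ) :
    ∑ e ∈ rwl K i l, VLD (skS n K m b w) (fun e _ x => aSK n K b w x e) l e z ^ 2 ≤
      4 * m l ^ 2 * ∑ k ∈ Finset.range l, (n * b (k + 1) ^ 2 + w (k + 1) ^ 2) := by
  have h2 : ∀ e ∈ rwl K i l,
      VLD (skS n K m b w) (fun e _ x => aSK n K b w x e) l e z ^ 2 ≤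
        4 * m l ^ 2 * am b w e.1 (e.2 + 1) ^ 2 := by
    intro e _
    have h3 := abs_VLD_le hm b w hl e z
    have h4 := pow_le_pow_left₀ (abs_nonneg _) h3 2
    rw [sq_abs] at h4
    refine h4.trans (le_of_eq ?_)
    rw [mul_pow, sq_abs]
    ring
  refine (Finset.sum_le_sum h2).trans ?_
  rw [← Finset.mul_sum]
  refine mul_le_mul_of_nonneg_left ?_ (by positivity)
  have e1 : rwl K i l = (Finset.univ.filter fun k : Fin K => (k : ℕ) + 1 ≤ l).biUnion
      fun k => rw1 i k := by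
    ext e
    rw [mem_rwl]
    unfold rw1
    simp only [Finset.mem_biUnion, Finset.mem_filter, Finset.mem_univ, true_and]
    constructor
    · rintro ⟨h3, h4⟩
      exact ⟨e.2, h3, rfl, h4⟩
    · rintro ⟨k, h3, h4, h5⟩
      rw [h4]
      exact ⟨h3, h5⟩
  rw [e1, Finset.sum_biUnion]
  · simp only [sum_am_sq]
    have h3 : ∀ k ∈ (Finset.univ.filter fun k : Fin K => (k : ℕ) + 1 ≤ l),
        ((n : ℝ) - 1) * b (k + 1) ^ 2 + w (k + 1) ^ 2 ≤ n * b (k + 1) ^ 2 + w (k + 1) ^ 2 := by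
      intro k _
      have h4 : (0 : ℝ) ≤ b (k + 1) ^ 2 := sq_nonneg _
      nlinarith
    refine (Finset.sum_le_sum h3).trans (le_of_eq ?_)
    refine Finset.sum_nbij (fun k => (k : ℕ)) ?_ ?_ ?_ ?_
    · intro k hk
      simp only [Finset.mem_filter, Finset.mem_univ, true_and] at hk
      exact Finset.mem_range.2 hk
    · intro k _ k' _ h
      exact Fin.ext h
    · intro k hk
      rw [Finset.coe_range, Set.mem_Iio] at hk
      refine ⟨⟨k, by omega⟩, ?_, rfl⟩
      simp only [Finset.coe_filter, Finset.mem_univ, true_and, Set.mem_ofPred_eq]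
      omega
    · intro k _
      rfl
  · intro k _ k' _ hkk
    rw [Function.onFun, Finset.disjoint_left]
    intro e he he'
    unfold rw1 at he he'
    simp only [Finset.mem_filter, Finset.mem_univ, true_and] at he he'
    exact hkk (he.1.symm.trans he'.1)

/-- the sum over two rows is at most the sum of the sums over the rows -/
lemma sum_rw2_le (i j : Fin n) (l : ℕ) {F : Cd n K → ℝ} (hF : ∀ e, 0 ≤ F e) :
    ∑ e ∈ rw2 K i j l, F e ≤ ∑ e ∈ rwl K i l, F e + ∑ e ∈ rwl K j l, F e := by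
  have h1 : rw2 K i j l ⊆ rwl K i l ∪ rwl K j l := by
    intro e he
    rw [mem_rw2] at he
    rw [Finset.mem_union, mem_rwl, mem_rwl]
    tauto
  calc ∑ e ∈ rw2 K i j l, F e ≤ ∑ e ∈ rwl K i l ∪ rwl K j l, F e :=
        Finset.sum_le_sum_of_subset_of_nonneg h1 fun e _ _ => hF e
    _ ≤ _ := by
        rw [← Finset.sum_union_inter]
        have : 0 ≤ ∑ e ∈ rwl K i l ∩ rwl K j l, F e := Finset.sum_nonneg fun e _ => hF e
        linarith

end Vale.Agent.P146.H985
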