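import Vale.Agent.P146.H985.SymSK

/-!
# P146: exchangeability in the SK system with `K` levels (helper985)
-/

open MeasureTheory ProbabilityTheory

namespace Vale.Agent.P146.H985

open Vale.Agent.P157 Vale.Agent.P157.Lv Vale.Agent.P157.Lv.Sy
open Vale.Agent.P146.H425 Vale.Agent.P146.H93 Vale.Agent.P146.H325 Vale.Agent.P146.H946

set_option linter.unusedSectionVars false

/-! ### Partial averages under a coordinate change -/

section gen

variable {ι : Type} [Fintype ι] {π : ι ≃ ι} {ε : ι → ℝ}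

/-- the average over the levels `> l` of `lev` becomes the one of `lev ∘ π` -/
lemma J_gz_gen (hε : ∀ e, ε e * ε e = 1) (lev : ι → ℕ) (l : ℕ) (F : (ι → ℝ) → ℝ) (z : ι → ℝ) :
    J lev l F (gz π ε z) = J (fun e => lev (π e)) l (fun z => F (gz π ε z)) z := by
  unfold J
  rw [← integral_gz (π := π) hε fun w => F (mix lev l (gz π ε z) w)]
  congr 1
  funext w
  congr 1
  funext e
  obtain ⟨e', rfl⟩ := π.surjective e
  simp only [mix, gz_apply]
  split_ifs <;> rfl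

variable [DecidableEq ι]

/-- the average over `A` becomes the average over `π⁻¹ A` -/
lemma J_lvA_gz (hε : ∀ e, ε e * ε e = 1) {A B : Finset ι} (h : ∀ e, π e ∈ A ↔ e ∈ B)
    (F : (ι → ℝ) → ℝ) (z : ι → ℝ) :
    J (lvA A) 0 F (gz π ε z) = J (lvA B) 0 (fun z => F (gz π ε z)) z := by
  rw [J_gz_gen hε]
  have e1 : (fun e => lvA A (π e)) = lvA B := by
    funext e
    unfold lvA
    simp only [h e]
  rw [e1]

/-- a function which depends on the levels `≤ l`, averaged over `A` -/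
lemma dep_J_lvA {lev : ι → ℕ} {l : ℕ} {F : (ι → ℝ) → ℝ} (hF : Dep lev l F) (A : Finset ι) :
    Dep lev l (J (lvA A) 0 F) := by
  intro z w
  unfold J
  congr 1
  funext u
  refine Dep.congr hF fun e he => ?_
  unfold mix
  split_ifs
  · rfl
  · rfl

end gen

/-! ### Invariant functions of sites -/

section perm

variable {n : ℕ}

lemma exists_perm1 (i i' : Fin n) : ∃ ρ : Equiv.Perm (Fin n), ρ i = i' :=
  ⟨Equiv.swap i i', Equiv.swap_apply_left i i'⟩

lemma exists_perm2 {i k i' k' : Fin n} (h : i ≠ k) (h' : i' ≠ k') :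
    ∃ ρ : Equiv.Perm (Fin n), ρ i = i' ∧ ρ k = k' := by
  obtain ⟨ρ, hρ⟩ := exists_perm1 i i'
  have h1 : ρ k ≠ i' := fun e => h (ρ.injective (hρ.trans e.symm))
  refine ⟨ρ.trans (Equiv.swap (ρ k) k'), ?_, ?_⟩
  · rw [Equiv.trans_apply, hρ, Equiv.swap_apply_of_ne_of_ne h1.symm h']
  · rw [Equiv.trans_apply, Equiv.swap_apply_left]

lemma exists_perm3 {i j k i' j' k' : Fin n} (hij : i ≠ j) (hik : i ≠ k) (hjk : j ≠ k)
    (hij' : i' ≠ j') (hik' : i' ≠ k') (hjk' : j' ≠ k') :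
    ∃ ρ : Equiv.Perm (Fin n), ρ i = i' ∧ ρ j = j' ∧ ρ k = k' := by
  obtain ⟨ρ, hi, hj⟩ := exists_perm2 hij hij'
  have h1 : ρ k ≠ i' := fun e => hik (ρ.injective (hi.trans e.symm))
  have h2 : ρ k ≠ j' := fun e => hjk (ρ.injective (hj.trans e.symm))
  refine ⟨ρ.trans (Equiv.swap (ρ k) k'), ?_, ?_, ?_⟩
  · rw [Equiv.trans_apply, hi, Equiv.swap_apply_of_ne_of_ne h1.symm hik']
  · rw [Equiv.trans_apply, hj, Equiv.swap_apply_of_ne_of_ne h2.symm hjk']
  · rw [Equiv.trans_apply, Equiv.swap_apply_left]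

/-- an invariant function of one site -/
lemma exch1 {Ψ : Fin n → ℝ} (h : ∀ (ρ : Equiv.Perm (Fin n)) i, Ψ (ρ i) = Ψ i) (i i' : Fin n) :
    Ψ i = Ψ i' := by
  obtain ⟨ρ, hρ⟩ := exists_perm1 i i'
  rw [← hρ, h]

/-- an invariant function of two sites -/
lemma exch2 {Ψ : Fin n → Fin n → ℝ} (h : ∀ (ρ : Equiv.Perm (Fin n)) i k, Ψ (ρ i) (ρ k) = Ψ i k)
    {i k i' k' : Fin n} (hn : i ≠ k) (hn' : i' ≠ k') : Ψ i k = Ψ i' k' := by
  obtain ⟨ρ, h1, h2⟩ := exists_perm2 hn hn'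
  rw [← h1, ← h2, h]

/-- an invariant function of three sites -/
lemma exch3 {Ψ : Fin n → Fin n → Fin n → ℝ}
    (h : ∀ (ρ : Equiv.Perm (Fin n)) i j k, Ψ (ρ i) (ρ j) (ρ k) = Ψ i j k)
    {i j k i' j' k' : Fin n} (hij : i ≠ j) (hik : i ≠ k) (hjk : j ≠ k)
    (hij' : i' ≠ j') (hik' : i' ≠ k') (hjk' : j' ≠ k') : Ψ i j k = Ψ i' j' k' := by
  obtain ⟨ρ, h1, h2, h3⟩ := exists_perm3 hij hik hjk hij' hik' hjk'
  rw [← h1, ← h2, ← h3, h]

/-- the mean over the sites -/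
lemma exch1_mean {Ψ : Fin n → ℝ} (h : ∀ (ρ : Equiv.Perm (Fin n)) i, Ψ (ρ i) = Ψ i) (i : Fin n) :
    ∑ j, Ψ j = n * Ψ i := by
  rw [Finset.sum_congr rfl fun j _ => exch1 h j i]
  simp

/-- the sum over the other sites: `∑_{k ≠ i} Ψ i k = (n - 1) Ψ i k0` -/
lemma exch2_row {Ψ : Fin n → Fin n → ℝ}
    (h : ∀ (ρ : Equiv.Perm (Fin n)) i k, Ψ (ρ i) (ρ k) = Ψ i k) {i k0 : Fin n} (h0 : i ≠ k0) :
    ∑ k ∈ Finset.univ.erase i, Ψ i k = ((n : ℝ) - 1) * Ψ i k0 := by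
  have h1 : ∀ k ∈ Finset.univ.erase i, Ψ i k = Ψ i k0 := fun k hk =>
    exch2 h (Finset.ne_of_mem_erase hk).symm h0
  rw [Finset.sum_congr rfl h1, Finset.sum_const, nsmul_eq_mul,
    Finset.card_erase_of_mem (Finset.mem_univ i), Finset.card_univ, Fintype.card_fin]
  have hn : 1 ≤ n := by have := i.2; omega
  rw [Nat.cast_sub hn, Nat.cast_one]

/-- the row sum is the same for all sites, transposed or not -/
lemma exch2_sum {Ψ : Fin n → Fin n → ℝ}
    (h : ∀ (ρ : Equiv.Perm (Fin n)) i k, Ψ (ρ i) (ρ k) = Ψ i k) (i i' : Fin n) :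
    ∑ k, Ψ i k = ∑ k, Ψ i' k := by
  obtain ⟨ρ, hρ⟩ := exists_perm1 i i'
  rw [← Equiv.sum_comp ρ fun k => Ψ i' k]
  refine Finset.sum_congr rfl fun k _ => ?_
  rw [← hρ, h]

/-- the double sum -/
lemma exch2_double {Ψ : Fin n → Fin n → ℝ}
    (h : ∀ (ρ : Equiv.Perm (Fin n)) i k, Ψ (ρ i) (ρ k) = Ψ i k) (i : Fin n) :
    ∑ j, ∑ k, Ψ j k = n * ∑ k, Ψ i k := by
  rw [Finset.sum_congr rfl fun j _ => exch2_sum h j i]
  simp

/-- the diagonal and the off-diagonal part of a double sum -/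
lemma exch2_split {Ψ : Fin n → Fin n → ℝ}
    (h : ∀ (ρ : Equiv.Perm (Fin n)) i k, Ψ (ρ i) (ρ k) = Ψ i k) {i k0 : Fin n} (h0 : i ≠ k0) :
    ∑ j, ∑ k, Ψ j k = n * Ψ i i + n * ((n : ℝ) - 1) * Ψ i k0 := by
  rw [exch2_double h i, ← Finset.add_sum_erase _ _ (Finset.mem_univ i), exch2_row h h0]
  ring

end perm

/-! ### The SK system -/

section sk

variable {n K : ℕ} {m b w : ℕ → ℝ}

lemma mem_rwl_pC (ρ : Equiv.Perm (Fin n)) (i : Fin n) (l : ℕ) (e : Cd n K) :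
    pC K ρ e ∈ rwl K (ρ i) l ↔ e ∈ rwl K i l := by
  rw [mem_rwl, mem_rwl]
  have h := tch_map ρ i e.1
  have e1 : (pC K ρ e).1 = Equiv.sumCongr (pmE ρ) ρ e.1 := rfl
  rw [e1, h]
  rfl

lemma mem_rw1_pC (ρ : Equiv.Perm (Fin n)) (i : Fin n) (l : Fin K) (e : Cd n K) :
    pC K ρ e ∈ rw1 (ρ i) l ↔ e ∈ rw1 i l := by
  unfold rw1
  simp only [Finset.mem_filter, Finset.mem_univ, true_and]
  have h := tch_map ρ i e.1
  have e1 : (pC K ρ e).1 = Equiv.sumCongr (pmE ρ) ρ e.1 := rfl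
  rw [e1, h]
  rfl

lemma mem_rw2_pC (ρ : Equiv.Perm (Fin n)) (i j : Fin n) (l : ℕ) (e : Cd n K) :
    pC K ρ e ∈ rw2 K (ρ i) (ρ j) l ↔ e ∈ rw2 K i j l := by
  rw [mem_rw2, mem_rw2]
  have h := tch_map ρ i e.1
  have h' := tch_map ρ j e.1
  have e1 : (pC K ρ e).1 = Equiv.sumCongr (pmE ρ) ρ e.1 := rfl
  rw [e1, h, h']
  rfl

/-- **A site permutation carries the average over a row to the average over a row.** -/
theorem J_row_pC (ρ : Equiv.Perm (Fin n)) (i : Fin n) (l : ℕ) (F : (Cd n K → ℝ) → ℝ)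
    (z : Cd n K → ℝ) :
    J (lvA (rwl K (ρ i) l)) 0 F (gz (pC K ρ) (fun _ => 1) z) =
      J (lvA (rwl K i l)) 0 (fun z => F (gz (pC K ρ) (fun _ => 1) z)) z :=
  J_lvA_gz (fun _ => one_mul 1) (mem_rwl_pC ρ i l) F z

theorem J_rw1_pC (ρ : Equiv.Perm (Fin n)) (i : Fin n) (l : Fin K) (F : (Cd n K → ℝ) → ℝ)
    (z : Cd n K → ℝ) :
    J (lvA (rw1 (ρ i) l)) 0 F (gz (pC K ρ) (fun _ => 1) z) =
      J (lvA (rw1 i l)) 0 (fun z => F (gz (pC K ρ) (fun _ => 1) z)) z :=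
  J_lvA_gz (fun _ => one_mul 1) (mem_rw1_pC ρ i l) F z

theorem J_rw2_pC (ρ : Equiv.Perm (Fin n)) (i j : Fin n) (l : ℕ) (F : (Cd n K → ℝ) → ℝ)
    (z : Cd n K → ℝ) :
    J (lvA (rw2 K (ρ i) (ρ j) l)) 0 F (gz (pC K ρ) (fun _ => 1) z) =
      J (lvA (rw2 K i j l)) 0 (fun z => F (gz (pC K ρ) (fun _ => 1) z)) z :=
  J_lvA_gz (fun _ => one_mul 1) (mem_rw2_pC ρ i j l) F z

/-- the integral of the square of a row average is invariant -/
theorem int_row_sq (ρ : Equiv.Perm (Fin n)) (i : Fin n) (l : ℕ) {F G : (Cd n K → ℝ) → ℝ}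
    (h : ∀ z, F (gz (pC K ρ) (fun _ => 1) z) = G z) :
    ∫ z, J (lvA (rwl K (ρ i) l)) 0 F z ^ 2 ∂(gI (Cd n K)) =
      ∫ z, J (lvA (rwl K i l)) 0 G z ^ 2 ∂(gI (Cd n K)) := by
  rw [← integral_gz (π := pC K ρ) (ε := fun _ => (1 : ℝ)) (fun _ => one_mul 1)
    fun z => J (lvA (rwl K (ρ i) l)) 0 F z ^ 2]
  simp only [J_row_pC, h]

/-- the integral of the square is invariant -/
theorem int_gz_one (ρ : Equiv.Perm (Fin n)) {F G : (Cd n K → ℝ) → ℝ}
    (h : ∀ z, F (gz (pC K ρ) (fun _ => 1) z) = G z) :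
    ∫ z, F z ∂(gI (Cd n K)) = ∫ z, G z ∂(gI (Cd n K)) := by
  rw [← integral_gz (π := pC K ρ) (ε := fun _ => (1 : ℝ)) (fun _ => one_mul 1) F]
  simp only [h]

/-! #### Conditional averages of monomials -/

/-- `T_l x_i` -/
lemma T_sp_pC (hm : Em K m) (b w : ℕ → ℝ) (ρ : Equiv.Perm (Fin n)) (l : ℕ) (i : Fin n)
    (z : Cd n K → ℝ) :
    (skS n K m b w).T l (fun _ x => sp x (ρ i)) (gz (pC K ρ) (fun _ => 1) z) =
      (skS n K m b w).T l (fun _ x => sp x i) z := by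
  rw [(sys_perm hm b w ρ).T_snd]
  simp only [sp_pX_symm, Equiv.symm_apply_apply]

/-- `T_l (x_i x_j)` -/
lemma T_sp2_pC (hm : Em K m) (b w : ℕ → ℝ) (ρ : Equiv.Perm (Fin n)) (l : ℕ) (i j : Fin n)
    (z : Cd n K → ℝ) :
    (skS n K m b w).T l (fun _ x => sp x (ρ i) * sp x (ρ j)) (gz (pC K ρ) (fun _ => 1) z) =
      (skS n K m b w).T l (fun _ x => sp x i * sp x j) z := by
  rw [(sys_perm hm b w ρ).T_snd l (fun x => sp x (ρ i) * sp x (ρ j))]
  simp only [sp_pX_symm, Equiv.symm_apply_apply]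

/-- `T_l (f)` for an equivariant family -/
lemma T_pC (hm : Em K m) (b w : ℕ → ℝ) (ρ : Equiv.Perm (Fin n)) (l : ℕ)
    {f g : (Cd n K → ℝ) → (Fin n → ℤˣ) → ℝ}
    (h : ∀ z x, f (gz (pC K ρ) (fun _ => 1) z) ((pX ρ).symm x) = g z x) (z : Cd n K → ℝ) :
    (skS n K m b w).T l f (gz (pC K ρ) (fun _ => 1) z) = (skS n K m b w).T l g z := by
  rw [(sys_perm hm b w ρ).T]
  simp only [h]

/-- `T_l x_i` is odd under the flip of `i` -/
lemma T_sp_flip (hm : Em K m) (b w : ℕ → ℝ) (l : ℕ) (i : Fin n) (z : Cd n K → ℝ) :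
    (skS n K m b w).T l (fun _ x => sp x i) (gz (Equiv.refl _) (fE i) z) =
      -(skS n K m b w).T l (fun _ x => sp x i) z :=
  (sys_flip hm b w i).T_odd l (f := fun x => sp x i) (fun x => by
    rw [fX_symm, sp_fX_self]) z

/-- `T_l x_k`, `k ≠ i`, is even under the flip of `i` -/
lemma T_sp_flip_ne (hm : Em K m) (b w : ℕ → ℝ) (l : ℕ) {i k : Fin n} (h : k ≠ i)
    (z : Cd n K → ℝ) :
    (skS n K m b w).T l (fun _ x => sp x k) (gz (Equiv.refl _) (fE i) z) =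
      (skS n K m b w).T l (fun _ x => sp x k) z :=
  (sys_flip hm b w i).T_even l (f := fun x => sp x k) (fun x => by
    rw [fX_symm, sp_fX_ne h]) z

/-- `Ex (T_l x_i) ^ 2` does not depend on `i` -/
lemma Ex_T_sp_sq (hm : Em K m) (b w : ℕ → ℝ) (l : ℕ) (ρ : Equiv.Perm (Fin n)) (i : Fin n) :
    (skS n K m b w).Ex (fun z _ => (skS n K m b w).T l (fun _ x => sp x (ρ i)) z ^ 2) =
      (skS n K m b w).Ex (fun z _ => (skS n K m b w).T l (fun _ x => sp x i) z ^ 2) := by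
  rw [← (sys_perm hm b w ρ).Ex_fst
    fun z => (skS n K m b w).T l (fun _ x => sp x (ρ i)) z ^ 2]
  simp only [T_sp_pC hm]

lemma Ex_T_sp2_sq (hm : Em K m) (b w : ℕ → ℝ) (l : ℕ) (ρ : Equiv.Perm (Fin n)) (i j : Fin n) :
    (skS n K m b w).Ex (fun z _ =>
        (skS n K m b w).T l (fun _ x => sp x (ρ i) * sp x (ρ j)) z ^ 2) =
      (skS n K m b w).Ex (fun z _ =>
        (skS n K m b w).T l (fun _ x => sp x i * sp x j) z ^ 2) := by
  rw [← (sys_perm hm b w ρ).Ex_fst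
    fun z => (skS n K m b w).T l (fun _ x => sp x (ρ i) * sp x (ρ j)) z ^ 2]
  simp only [T_sp2_pC hm]

/-- the overlap -/
lemma Rov_sp (x x' : Fin n → ℤˣ) : Rov (fun x i => sp x i) x x' = 1 / n * ∑ i, sp x i * sp x' i :=
  rfl

/-- a square of a conditional average as a pair average -/
lemma T_sq_pr {S : Sy (Cd n K) (Fin n → ℤˣ)} (hS : S.Reg) {l : ℕ} (hl : l ≤ S.K)
    (f : (Fin n → ℤˣ) → ℝ) (z : Cd n K → ℝ) :
    S.T l (fun _ x => f x) z ^ 2 = ∑ x, ∑ x', S.pr l z x * S.pr l z x' * (f x * f x') := by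
  rw [hS.T_pr hl, sq, Finset.sum_mul_sum]
  refine Finset.sum_congr rfl fun x _ => Finset.sum_congr rfl fun x' _ => ?_
  ring

/-- **`Ex (T_l x_i)² = E R_l` for every site.** -/
theorem Ex_T_sp_eq (hm : Em K m) (b w : ℕ → ℝ) {l : ℕ} (hl : l ≤ K) (i : Fin n) :
    (skS n K m b w).Ex (fun z _ => (skS n K m b w).T l (fun _ x => sp x i) z ^ 2) =
      (skS n K m b w).pairEx l (Rov fun x i => sp x i) := by
  have hR := (linS_sk (n := n) hm b w).reg
  have hn : (0 : ℝ) < n := by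
    have := i.2
    exact_mod_cast (by omega : 0 < n)
  have h1 := exch1_mean (Ψ := fun i => (skS n K m b w).Ex
    (fun z _ => (skS n K m b w).T l (fun _ x => sp x i) z ^ 2)) (Ex_T_sp_sq hm b w l) i
  have h2 : (skS n K m b w).pairEx l (Rov fun x i => sp x i) = 1 / n * ∑ j,
      (skS n K m b w).Ex (fun z _ => (skS n K m b w).T l (fun _ x => sp x j) z ^ 2) := by
    rw [← hR.Ex_sum Finset.univ fun j _ => Nh.fst ((hR.eg_T hl (Nh.snd fun x => sp x j)).pow 2),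
      ← Ex_const_mul]
    unfold Sy.pairEx
    congr 1
    funext z _
    rw [Finset.mul_sum]
    have e3 : ∀ j : Fin n, (skS n K m b w).T l (fun _ x => sp x j) z ^ 2 =
        ∑ x, ∑ x', (skS n K m b w).pr l z x * (skS n K m b w).pr l z x' * (sp x j * sp x' j) :=
      fun j => T_sq_pr hR hl (fun x => sp x j) z
    simp only [e3, Rov_sp]
    have e4 : ∀ F : Fin n → (Fin n → ℤˣ) → (Fin n → ℤˣ) → ℝ,
        ∑ i, 1 / (n : ℝ) * ∑ x, ∑ x', F i x x' = ∑ x, ∑ x', 1 / (n : ℝ) * ∑ i, F i x x' := by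
      intro F
      rw [← Finset.mul_sum]
      calc 1 / (n : ℝ) * ∑ i, ∑ x, ∑ x', F i x x' = 1 / (n : ℝ) * ∑ x, ∑ i, ∑ x', F i x x' := by
            rw [Finset.sum_comm]
        _ = 1 / (n : ℝ) * ∑ x, ∑ x', ∑ i, F i x x' := by
            congr 1
            exact Finset.sum_congr rfl fun x _ => Finset.sum_comm
        _ = _ := by
            rw [Finset.mul_sum]
            exact Finset.sum_congr rfl fun x _ => Finset.mul_sum _ _ _
    rw [e4]
    refine Finset.sum_congr rfl fun x _ => Finset.sum_congr rfl fun x' _ => ?_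
    rw [← Finset.mul_sum]
    ring
  rw [h2, h1]
  field_simp

/-- **`E R_l² = 1 / n + (1 - 1 / n) Ex (T_l x_i x_j)²`.** -/
theorem Ex_T_sp2_eq (hm : Em K m) (b w : ℕ → ℝ) {l : ℕ} (hl : l ≤ K) {i j : Fin n}
    (hij : i ≠ j) :
    (skS n K m b w).pairEx l (fun x x' => Rov (fun x i => sp x i) x x' ^ 2) =
      1 / n + (1 - 1 / n) * (skS n K m b w).Ex
        (fun z _ => (skS n K m b w).T l (fun _ x => sp x i * sp x j) z ^ 2) := by
  have hR := (linS_sk (n := n) hm b w).reg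
  have hn : (0 : ℝ) < n := by
    have := i.2
    exact_mod_cast (by omega : 0 < n)
  have h1 := exch2_split (Ψ := fun i j => (skS n K m b w).Ex
    (fun z _ => (skS n K m b w).T l (fun _ x => sp x i * sp x j) z ^ 2))
    (Ex_T_sp2_sq hm b w l) hij
  have h2 : (skS n K m b w).pairEx l (fun x x' => Rov (fun x i => sp x i) x x' ^ 2) =
      1 / n ^ 2 * ∑ i, ∑ j, (skS n K m b w).Ex
        (fun z _ => (skS n K m b w).T l (fun _ x => sp x i * sp x j) z ^ 2) := by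
    have e1 : ∀ i, ∑ j, (skS n K m b w).Ex
        (fun z _ => (skS n K m b w).T l (fun _ x => sp x i * sp x j) z ^ 2) =
        (skS n K m b w).Ex
        (fun z _ => ∑ j, (skS n K m b w).T l (fun _ x => sp x i * sp x j) z ^ 2) := fun i =>
      (hR.Ex_sum Finset.univ fun j _ =>
        Nh.fst ((hR.eg_T hl (Nh.snd fun x => sp x i * sp x j)).pow 2)).symm
    simp only [e1]
    rw [← hR.Ex_sum Finset.univ fun i _ => Nh.fst (EG.sum _ fun j _ =>
      (hR.eg_T hl (Nh.snd fun x => sp x i * sp x j)).pow 2), ← Ex_const_mul]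
    unfold Sy.pairEx
    congr 1
    funext z _
    have e2 : ∀ x x' : Fin n → ℤˣ, Rov (fun x i => sp x i) x x' ^ 2 =
        1 / n ^ 2 * ∑ i, ∑ j, (sp x i * sp x j) * (sp x' i * sp x' j) := by
      intro x x'
      rw [Rov_sp, mul_pow, sq (∑ i, sp x i * sp x' i), Finset.sum_mul_sum]
      congr 1
      · field_simp
      · refine Finset.sum_congr rfl fun i _ => Finset.sum_congr rfl fun j _ => ?_
        ring
    have e3 : ∀ i j : Fin n, (skS n K m b w).T l (fun _ x => sp x i * sp x j) z ^ 2 =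
        ∑ x, ∑ x', (skS n K m b w).pr l z x * (skS n K m b w).pr l z x' *
          ((sp x i * sp x j) * (sp x' i * sp x' j)) := fun i j =>
      T_sq_pr hR hl (fun x => sp x i * sp x j) z
    simp only [e2, e3]
    have e4 : ∀ F : Fin n → Fin n → (Fin n → ℤˣ) → (Fin n → ℤˣ) → ℝ,
        ∑ i, ∑ j, ∑ x, ∑ x', F i j x x' = ∑ x, ∑ x', ∑ i, ∑ j, F i j x x' := by
      intro F
      calc ∑ i, ∑ j, ∑ x, ∑ x', F i j x x' = ∑ i, ∑ x, ∑ j, ∑ x', F i j x x' :=
            Finset.sum_congr rfl fun i _ => Finset.sum_comm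
        _ = ∑ x, ∑ i, ∑ j, ∑ x', F i j x x' := Finset.sum_comm
        _ = ∑ x, ∑ i, ∑ x', ∑ j, F i j x x' :=
            Finset.sum_congr rfl fun x _ => Finset.sum_congr rfl fun i _ => Finset.sum_comm
        _ = ∑ x, ∑ x', ∑ i, ∑ j, F i j x x' :=
            Finset.sum_congr rfl fun x _ => Finset.sum_comm
    rw [e4, Finset.mul_sum]
    refine Finset.sum_congr rfl fun x _ => ?_
    rw [Finset.mul_sum]
    refine Finset.sum_congr rfl fun x' _ => ?_
    simp_rw [← Finset.mul_sum]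
    ring
  have h3 : (skS n K m b w).Ex
      (fun z _ => (skS n K m b w).T l (fun _ x => sp x i * sp x i) z ^ 2) = 1 := by
    simp only [sp_mul_self, hR.T_const hl, one_pow, hR.Ex_const]
  rw [h2, h1, h3]
  field_simp

/-- a sum over the row of `i` at the levels `≤ l` -/
lemma sum_rwl (i : Fin n) {l : ℕ} (hl : l ≤ K) (F : Cd n K → ℝ) :
    ∑ e ∈ rwl K i l, F e = ∑ k : Fin l,
      (∑ j : {j : Fin n // j ≠ i}, F (Sum.inl (bnd i j.1 j.2.symm), Fin.castLE hl k) +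
        F (Sum.inr i, Fin.castLE hl k)) := by
  have e1 : rwl K i l = (Finset.univ : Finset (Fin l)).biUnion
      fun k => rw1 i (Fin.castLE hl k) := by
    ext e
    rw [mem_rwl]
    unfold rw1
    simp only [Finset.mem_biUnion, Finset.mem_filter, Finset.mem_univ, true_and]
    constructor
    · rintro ⟨h3, h4⟩
      exact ⟨⟨e.2, by omega⟩, rfl, h4⟩
    · rintro ⟨k, h4, h5⟩
      rw [h4]
      exact ⟨by simp only [Fin.val_castLE]; omega, h5⟩
  rw [e1, Finset.sum_biUnion]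
  · exact Finset.sum_congr rfl fun k _ => sum_rw1 i _ F
  · intro k _ k' _ hkk
    rw [Function.onFun, Finset.disjoint_left]
    intro e he he'
    unfold rw1 at he he'
    simp only [Finset.mem_filter, Finset.mem_univ, true_and] at he he'
    have h1 := he.1.symm.trans he'.1
    exact hkk (Fin.castLE_injective hl h1)

end sk

end Vale.Agent.P146.H985
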