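import Vale.Agent.P146.H758.Sand
import Vale.Agent.P146.H479.Expo

/-!
# P146, lower half, S3: blocks of levels and exponents (helper985)

* `fe_blk`: a law whose exponents are constant on blocks of levels is the law with one level for
  each block (the variances add up).
* `fe_ray`: exponents within a factor `1 ± δ` of `e`: the free energies differ by at most
  `(δ / Δ) (fe ((1 + Δ) e) - fe e)` at the same bonds and fields.
* `fe_exp`: both together.
-/

open MeasureTheory ProbabilityTheory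

namespace Vale.Agent.P146.H985.S3

open Vale.Agent.P157 Vale.Agent.P157.Lv Vale.Agent.P157.Lv.Sy
open Vale.Agent.P146.H425 Vale.Agent.P146.H325 Vale.Agent.P146.H93
open Vale.Agent.P146.H479 Vale.Agent.P146.H758
open Vale.Agent.P146.H66 (fe_mono_m)

set_option linter.unusedSectionVars false

/-- the levels `1, …, K` in `L` blocks: the block `l + 1` has the levels `k l < j ≤ k (l + 1)` -/
structure Blk (K L : ℕ) (k : ℕ → ℕ) : Prop where
  k0 : k 0 = 0
  kL : k L = K
  mono : ∀ l < L, k l ≤ k (l + 1)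

lemma Blk.le {K L : ℕ} {k : ℕ → ℕ} (h : Blk K L k) : ∀ {l : ℕ}, l ≤ L → k l ≤ K := by
  intro l hl
  have h1 : ∀ d l, l + d = L → k l ≤ K := by
    intro d
    induction d with
    | zero =>
      intro l hl
      rw [show l = L by omega, h.kL]
    | succ d ih =>
      intro l hl
      exact (h.mono l (by omega)).trans (ih (l + 1) (by omega))
  exact h1 (L - l) l (by omega)

section chain

variable {κ : Type} [Fintype κ] {F : (κ → ℝ) → ℝ} {m e : ℕ → ℝ} {v v' : ℕ → κ → ℝ}
  {K L : ℕ} {k : ℕ → ℕ}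

/-- **A chain with block exponents.** -/
theorem VG_blk (hF : Lip F) (hk : Blk K L k) (hm : ∀ j, 1 ≤ j → j ≤ K → 0 < m j)
    (he : ∀ l, 1 ≤ l → l ≤ L → 0 < e l)
    (hme : ∀ l < L, ∀ j, k l < j → j ≤ k (l + 1) → m j = e (l + 1))
    (hv : ∀ l < L, ∀ i, √(∑ j ∈ Finset.Ioc (k l) (k (l + 1)), v j i ^ 2) = v' (l + 1) i) :
    ∀ d l, l + d = L → VG m v F (k l) (K - k l) = VG e v' F l d
  | 0, l, h => by
    have : l = L := by omega
    rw [this, hk.kL, Nat.sub_self, VG_zero, VG_zero]
  | d + 1, l, h => by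
    have h1 := VG_blk hF hk hm he hme hv d (l + 1) (by omega)
    have h2 := hk.mono l (by omega)
    have h3 := hk.le (l := l + 1) (by omega)
    have e1 : k l + (k (l + 1) - k l) = k (l + 1) := by omega
    have e2 : (k (l + 1) - k l) + (K - k (l + 1)) = K - k l := by omega
    have h4 := VG_add (m := m) (v := v) F (K - k (l + 1)) (k (l + 1) - k l) (k l)
    rw [e1, e2] at h4
    rw [← h4, VG_succ, ← h1]
    have hL : Lip (VG m v F (k (l + 1)) (K - k (l + 1))) :=
      Lip.VG hF _ _ fun j h5 h6 => hm j (by omega) (by omega)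
    rw [VG_const hL (he (l + 1) (by omega) (by omega)) (k (l + 1) - k l) (k l)
      (fun j h5 h6 => hme l (by omega) j h5 (by omega))]
    congr 1
    funext i
    rw [← hv l (by omega) i]
    congr 1
    have e3 : Finset.Ioc (k l) (k (l + 1)) = Finset.Ico (k l + 1) (k (l + 1) + 1) := by
      ext j
      simp only [Finset.mem_Ioc, Finset.mem_Ico]
      omega
    rw [e3, Finset.sum_Ico_eq_sum_range, show k (l + 1) + 1 - (k l + 1) = k (l + 1) - k l by omega]

end chain

variable {n K L : ℕ} {m e b w b' w' : ℕ → ℝ} {k : ℕ → ℕ} {δ Δ : ℝ}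

/-- **A law with block exponents.** -/
theorem fe_blk (hm : Em K m) (he : Em L e) (hk : Blk K L k)
    (hme : ∀ l < L, ∀ j, k l < j → j ≤ k (l + 1) → m j = e (l + 1))
    (hb' : ∀ l < L, 0 ≤ b' (l + 1)) (hw' : ∀ l < L, 0 ≤ w' (l + 1))
    (hb : ∀ l < L, ∑ j ∈ Finset.Ioc (k l) (k (l + 1)), b j ^ 2 = b' (l + 1) ^ 2)
    (hw : ∀ l < L, ∑ j ∈ Finset.Ioc (k l) (k (l + 1)), w j ^ 2 = w' (l + 1) ^ 2) :
    (skS n K m b w).fe = (skS n L e b' w').fe := by
  rw [fe_eq hm, fe_eq he]
  have h := VG_blk (F := F0 n) (v := va (n := n) b w) (v' := va (n := n) b' w') (F0_lip n) hk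
    (fun j h1 h2 => Em.pm hm j (by omega) (by omega))
    (fun j h1 h2 => Em.pm he j (by omega) (by omega)) hme (fun l hl i => by
      rcases i with p | i
      · simp only [va_inl]
        rw [hb l hl, Real.sqrt_sq (hb' l hl)]
      · simp only [va_inr]
        rw [hw l hl, Real.sqrt_sq (hw' l hl)]) L 0 (by omega)
  rw [hk.k0, Nat.sub_zero] at h
  rw [h]

/-! ### exponents -/

/-- the exponents multiplied by `t` -/
def ray (K : ℕ) (t : ℝ) (e : ℕ → ℝ) (j : ℕ) : ℝ := if j ≤ K then t * e j else e j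

lemma ray_one (K : ℕ) (e : ℕ → ℝ) : ray K 1 e = e := by
  funext j
  unfold ray
  split_ifs <;> simp

lemma em_ray (he : Em K e) {t : ℝ} (ht : 0 < t) (h1 : t * e K ≤ 1) : Em K (ray K t e) where
  m0 := by
    unfold ray
    rw [if_pos (Nat.zero_le _), he.m0, mul_zero]
  mK := by
    unfold ray
    rw [if_neg (by omega)]
    exact he.mK
  mono := fun l hl => by
    unfold ray
    rw [if_pos hl]
    split_ifs with h
    · exact mul_le_mul_of_nonneg_left (he.mono l hl) ht.le
    · have : l = K := by omega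
      subst this
      rw [he.mK]
      exact h1
  pos := by
    unfold ray
    split_ifs
    · exact mul_pos ht he.pos
    · exact he.pos

lemma ray_conv (K : ℕ) (e : ℕ → ℝ) {a c s t r : ℝ} (hac : a + c = 1) (h : a * s + c * t = r) :
    (fun j => a * ray K s e j + c * ray K t e j) = ray K r e := by
  funext j
  unfold ray
  split_ifs
  · rw [← h]; ring
  · rw [← add_mul, hac, one_mul]

/-- convexity along the ray -/
lemma fe_ray_conv (he : Em K e) {a c s t r : ℝ} (ha : 0 ≤ a) (hc : 0 ≤ c) (hac : a + c = 1)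
    (h : a * s + c * t = r) (hs : 0 < s) (hs1 : s * e K ≤ 1) (ht : 0 < t) (ht1 : t * e K ≤ 1)
    (b w : ℕ → ℝ) : (skS n K (ray K r e) b w).fe ≤
      a * (skS n K (ray K s e) b w).fe + c * (skS n K (ray K t e) b w).fe := by
  have h1 := fe_conv (n := n) (em_ray he hs hs1) (em_ray he ht ht1) b w ha hc hac
  rwa [ray_conv K e hac h] at h1

/-- **Exponents within a factor.** -/
theorem fe_ray (hm : Em K m) (he : Em K e) (hK : 1 ≤ K) (hδ : 0 ≤ δ) (hδ1 : δ < 1) (hΔ : 0 < Δ)
    (hδΔ : δ ≤ Δ) (h1 : (1 + Δ) * e K ≤ 1)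
    (hme : ∀ j, 1 ≤ j → j ≤ K → |m j - e j| ≤ δ * e j) (b w : ℕ → ℝ) :
    |(skS n K m b w).fe - (skS n K e b w).fe| ≤
      δ / Δ * ((skS n K (ray K (1 + Δ) e) b w).fe - (skS n K e b w).fe) := by
  have heK : 0 < e K := Em.pm he K (by omega) (by omega)
  have hup : (1 + δ) * e K ≤ 1 := le_trans (by nlinarith) h1
  have hlo : (1 - δ) * e K ≤ 1 := le_trans (by nlinarith) h1
  have hone : 1 * e K ≤ 1 := le_trans (by nlinarith) h1
  have a1 := fe_mono_m (n := n) hm (em_ray he (by linarith : 0 < 1 + δ) hup) (fun j h2 h3 => by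
    unfold ray
    rw [if_pos h3]
    have := (abs_le.1 (hme j h2 h3)).2
    linarith) b w
  have a2 := fe_mono_m (n := n) (em_ray he (by linarith : 0 < 1 - δ) hlo) hm (fun j h2 h3 => by
    unfold ray
    rw [if_pos h3]
    have := (abs_le.1 (hme j h2 h3)).1
    linarith) b w
  have hd0 : 0 ≤ δ / Δ := by positivity
  have hd1 : δ / Δ ≤ 1 := by rw [div_le_one hΔ]; exact hδΔ
  have c1 := fe_ray_conv (n := n) he (a := 1 - δ / Δ) (c := δ / Δ) (s := 1) (t := 1 + Δ)
    (r := 1 + δ) (by linarith) hd0 (by ring) (by field_simp; ring) one_pos hone (by linarith) h1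
    b w
  have c2 := fe_ray_conv (n := n) he (a := 1 / 2) (c := 1 / 2) (s := 1 - δ) (t := 1 + δ)
    (r := 1) (by norm_num) (by norm_num) (by norm_num) (by ring) (by linarith) hlo
    (by linarith) hup b w
  rw [ray_one] at c1 c2
  rw [abs_le]
  constructor <;> nlinarith

/-- the exponents `e` of the blocks, as exponents of the levels -/
def bx (L : ℕ) (k : ℕ → ℕ) (e : ℕ → ℝ) (j : ℕ) : ℝ :=
  if j = 0 then 0 else e (((Finset.range L).filter fun l => k (l + 1) < j).card + 1)

lemma Blk.mono' (hk : Blk K L k) : ∀ {l l' : ℕ}, l ≤ l' → l' ≤ L → k l ≤ k l' := by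
  intro l l' h h'
  induction l', h using Nat.le_induction with
  | base => exact le_rfl
  | succ q hq ih => exact (ih (by omega)).trans (hk.mono q (by omega))

lemma bx_blk (hk : Blk K L k) (e : ℕ → ℝ) {l j : ℕ} (hl : l < L) (h1 : k l < j)
    (h2 : j ≤ k (l + 1)) : bx L k e j = e (l + 1) := by
  unfold bx
  rw [if_neg (by omega)]
  congr 2
  have e1 : ((Finset.range L).filter fun l => k (l + 1) < j) = Finset.range l := by
    ext i
    simp only [Finset.mem_filter, Finset.mem_range]
    constructor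
    · rintro ⟨h3, h4⟩
      by_contra h5
      have := hk.mono' (l := l + 1) (l' := i + 1) (by omega) (by omega)
      omega
    · intro h3
      refine ⟨by omega, ?_⟩
      have := hk.mono' (l := i + 1) (l' := l) (by omega) (by omega)
      omega
  rw [e1, Finset.card_range]

lemma bx_top (hk : Blk K L k) (e : ℕ → ℝ) : bx L k e (K + 1) = e (L + 1) := by
  unfold bx
  rw [if_neg (by omega)]
  congr 2
  rw [Finset.filter_true_of_mem, Finset.card_range]
  intro l hl
  have := hk.le (l := l + 1) (by have := Finset.mem_range.1 hl; omega)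
  omega

lemma exists_blk (hk : Blk K L k) {j : ℕ} (h1 : 1 ≤ j) (h2 : j ≤ K) :
    ∃ l < L, k l < j ∧ j ≤ k (l + 1) := by
  by_contra hc
  push Not at hc
  have h3 : ∀ l ≤ L, k l < j := by
    intro l
    induction l with
    | zero =>
      intro _
      rw [hk.k0]
      omega
    | succ l ih =>
      intro hl
      exact hc l (by omega) (ih (by omega))
  have := h3 L le_rfl
  rw [hk.kL] at this
  omega

lemma em_bx (hk : Blk K L k) (he : Em L e) : Em K (bx L k e) where
  m0 := by unfold bx; rw [if_pos rfl]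
  mK := by rw [bx_top hk, he.mK]
  mono := fun j hj => by
    have hc : ∀ i, ((Finset.range L).filter fun l => k (l + 1) < i).card + 1 ≤ L + 1 := by
      intro i
      have := Finset.card_filter_le (Finset.range L) (fun l => k (l + 1) < i)
      rw [Finset.card_range] at this
      omega
    have h0 : ∀ i, i ≤ L + 1 → 0 ≤ e i := by
      intro i hi
      rcases Nat.eq_zero_or_pos i with rfl | h
      · exact he.m0.ge
      · have := em_mono he h hi
        linarith [he.pos]
    unfold bx
    rw [if_neg (by omega : ¬ j + 1 = 0)]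
    split_ifs with h
    · exact h0 _ (hc _)
    · refine em_mono he ?_ (hc _)
      have : ((Finset.range L).filter fun l => k (l + 1) < j).card ≤
          ((Finset.range L).filter fun l => k (l + 1) < j + 1).card := by
        refine Finset.card_le_card fun l hl => ?_
        rw [Finset.mem_filter] at hl ⊢
        exact ⟨hl.1, by omega⟩
      omega
  pos := by
    have hc : ((Finset.range L).filter fun l => k (l + 1) < 1).card + 1 ≤ L + 1 := by
      have := Finset.card_filter_le (Finset.range L) (fun l => k (l + 1) < 1)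
      rw [Finset.card_range] at this
      omega
    unfold bx
    rw [if_neg (by omega)]
    exact he.pos.trans_le (em_mono he (by omega) hc)

/-- **Exponents and blocks.** -/
theorem fe_exp (hm : Em K m) (he : Em L e) (hK : 1 ≤ K) (hk : Blk K L k)
    (hδ : 0 ≤ δ) (hδ1 : δ < 1) (hΔ : 0 < Δ) (hδΔ : δ ≤ Δ) (h1 : (1 + Δ) * e L ≤ 1)
    (hme : ∀ l < L, ∀ j, k l < j → j ≤ k (l + 1) → |m j - e (l + 1)| ≤ δ * e (l + 1))
    (hb' : ∀ l < L, 0 ≤ b' (l + 1)) (hw' : ∀ l < L, 0 ≤ w' (l + 1))
    (hb : ∀ l < L, ∑ j ∈ Finset.Ioc (k l) (k (l + 1)), b j ^ 2 = b' (l + 1) ^ 2)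
    (hw : ∀ l < L, ∑ j ∈ Finset.Ioc (k l) (k (l + 1)), w j ^ 2 = w' (l + 1) ^ 2) :
    |(skS n K m b w).fe - (skS n L e b' w').fe| ≤
      δ / Δ * ((skS n L (ray L (1 + Δ) e) b' w').fe - (skS n L e b' w').fe) := by
  have hx := em_bx hk he
  have hL : 1 ≤ L := by
    obtain ⟨l, hl, _⟩ := exists_blk hk (le_refl 1) hK
    omega
  have heL : 0 < e L := Em.pm he L (by omega) (by omega)
  have hxK : (1 + Δ) * bx L k e K ≤ 1 := by
    obtain ⟨l, hl, h2, h3⟩ := exists_blk hk hK le_rfl
    rw [bx_blk hk e hl h2 h3]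
    refine le_trans (mul_le_mul_of_nonneg_left (em_mono he (by omega) (by omega) :
      e (l + 1) ≤ e L) (by linarith)) h1
  have h4 := fe_ray (n := n) hm hx hK hδ hδ1 hΔ hδΔ hxK (fun j h2 h3 => by
    obtain ⟨l, hl, h5, h6⟩ := exists_blk hk h2 h3
    rw [bx_blk hk e hl h5 h6]
    exact hme l hl j h5 h6) b w
  rw [fe_blk (n := n) hx he hk (fun l hl j h2 h3 => bx_blk hk e hl h2 h3) hb' hw' hb hw,
    fe_blk (n := n) (em_ray hx (by linarith : 0 < 1 + Δ) hxK)
      (em_ray he (by linarith : 0 < 1 + Δ) h1) hk (fun l hl j h2 h3 => by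
        have h5 : j ≤ K := h3.trans (hk.le (by omega))
        unfold ray
        rw [if_pos h5, if_pos (by omega), bx_blk hk e hl h2 h3]) hb' hw' hb hw] at h4
  exact h4

end Vale.Agent.P146.H985.S3
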