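import Vale.Agent.P146.H985.S3f
import Vale.Agent.P146.H985.S3e
import Vale.Agent.P146.H66.M4Num
import Vale.Agent.P146.H295.Cub
import Vale.Agent.P146.H758.Box
import Vale.Agent.P146.H560.Unit

/-!
# P146, lower half, S3: bundled laws and plain laws (helper985)

* `rq_le`: `E R ≤ r u` at the levels `< K` from the energies.
* `CG n β x a V c`: the field `V` on the first level (exponent `x`, bonds of share `1 - a x²`) costs
  at most `n V / (2 β) + c` (the theorem (C-gen)).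
* `s3_field`: `|fe (fields W + v) - fe (fields W) - n/(2β) ∑ v| ≤ (c0 + κ0 (..)) n u⁵`.
* `s3_block`, `s3_psi`: the same for the plain law of the blocks, in the letters of `psiU`.
-/

open MeasureTheory ProbabilityTheory

namespace Vale.Agent.P146.H985.S3

open Vale.Agent.P157 Vale.Agent.P157.Lv Vale.Agent.P157.Lv.Sy
open Vale.Agent.P146.H425 Vale.Agent.P146.H325 Vale.Agent.P146.H93 Vale.Agent.P146.H186
open Vale.Agent.P146.H479 Vale.Agent.P146.H758 Vale.Agent.P146.H560 Vale.Agent.P146.U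
open Vale.Agent.P146.H66 (up em_up sk_four_num)

set_option linter.unusedSectionVars false

variable {n K L : ℕ} {m e b w b' w' V W v : ℕ → ℝ} {k : ℕ → ℕ}
  {β u y Y V1 A E E0 τ κ0 c0 a x c r δ Δ D Vs : ℝ} {l : ℕ}

/-! ### the overlap from the energies -/

lemma rq_four (hm : Em K m) (b w : ℕ → ℝ) (hl : l ≤ K) : Rq n K m b w l ^ 4 ≤
    (skS n K m b w).pairEx l (fun x x' => Rov (fun x i => H325.sp x i) x x' ^ 4) := by
  have hS := (linS_sk (n := n) hm b w).reg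
  have h1 : Rq n K m b w l =
      (skS n K m b w).pairEx l (Rov fun (x : Fin n → ℤˣ) i => H325.sp x i) := by
    unfold Rq
    rw [Sy.Rl, Sy.pairEx, ← Sy.Ex_const_mul]
    congr 1
    funext z _
    exact Fld.sum_mg_sq hS (show l ≤ (skS n K m b w).K from hl) z
  have h2 := H295.pair_sq_le hS (show l ≤ (skS n K m b w).K from hl)
    (Rov fun (x : Fin n → ℤˣ) i => H325.sp x i)
  have h3 := H295.pair_sq_le hS (show l ≤ (skS n K m b w).K from hl)
    (fun x x' => Rov (fun (x : Fin n → ℤˣ) i => H325.sp x i) x x' ^ 2)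
  rw [← h1] at h2
  have h4 := pow_le_pow_left₀ (sq_nonneg _) h2 2
  have e1 : (fun x x' => (Rov (fun (x : Fin n → ℤˣ) i => H325.sp x i) x x' ^ 2) ^ 2) =
      fun x x' => Rov (fun (x : Fin n → ℤˣ) i => H325.sp x i) x x' ^ 4 := by
    funext x x'
    ring
  rw [e1] at h3
  calc Rq n K m b w l ^ 4 = (Rq n K m b w l ^ 2) ^ 2 := by ring
    _ ≤ _ := h4.trans h3

/-- **The overlap from the energies.** -/
theorem rq_le (hn : 2 ≤ n) (hK : 1 ≤ K) (hm : Em K m) (hb : 0 < b K) {c1 c2 : ℝ}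
    (h2 : 2 * m K ≤ 1) (hu : 0 < u) (hc1 : 0 < c1) (hc2 : 0 < c2) (hτ : 0 < τ) (hE0 : 0 ≤ E0)
    (h1 : c1 * u ≤ m 1) (h1' : m 1 ≤ c2 * u) (hbK : τ * u ^ 2 ≤ n * b K ^ 2)
    (hE : (skS n K (up K 1 m) b w).fe - (skS n K m b w).fe ≤ E0 * n * u ^ 5)
    (hE1 : 1 ≤ c2 * E0 * (n * u ^ 6)) (hn2 : 1 ≤ n * u ^ 2) (hl : l < K) :
    Rq n K m b w l ≤ 5 * (1 + 4 * c2 * E0 / (c1 ^ 2 * τ)) * u := by
  have h3 := sk_four_num (w := w) hn hK hm hb one_pos le_rfl (by linarith) hu hc1 hc2 hτ h1 h1'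
    hbK hE hE1 hn2 hl
  have h4 := (rq_four hm b w hl.le).trans h3
  rw [one_mul] at h4
  set X := 4 * c2 * E0 / (c1 ^ 2 * τ) with hX
  have hX0 : 0 ≤ X := by rw [hX]; positivity
  have h5 : Rq n K m b w l ^ 4 ≤ (5 * (1 + X) * u) ^ 4 := by
    refine h4.trans ?_
    rw [mul_pow]
    refine mul_le_mul_of_nonneg_right ?_ (by positivity)
    have : (5 * (1 + X)) ^ 4 = 625 * (1 + 4 * X + 6 * X ^ 2 + 4 * X ^ 3 + X ^ 4) := by ring
    rw [this]
    nlinarith [pow_nonneg hX0 2, pow_nonneg hX0 3, pow_nonneg hX0 4]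
  exact le_of_pow_le_pow_left₀ (by norm_num) (by positivity) h5

lemma ex2_up (h : Ex2 K m y Y) (h2 : 2 * m K ≤ Y) : Ex2 K (up K 1 m) y Y where
  em := em_up h.K1 h.em zero_le_one (by linarith [h.Y1])
  K1 := h.K1
  y0 := h.y0
  Y1 := h.Y1
  ge := by
    unfold up
    split_ifs with h3
    · have h4 := h.ge
      rw [h3] at h4
      have := h.y0
      linarith
    · exact h.ge
  le := by
    unfold up
    rw [if_pos rfl]
    linarith

/-- **The overlap in the a priori box.** -/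
theorem rq_box (hn : 2 ≤ n) (hβ : 0 ≤ β) (hA : Ap n β y Y V1 A (E0 * (n * u ^ 5)))
    (h : Ex2 K m y Y) (h2 : 2 * m K ≤ Y) (hb : tv K b = β ^ 2 / n) (hw : tv K w ≤ V1)
    (hb0 : 0 < b K) (hu : 0 < u) (hτ : 0 < τ) (hE0 : 0 ≤ E0) (h1 : 1 / 2 * u ≤ m 1)
    (h1' : m 1 ≤ 2 * u) (hbK : τ * u ^ 2 ≤ n * b K ^ 2) (hE1 : 1 ≤ 4 * E0 * (n * u ^ 6))
    (hn2 : 1 ≤ n * u ^ 2) (hl : l < K) :
    Rq n K m b w l ≤ 5 * (1 + 64 * E0 / τ) * u := by
  have h3 := fe_diff (n := n) (w := w) (w' := w) hA h (ex2_up h h2) hβ hb hb hw rfl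
  have h4 := rq_le (n := n) (K := K) (m := m) (b := b) (w := w) (E0 := 2 * E0) (τ := τ)
    hn h.K1 h.em hb0 (by linarith [h.Y1]) hu
    (by norm_num : (0 : ℝ) < 1 / 2) (by norm_num : (0 : ℝ) < 2) hτ (by positivity) h1 h1' hbK
    (by
      have := (abs_le.1 h3).2
      calc _ ≤ 2 * (E0 * (n * u ^ 5)) := this
        _ = _ := by ring) (by linarith) hn2 hl
  have e1 : 4 * 2 * (2 * E0) / ((1 / 2) ^ 2 * τ) = 64 * E0 / τ := by
    field_simp
    ring
  rwa [e1] at h4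

/-! ### the field on the first level -/

/-- **(C-gen)**: the field `V` on the first level costs at most `n V / (2 β) + c`. -/
def CG (n : ℕ) (β x a V c : ℝ) : Prop := ∀ (K : ℕ) (m b : ℕ → ℝ), Em K m → 2 ≤ K → m 1 = x →
  (∀ j, 1 ≤ j → j ≤ K → m j ≤ 2 * x) → Na K b → tv K b = β ^ 2 / n →
  b 1 ^ 2 = (1 - a * x ^ 2) * (β ^ 2 / n) →
  GV n K m b (sgl 1 V) - GV n K m b (fun _ => 0) ≤ n / β / 2 * V + c

/-- split of the first level -/
def sm (m : ℕ → ℝ) (j : ℕ) : ℝ := if j ≤ 1 then m j else m (j - 1)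

lemma em_sm (hK : 1 ≤ K) (hm : Em K m) : Em (K + 1) (sm m) where
  m0 := by
    unfold sm
    rw [if_pos (by omega)]
    exact hm.m0
  mK := by
    unfold sm
    rw [if_neg (by omega), show K + 1 + 1 - 1 = K + 1 by omega]
    exact hm.mK
  mono := fun l hl => by
    unfold sm
    by_cases h0 : l = 0
    · rw [if_pos (by omega), if_pos (by omega)]
      subst h0
      exact hm.mono 0 (by omega)
    · by_cases h1 : l = 1
      · subst h1
        rw [if_pos (by omega), if_neg (by omega)]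
      · rw [if_neg (by omega), if_neg (by omega), show l + 1 - 1 = (l - 1) + 1 by omega]
        exact hm.mono (l - 1) (by omega)
  pos := by
    unfold sm
    rw [if_pos (by omega)]
    exact hm.pos

/-- the bonds after the split -/
noncomputable def sb (b : ℕ → ℝ) (s : ℝ) (j : ℕ) : ℝ :=
  if j = 1 then √s else if j = 2 then √(b 1 ^ 2 - s) else b (j - 1)

/-- the blocks of the split -/
def ks (l : ℕ) : ℕ := if l = 0 then 0 else l + 1

lemma blk_ks (hK : 1 ≤ K) : Blk (K + 1) K ks where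
  k0 := by simp [ks]
  kL := by unfold ks; rw [if_neg (by omega)]
  mono := fun l _ => by
    unfold ks
    rw [if_neg (by omega : ¬ l + 1 = 0)]
    split_ifs <;> omega

lemma ioc_one (f : ℕ → ℝ) : ∑ j ∈ Finset.Ioc 0 2, f j = f 1 + f 2 := by
  rw [show Finset.Ioc 0 2 = ({1, 2} : Finset ℕ) by decide, Finset.sum_pair (by norm_num)]

lemma ioc_succ (f : ℕ → ℝ) (l : ℕ) : ∑ j ∈ Finset.Ioc l (l + 1), f j = f (l + 1) := by
  rw [Nat.Ioc_succ_singleton, Finset.sum_singleton]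

/-- the split of the first level does not change the free energy -/
theorem fe_split (hK : 1 ≤ K) (hm : Em K m) (hb : Na K b) {s : ℝ}
    (hs : 0 ≤ s) (hs1 : s ≤ b 1 ^ 2) (hV' : ∀ j, 2 ≤ j → V j = 0) :
    GV n (K + 1) (sm m) (sb b s) V = GV n K m b V := by
  unfold GV
  refine fe_blk (em_sm hK hm) hm (blk_ks hK) (fun l hl j h1 h2 => ?_)
    (fun l hl => hb (l + 1) (by omega) (by omega)) (fun l hl => Real.sqrt_nonneg _)
    (fun l hl => ?_) (fun l hl => ?_)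
  · unfold ks at h1 h2
    unfold sm
    rw [if_neg (by omega : ¬ l + 1 = 0)] at h2
    by_cases h0 : l = 0
    · subst h0
      rw [if_pos rfl] at h1
      split_ifs with h3
      · rw [show j = 1 by omega]
      · rw [show j - 1 = 1 by omega]
    · rw [if_neg h0] at h1
      rw [if_neg (by omega), show j - 1 = l + 1 by omega]
  · unfold ks
    rw [if_neg (by omega : ¬ l + 1 = 0)]
    by_cases h0 : l = 0
    · subst h0
      rw [if_pos rfl, zero_add, ioc_one]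
      unfold sb
      rw [if_pos rfl, if_neg (by omega), if_pos rfl, Real.sq_sqrt hs,
        Real.sq_sqrt (by linarith)]
      ring
    · rw [if_neg h0, ioc_succ]
      unfold sb
      rw [if_neg (by omega), if_neg (by omega), show l + 1 + 1 - 1 = l + 1 by omega]
  · unfold ks
    rw [if_neg (by omega : ¬ l + 1 = 0)]
    by_cases h0 : l = 0
    · subst h0
      rw [if_pos rfl, zero_add, ioc_one]
      unfold rt
      rw [hV' 2 le_rfl, Real.sqrt_zero]
      ring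
    · rw [if_neg h0, ioc_succ]
      unfold rt
      rw [hV' (l + 1 + 1) (by omega), hV' (l + 1) (by omega)]

lemma tv_sb (hK : 1 ≤ K) (b : ℕ → ℝ) {s : ℝ} (hs : 0 ≤ s) (hs1 : s ≤ b 1 ^ 2) :
    tv (K + 1) (sb b s) = tv K b := by
  obtain ⟨K, rfl⟩ : ∃ K', K = K' + 1 := ⟨K - 1, by omega⟩
  unfold tv
  rw [Finset.sum_range_succ', Finset.sum_range_succ', Finset.sum_range_succ' _ K]
  have e1 : sb b s (0 + 1) ^ 2 = s := by
    unfold sb
    rw [if_pos rfl, Real.sq_sqrt hs]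
  have e2 : sb b s (0 + 1 + 1) ^ 2 = b 1 ^ 2 - s := by
    unfold sb
    rw [if_neg (by omega), if_pos rfl, Real.sq_sqrt (by linarith)]
  have e3 : ∀ j ∈ Finset.range K, sb b s (j + 1 + 1 + 1) ^ 2 = b (j + 1 + 1) ^ 2 := by
    intro j _
    unfold sb
    rw [if_neg (by omega), if_neg (by omega), show j + 1 + 1 + 1 - 1 = j + 1 + 1 by omega]
  rw [e1, e2, Finset.sum_congr rfl e3]
  ring

/-- **(C-gen) for laws with more bonds on the first level.** -/
theorem CG.split (h : CG n β x a V1 c) (ha : a * x ^ 2 ≤ 1) (hK : 1 ≤ K) (hm : Em K m)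
    (hx : m 1 = x) (hmx : ∀ j, 1 ≤ j → j ≤ K → m j ≤ 2 * x) (hb : Na K b)
    (htv : tv K b = β ^ 2 / n) (hb1 : (1 - a * x ^ 2) * (β ^ 2 / n) ≤ b 1 ^ 2) :
    GV n K m b (sgl 1 V1) - GV n K m b (fun _ => 0) ≤ n / β / 2 * V1 + c := by
  obtain ⟨s, hs⟩ : ∃ s, s = (1 - a * x ^ 2) * (β ^ 2 / n) := ⟨_, rfl⟩
  have hs0 : 0 ≤ s := by
    rw [hs]
    exact mul_nonneg (by linarith) (by positivity)
  rw [← hs] at hb1
  have hx0 : 0 < x := by rw [← hx]; exact hm.pos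
  have h1 := h (K + 1) (sm m) (sb b s) (em_sm hK hm) (by omega)
    (by unfold sm; rw [if_pos (by omega)]; exact hx)
    (fun j h2 h3 => by
      unfold sm
      split_ifs with h4
      · rw [show j = 1 by omega, hx]
        linarith
      · exact hmx (j - 1) (by omega) (by omega))
    (fun j h2 h3 => by
      unfold sb
      split_ifs
      · exact Real.sqrt_nonneg _
      · exact Real.sqrt_nonneg _
      · exact hb (j - 1) (by omega) (by omega))
    (by rw [tv_sb hK b hs0 hb1, htv])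
    (by
      unfold sb
      rw [if_pos rfl, Real.sq_sqrt hs0, hs])
  rw [fe_split hK hm hb hs0 hb1 (fun j hj => by
      unfold sgl
      rw [if_neg (by omega)]),
    fe_split hK hm hb hs0 hb1 (fun _ _ => rfl)] at h1
  exact h1

/-! ### the fields -/

lemma tv_rt (hV : ∀ i, 0 ≤ V i) : tv K (rt V) = tot K V := by
  unfold tv tot rt
  exact Finset.sum_congr rfl fun j _ => Real.sq_sqrt (hV _)

lemma tot_add (W v : ℕ → ℝ) : tot K (fun i => W i + v i) = tot K W + tot K v := by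
  unfold tot
  rw [Finset.sum_add_distrib]

lemma tot_sgl_one (hj : 1 ≤ l) (hjK : l ≤ K) (t : ℝ) : tot K (sgl l t) = t := by
  have h := tot_sgl hj hjK t (fun _ => 1)
  simp only [mul_one] at h
  exact h

lemma tot_low_le (hW : ∀ i, 0 ≤ W i) (j : ℕ) : tot K (low j W) ≤ tot K W := by
  unfold tot
  refine Finset.sum_le_sum fun i _ => ?_
  unfold low
  split_ifs
  · exact le_rfl
  · exact hW _

/-- **S3: the fields.** -/
theorem s3_field (hn : 2 ≤ n) (hβ : 0 < β) (hu : 0 < u)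
    (hA : Ap n β y Y V1 A (E0 * (n * u ^ 5))) (h : Ex2 K m y Y) (h2 : 2 * m K ≤ Y)
    (hb : Na K b) (htv : tv K b = β ^ 2 / n) (hb0 : 0 < b K) (hτ : 0 < τ)
    (hbK : τ * u ^ 2 ≤ n * b K ^ 2) (hE0 : 0 ≤ E0) (hE1 : 1 ≤ 4 * E0 * (n * u ^ 6))
    (hn2 : 1 ≤ n * u ^ 2) (h1 : 1 / 2 * u ≤ m 1) (hK2 : m K ≤ 2 * u)
    (hmx : ∀ j, 1 ≤ j → j ≤ K → m j ≤ 2 * m 1) (ha : a * m 1 ^ 2 ≤ 1)
    (hb1 : (1 - a * m 1 ^ 2) * (β ^ 2 / n) ≤ b 1 ^ 2) (hc0 : 0 ≤ c0)
    (hW : ∀ i, 0 ≤ W i) (hv : ∀ i, 0 ≤ v i)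
    (hCG : CG n β (m 1) a (tot K v) (c0 * (n * u ^ 5)))
    (hV : tot K v ≤ κ0 * u ^ 3) (hκ0 : κ0 ≤ 1) (hV1 : tot K W + tot K v + u ^ 3 ≤ V1) :
    |GV n K m b (fun i => W i + v i) - GV n K m b W - n / β / 2 * tot K v| ≤
      (c0 + κ0 * (5 + 320 * E0 / τ + 2 * E0)) * (n * u ^ 5) := by
  have hn0 : (0 : ℝ) < n := by exact_mod_cast (by omega : 0 < n)
  have hK := h.K1
  have hm := h.em
  have ht : 0 ≤ tot K v := Finset.sum_nonneg fun _ _ => hv _
  have htW : 0 ≤ tot K W := Finset.sum_nonneg fun _ _ => hW _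
  have hu3 : 0 < u ^ 3 := by positivity
  have hκ00 : 0 ≤ κ0 := by
    by_contra hc
    push Not at hc
    nlinarith [mul_neg_of_neg_of_pos hc hu3]
  have hmK1 : m 1 ≤ m K := em_mono hm hK (by omega)
  have hP : 0 < (n : ℝ) * u ^ 5 := by positivity
  -- upper side
  have hC := hCG.split ha hK hm rfl hmx hb htv hb1
  have hr : ∀ j, 1 ≤ j → j < K → m j < m (j + 1) →
      Rq n K m b (rt fun i => low j W i + sgl j (tot K v) i) j ≤
        5 * (1 + 64 * E0 / τ) * u := by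
    intro j hj hjK _
    refine rq_box (n := n) hn hβ.le hA h h2 htv ?_ hb0 hu hτ hE0 h1 (hmK1.trans hK2) hbK hE1 hn2 hjK
    rw [tv_rt (fun i => add_nonneg (low_nonneg j hW i) (sgl_nonneg j ht i)), tot_add,
      tot_sgl_one hj hjK.le]
    have := tot_low_le (K := K) hW j
    linarith
  have hup := gv_up (n := n) (c := n / β / 2 * tot K v + c0 * (n * u ^ 5)) (by omega) hm hb hK
    hW hv (by linarith) hr
  have hmv : n * tot K v / 2 * (m K - m 1) * (5 * (1 + 64 * E0 / τ) * u) ≤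
      κ0 * (5 + 320 * E0 / τ) * (n * u ^ 5) := by
    have e1 : n * tot K v / 2 * (m K - m 1) ≤ n * (κ0 * u ^ 3) / 2 * (2 * u) :=
      mul_le_mul (by
        have := mul_le_mul_of_nonneg_left hV hn0.le
        linarith) (by linarith) (by linarith) (by positivity)
    calc n * tot K v / 2 * (m K - m 1) * (5 * (1 + 64 * E0 / τ) * u)
        ≤ n * (κ0 * u ^ 3) / 2 * (2 * u) * (5 * (1 + 64 * E0 / τ) * u) :=
          mul_le_mul_of_nonneg_right e1 (by positivity)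
      _ = κ0 * (5 + 320 * E0 / τ) * (n * u ^ 5) := by field_simp; ring
  -- lower side
  have e4 : ∀ U : ℕ → ℝ, (∀ i, 0 ≤ U i) → tot K U ≤ V1 →
      |GV n K m b U - (A + n / β / 2 * tot K U)| ≤ E0 * (n * u ^ 5) := by
    intro U hU hU1
    have h3 := near (n := n) (w := rt U) hA h hβ.le htv (by rw [tv_rt hU]; exact hU1)
    rwa [tv_rt hU] at h3
  have hs : ∀ i, 0 ≤ W i + sgl 1 (u ^ 3) i := fun i => add_nonneg (hW i) (sgl_nonneg 1 hu3.le i)
  have e5 := e4 W hW (by linarith)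
  have e6 := e4 (fun i => W i + sgl 1 (u ^ 3) i) hs (by
    rw [tot_add, tot_sgl_one le_rfl hK]
    linarith)
  rw [tot_add, tot_sgl_one le_rfl hK] at e6
  have hlo := gv_lo (n := n) (g := n / β / 2) (D := 2 * (E0 * (n * u ^ 5))) hm hb hK hW hv hu3
    (hV.trans (by nlinarith)) (by
      have := (abs_le.1 e5).2
      have := (abs_le.1 e6).1
      linarith)
  have e7 : 2 * (E0 * (n * u ^ 5)) * (tot K v / u ^ 3) ≤ κ0 * (2 * E0) * (n * u ^ 5) := by
    have : tot K v / u ^ 3 ≤ κ0 := by rw [div_le_iff₀ hu3]; exact hV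
    calc 2 * (E0 * (n * u ^ 5)) * (tot K v / u ^ 3) ≤ 2 * (E0 * (n * u ^ 5)) * κ0 :=
          mul_le_mul_of_nonneg_left this (by positivity)
      _ = _ := by ring
  have e8 : 0 ≤ κ0 * (5 + 320 * E0 / τ) * (n * u ^ 5) := by positivity
  have e9 : 0 ≤ κ0 * (2 * E0) * (n * u ^ 5) := by positivity
  have e10 : 0 ≤ c0 * (n * u ^ 5) := by positivity
  have e11 : (c0 + κ0 * (5 + 320 * E0 / τ + 2 * E0)) * (n * u ^ 5) = c0 * (n * u ^ 5) +
      κ0 * (5 + 320 * E0 / τ) * (n * u ^ 5) + κ0 * (2 * E0) * (n * u ^ 5) := by ring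
  rw [e11, abs_le]
  constructor <;> linarith

/-- **S3: the bundled law and the plain law of its blocks.** -/
theorem s3_block (he : Em L e) (hk : Blk K L k) (hm : Em K m) (hK : 1 ≤ K)
    (hδ : 0 ≤ δ) (hδ1 : δ < 1) (hΔ : 0 < Δ) (hδΔ : δ ≤ Δ) (heL : (1 + Δ) * e L ≤ 1)
    (hme : ∀ l < L, ∀ j, k l < j → j ≤ k (l + 1) → |m j - e (l + 1)| ≤ δ * e (l + 1))
    (hb' : ∀ l < L, 0 ≤ b' (l + 1)) (hw' : ∀ l < L, 0 ≤ w' (l + 1))
    (hbb : ∀ l < L, ∑ j ∈ Finset.Ioc (k l) (k (l + 1)), b j ^ 2 = b' (l + 1) ^ 2)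
    (hW : ∀ i, 0 ≤ W i)
    (hww : ∀ l < L, ∑ j ∈ Finset.Ioc (k l) (k (l + 1)), W j = w' (l + 1) ^ 2)
    {F : ℝ} (hF : |GV n K m b (fun i => W i + v i) - GV n K m b W - n / β / 2 * tot K v| ≤ F)
    (hD : (skS n L (ray L (1 + Δ) e) b' w').fe - (skS n L e b' w').fe ≤ D) :
    |GV n K m b (fun i => W i + v i) - n / β / 2 * tot K v - (skS n L e b' w').fe| ≤
      F + δ / Δ * D := by
  have h1 := fe_exp (n := n) (w := rt W) hm he hK hk hδ hδ1 hΔ hδΔ heL hme hb' hw' hbb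
    (fun l hl => by
      rw [← hww l hl]
      exact Finset.sum_congr rfl fun j _ => Real.sq_sqrt (hW j))
  have h2 : δ / Δ * ((skS n L (ray L (1 + Δ) e) b' w').fe - (skS n L e b' w').fe) ≤ δ / Δ * D :=
    mul_le_mul_of_nonneg_left hD (by positivity)
  have h3 := abs_le.1 hF
  have h4 : |GV n K m b W - (skS n L e b' w').fe| ≤ δ / Δ * D := h1.trans h2
  have h5 := abs_le.1 h4
  rw [abs_le]
  constructor <;> linarith [h3.1, h3.2, h5.1, h5.2]

/-- **S3 in the letters of `psiU`**: the main field has the variance `q u³`. -/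
theorem s3_psi {κ T1 s z q F : ℝ} (hn : 0 < n) (hu : 0 < u) (hz : 51 / 100 ≤ z)
    (hz' : z ≤ 1 + κ) (hk : Blk K 3 k) (hm : Em K m) (hK : 1 ≤ K) (hβ : 0 ≤ β)
    (hδ : 0 ≤ δ) (hδ1 : δ < 1) (hΔ : 0 < Δ) (hδΔ : δ ≤ Δ) (heL : (1 + Δ) * ((1 + κ) * u) ≤ 1)
    (hme : ∀ l < 3, ∀ j, k l < j → j ≤ k (l + 1) →
      |m j - mU κ u z (l + 1)| ≤ δ * mU κ u z (l + 1))
    (hbb : ∀ l < 3, ∑ j ∈ Finset.Ioc (k l) (k (l + 1)), b j ^ 2 = bU n β T1 u s (l + 1) ^ 2)
    (hW : ∀ i, 0 ≤ W i)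
    (hww : ∀ l < 3, ∑ j ∈ Finset.Ioc (k l) (k (l + 1)), W j = wU u q (l + 1) ^ 2)
    (hF : |GV n K m b (fun i => W i + v i) - GV n K m b W - n / β / 2 * tot K v| ≤
      F * (n * u ^ 5))
    (hD : (skS n 3 (ray 3 (1 + Δ) (mU κ u z)) (bU n β T1 u s) (wU u q)).fe -
      (skS n 3 (mU κ u z) (bU n β T1 u s) (wU u q)).fe ≤ D * (n * u ^ 5)) :
    |(GV n K m b (fun i => W i + v i) - P1 n β (51 / 100 * u) - n * (q * u ^ 3) / (2 * β) -
      n / β / 2 * tot K v) / (n * u ^ 5) - psiU n β κ T1 u s z q| ≤ F + δ / Δ * D := by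
  have hn' : (0 : ℝ) < n := Nat.cast_pos.2 hn
  have hP : 0 < (n : ℝ) * u ^ 5 := by positivity
  have hκ1 : 0 < 1 + κ := by linarith
  have h0 : (1 + κ) * u ≤ 1 := le_trans (by nlinarith [mul_pos hκ1 hu]) heL
  have h1 := s3_block (n := n) (v := v) (em_mU hu hz hz' h0) hk hm hK hδ hδ1 hΔ hδΔ
    heL hme
    (fun l hl => by
      have hc : 0 ≤ β / √(n : ℝ) := by positivity
      interval_cases l
      · exact mul_nonneg hc (Real.sqrt_nonneg _)
      · exact mul_nonneg hc (Real.sqrt_nonneg _)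
      · exact mul_nonneg hc (Real.sqrt_nonneg _))
    (fun l hl => by
      interval_cases l
      · exact le_rfl
      · exact Real.sqrt_nonneg _
      · exact le_rfl) hbb hW hww hF hD
  unfold psiU
  rw [← sub_div, abs_div, abs_of_pos hP, div_le_iff₀ hP]
  refine le_trans (le_of_eq ?_) (h1.trans (le_of_eq ?_))
  · congr 1
    ring
  · ring

end Vale.Agent.P146.H985.S3
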