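import Vale.Agent.P146.H985.S3c
import Vale.Agent.P146.H393.InD
import Vale.Agent.P146.H437.GridN

/-!
# P146, lower half, S3 for the law of one share of helper393 (helper985)

`s3I`: `psiB` (bundled) against `psiN` (plain, four levels); `s3H`: helper393's input `S3H`.
-/

set_option linter.all false

open MeasureTheory ProbabilityTheory

namespace Vale.Agent.P146.H985.S3

open Vale.Agent.P157 Vale.Agent.P157.Lv Vale.Agent.P157.Lv.Sy
open Vale.Agent.P146.H425 Vale.Agent.P146.H325 Vale.Agent.P146.H93 Vale.Agent.P146.H186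
open Vale.Agent.P146.H479 Vale.Agent.P146.H758 Vale.Agent.P146.H560 Vale.Agent.P146.U
open Vale.Agent.P146.H393.In (pk mI bI wI aI PI Adm Shr psiB S3H)
open Vale.Agent.P146.H437 (mN bN wN psiN em_mN)

variable {n N : ℕ} {β u y Y V1 A E0 κ0 c1 D S ε e T T1 a v z q wa w τ d : ℝ}
  {V : {p // p ∈ PI N} → ℝ}

/-- the blocks `{1}`, `{2}`, `{3, …, 2 N + 4}`, `{2 N + 5}` -/
def kI (N : ℕ) : ℕ → ℕ
  | 0 => 0
  | 1 => 1
  | 2 => 2
  | 3 => 2 * N + 4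
  | _ => 2 * N + 5

lemma blk_I (N : ℕ) : Blk (2 * N + 5) 4 (kI N) where
  k0 := rfl
  kL := rfl
  mono := fun l hl => by
    interval_cases l
    · exact Nat.zero_le _
    · show 1 ≤ 2
      omega
    · show 2 ≤ 2 * N + 4
      omega
    · show 2 * N + 4 ≤ 2 * N + 5
      omega

lemma sum_pk_Ioc (c : ℝ) {i p r : ℕ} (h : p < i ∧ i ≤ r) :
    ∑ j ∈ Finset.Ioc p r, pk i c j = c := by
  unfold pk
  rw [Finset.sum_ite_eq', if_pos (Finset.mem_Ioc.2 h)]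

lemma sum_pk_Ioc0 (c : ℝ) {i p r : ℕ} (h : i ≤ p ∨ r < i) :
    ∑ j ∈ Finset.Ioc p r, pk i c j = 0 := by
  unfold pk
  rw [Finset.sum_ite_eq', if_neg]
  intro h2
  have := Finset.mem_Ioc.1 h2
  omega

lemma bN_sq (hn : 0 < n) (h : Shr u S T T1 e) : bN n β T1 u S T 1 ^ 2 = β ^ 2 / n * (1 - S * u ^ 2) ∧
    bN n β T1 u S T 2 ^ 2 = β ^ 2 / n * ((S - T) * u ^ 2) ∧
    bN n β T1 u S T 3 ^ 2 = β ^ 2 / n * ((T - T1) * u ^ 2) ∧
    bN n β T1 u S T 4 ^ 2 = β ^ 2 / n * (T1 * u ^ 2) := by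
  have hn' : (0 : ℝ) < n := Nat.cast_pos.2 hn
  have key : ∀ x : ℝ, 0 ≤ x → (β / √n * √x) ^ 2 = β ^ 2 / n * x := by
    intro x hx
    rw [mul_pow, div_pow, Real.sq_sqrt hn'.le, Real.sq_sqrt hx]
  have u2 : 0 ≤ u ^ 2 := sq_nonneg u
  have h1 := h.Su
  have h2 := h.TS
  have h3 := h.eT
  have h4 := h.e0
  have h5 := h.T10
  exact ⟨key _ (by linarith), key _ (mul_nonneg (by linarith) u2),
    key _ (mul_nonneg (by linarith) u2), key _ (mul_nonneg h5 u2)⟩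

lemma bN_nonneg (hβ : 0 ≤ β) : ∀ l < 4, 0 ≤ bN n β T1 u S T (l + 1) := by
  intro l hl
  have hc : 0 ≤ β / √(n : ℝ) := by positivity
  interval_cases l
  · exact mul_nonneg hc (Real.sqrt_nonneg _)
  · exact mul_nonneg hc (Real.sqrt_nonneg _)
  · exact mul_nonneg hc (Real.sqrt_nonneg _)
  · exact mul_nonneg hc (Real.sqrt_nonneg _)

lemma wN_nonneg : ∀ l < 4, 0 ≤ wN u wa w (l + 1) := by
  intro l hl
  interval_cases l
  · exact le_rfl
  · exact Real.sqrt_nonneg _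
  · exact Real.sqrt_nonneg _
  · exact le_rfl

lemma wN_sq (hu : 0 < u) (ha : 0 ≤ wa) (hw : 0 ≤ w) : wN u wa w 1 ^ 2 = 0 ∧
    wN u wa w 2 ^ 2 = wa * u ^ 3 ∧ wN u wa w 3 ^ 2 = w * u ^ 3 ∧ wN u wa w 4 ^ 2 = 0 := by
  refine ⟨?_, ?_, ?_, ?_⟩
  · show (0 : ℝ) ^ 2 = 0
    norm_num
  · exact Real.sq_sqrt (by positivity)
  · exact Real.sq_sqrt (by positivity)
  · show (0 : ℝ) ^ 2 = 0
    norm_num

lemma sum_bI_blk (hn : 0 < n) (hN : 3 ≤ N) (h : Shr u S T T1 e) : ∀ l < 4,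
    ∑ j ∈ Finset.Ioc (kI N l) (kI N (l + 1)), bI n N β u S T T1 e j ^ 2 =
      bN n β T1 u S T (l + 1) ^ 2 := by
  obtain ⟨h1, h2, h3, h4⟩ := bN_sq (β := β) hn h
  intro l hl
  simp only [H393.In.bI_sq hn h, Finset.sum_add_distrib]
  interval_cases l
  · show (∑ j ∈ Finset.Ioc 0 1, _) + (∑ j ∈ Finset.Ioc 0 1, _) + (∑ j ∈ Finset.Ioc 0 1, _) +
      (∑ j ∈ Finset.Ioc 0 1, _) + (∑ j ∈ Finset.Ioc 0 1, _) = _
    rw [sum_pk_Ioc _ ⟨by omega, by omega⟩, sum_pk_Ioc0 _ (Or.inr (by omega)),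
      sum_pk_Ioc0 _ (Or.inr (by omega)), sum_pk_Ioc0 _ (Or.inr (by omega)),
      sum_pk_Ioc0 _ (Or.inr (by omega))]
    rw [h1]
    ring
  · show (∑ j ∈ Finset.Ioc 1 2, _) + (∑ j ∈ Finset.Ioc 1 2, _) + (∑ j ∈ Finset.Ioc 1 2, _) +
      (∑ j ∈ Finset.Ioc 1 2, _) + (∑ j ∈ Finset.Ioc 1 2, _) = _
    rw [sum_pk_Ioc0 _ (Or.inl (by omega)), sum_pk_Ioc _ ⟨by omega, by omega⟩,
      sum_pk_Ioc0 _ (Or.inr (by omega)), sum_pk_Ioc0 _ (Or.inr (by omega)),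
      sum_pk_Ioc0 _ (Or.inr (by omega))]
    rw [h2]
    ring
  · show (∑ j ∈ Finset.Ioc 2 (2 * N + 4), _) + (∑ j ∈ Finset.Ioc 2 (2 * N + 4), _) +
      (∑ j ∈ Finset.Ioc 2 (2 * N + 4), _) + (∑ j ∈ Finset.Ioc 2 (2 * N + 4), _) +
      (∑ j ∈ Finset.Ioc 2 (2 * N + 4), _) = _
    rw [sum_pk_Ioc0 _ (Or.inl (by omega)), sum_pk_Ioc0 _ (Or.inl (by omega)),
      sum_pk_Ioc _ ⟨by omega, by omega⟩, sum_pk_Ioc _ ⟨by omega, by omega⟩,
      sum_pk_Ioc0 _ (Or.inr (by omega))]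
    rw [h3]
    ring
  · show (∑ j ∈ Finset.Ioc (2 * N + 4) (2 * N + 5), _) +
      (∑ j ∈ Finset.Ioc (2 * N + 4) (2 * N + 5), _) +
      (∑ j ∈ Finset.Ioc (2 * N + 4) (2 * N + 5), _) +
      (∑ j ∈ Finset.Ioc (2 * N + 4) (2 * N + 5), _) +
      (∑ j ∈ Finset.Ioc (2 * N + 4) (2 * N + 5), _) = _
    rw [sum_pk_Ioc0 _ (Or.inl (by omega)), sum_pk_Ioc0 _ (Or.inl (by omega)),
      sum_pk_Ioc0 _ (Or.inl (by omega)), sum_pk_Ioc0 _ (Or.inl (by omega)),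
      sum_pk_Ioc _ ⟨by omega, by omega⟩]
    rw [h4]
    ring

lemma sum_wI_blk (hN : 3 ≤ N) (hu : 0 < u) (ha : 0 ≤ wa) (hw : 0 ≤ w) : ∀ l < 4,
    ∑ j ∈ Finset.Ioc (kI N l) (kI N (l + 1)), wI N u wa w j ^ 2 = wN u wa w (l + 1) ^ 2 := by
  obtain ⟨h1, h2, h3, h4⟩ := wN_sq hu ha hw
  intro l hl
  simp only [H393.In.wI_sq hu.le ha hw, Finset.sum_add_distrib]
  interval_cases l
  · show (∑ j ∈ Finset.Ioc 0 1, _) + (∑ j ∈ Finset.Ioc 0 1, _) = _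
    rw [sum_pk_Ioc0 _ (Or.inr (by omega)), sum_pk_Ioc0 _ (Or.inr (by omega)), h1]
    ring
  · show (∑ j ∈ Finset.Ioc 1 2, _) + (∑ j ∈ Finset.Ioc 1 2, _) = _
    rw [sum_pk_Ioc _ ⟨by omega, by omega⟩, sum_pk_Ioc0 _ (Or.inr (by omega)), h2]
    ring
  · show (∑ j ∈ Finset.Ioc 2 (2 * N + 4), _) + (∑ j ∈ Finset.Ioc 2 (2 * N + 4), _) = _
    rw [sum_pk_Ioc0 _ (Or.inl (by omega)), sum_pk_Ioc _ ⟨by omega, by omega⟩, h3]
    ring
  · show (∑ j ∈ Finset.Ioc (2 * N + 4) (2 * N + 5), _) +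
      (∑ j ∈ Finset.Ioc (2 * N + 4) (2 * N + 5), _) = _
    rw [sum_pk_Ioc0 _ (Or.inl (by omega)), sum_pk_Ioc0 _ (Or.inl (by omega)), h4]
    ring

lemma mI_near (H : Adm N u (51 / 100) a v z q) : ∀ l < 4, ∀ j, kI N l < j → j ≤ kI N (l + 1) →
    |mI N u (51 / 100) a v z q j - mN u a v z (l + 1)| ≤ q * mN u a v z (l + 1) := by
  have hq := H.q0
  have hu := H.u0
  have hv := H.v0
  have ha : 0 < a := H.y0.trans_le H.ya
  have hz : 0 < z := hv.trans_le H.vz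
  have triv : ∀ {x : ℝ}, 0 ≤ x → |x - x| ≤ q * x := by
    intro x hx
    rw [sub_self, abs_zero]
    positivity
  intro l hl j h1 h2
  interval_cases l
  · have h3 : j = 1 := by
      have h3 : 0 < j := h1
      have h4 : j ≤ 1 := h2
      omega
    subst h3
    rw [H393.In.mI_one]
    exact triv (by positivity)
  · have h3 : j = 2 := by
      have h3 : 1 < j := h1
      have h4 : j ≤ 2 := h2
      omega
    subst h3
    rw [H393.In.mI_two]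
    exact triv (by positivity)
  · have h3 : 2 < j := h1
    have h4 : j ≤ 2 * N + 4 := h2
    obtain ⟨h5, h6⟩ := H.mid (l := j) (by omega) h4
    show |mI N u (51 / 100) a v z q j - v * u| ≤ q * (v * u)
    have : 0 ≤ q * (v * u) := by positivity
    rw [abs_le]
    constructor <;> nlinarith
  · have h3 : j = 2 * N + 5 := by
      have h3 : 2 * N + 4 < j := h1
      have h4 : j ≤ 2 * N + 5 := h2
      omega
    subst h3
    rw [H393.In.mI_z]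
    exact triv (by positivity)

/-- **S3 for the law of one share**, with the local energy `D`. -/
theorem s3I (hn : 2 ≤ n) (hβ : 0 < β) (H : Adm N u (51 / 100) a v z q) (hz : z ≤ 51 / 50)
    (h : Shr u S T T1 e) (hT1 : 0 < T1)
    (hA : Ap n β y Y V1 A (E0 * (n * u ^ 5))) (hy0 : 0 < y) (hy : y ≤ 1 / 2 * u)
    (hY : 4 * u ≤ Y) (hY1 : Y ≤ 1) (hE0 : 0 ≤ E0)
    (hE1 : 1 ≤ 4 * E0 * (n * u ^ 6)) (hn2 : 1 ≤ n * u ^ 2)
    (hG : Gc n β (4 * S) ε c1 (51 / 100 * u)) (hc1 : 0 ≤ c1)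
    (hV0 : ∀ p, 0 ≤ V p) (hV : ∑ p, V p ≤ κ0 * u ^ 3) (hκ0 : κ0 ≤ 1) (hκε : 8 * κ0 ≤ ε)
    (hV1 : 3 * u ^ 3 ≤ V1) (ha : 0 ≤ wa) (hw : 0 ≤ w) (haw : wa + w ≤ 1)
    (hD : (skS n 4 (ray 4 (1 + 1) (mN u a v z)) (bN n β T1 u S T) (wN u wa w)).fe -
      (skS n 4 (mN u a v z) (bN n β T1 u S T) (wN u wa w)).fe ≤ D * (n * u ^ 5)) :
    |psiB n N β u (51 / 100) a v z q S T1 e V T wa w - psiN n β T1 u S a v z T wa w| ≤
      c1 + κ0 * (5 + 320 * E0 / (β ^ 2 * T1) + 2 * E0) + q * D := by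
  have hn0 : 0 < n := by omega
  have hn' : (0 : ℝ) < n := Nat.cast_pos.2 hn0
  have hu := H.u0
  have hN := H.N3
  have hu2 : 0 < u ^ 2 := by positivity
  have hu3 : 0 < u ^ 3 := by positivity
  have hP : 0 < (n : ℝ) * u ^ 5 := by positivity
  have hz0 : 0 < z := H.v0.trans_le H.vz
  have hzu : z * u ≤ 51 / 50 * u := mul_le_mul_of_nonneg_right hz hu.le
  have hmK : mI N u (51 / 100) a v z q (2 * N + 5) = z * u := H393.In.mI_z
  have hm1 : mI N u (51 / 100) a v z q 1 = 51 / 100 * u := H393.In.mI_one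
  have hEx : Ex2 (2 * N + 5) (mI N u (51 / 100) a v z q) y Y :=
    { em := H.em
      K1 := by omega
      y0 := hy0
      Y1 := hY1
      ge := by rw [hm1]; linarith
      le := by rw [hmK]; linarith }
  have hb0 : 0 < bI n N β u S T T1 e (2 * N + 5) := by
    rw [H393.In.bI_K]
    have h3 : 0 < T1 * u ^ 2 := by positivity
    positivity
  have hbK2 : β ^ 2 * T1 * u ^ 2 ≤ n * bI n N β u S T T1 e (2 * N + 5) ^ 2 := by
    rw [H393.In.bI_K, mul_pow, div_pow, Real.sq_sqrt hn'.le, Real.sq_sqrt (by positivity)]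
    refine le_of_eq ?_
    field_simp
  have hS1 : β ^ 2 / n * (1 - 4 * S * (51 / 100 * u) ^ 2) ≤ bI n N β u S T T1 e 1 ^ 2 := by
    have h3 : bI n N β u S T T1 e 1 = β / √n * √(1 - S * u ^ 2) := by
      unfold bI
      rw [if_pos rfl]
    have h4 : (β / √(n : ℝ) * √(1 - S * u ^ 2)) ^ 2 = β ^ 2 / n * (1 - S * u ^ 2) := by
      rw [mul_pow, div_pow, Real.sq_sqrt hn'.le, Real.sq_sqrt (by linarith [h.Su])]
    rw [h3, h4]
    refine mul_le_mul_of_nonneg_left ?_ (by positivity)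
    have hS0 : 0 ≤ S := by linarith [h.TS, h.eT, h.e0, h.T10]
    nlinarith [mul_nonneg hS0 hu2.le]
  have hsum0 : 0 ≤ ∑ p, V p := Finset.sum_nonneg fun p _ => hV0 p
  have hwP : ∀ p ∈ PI N, wI N u wa w p = 0 := by
    intro p hp
    have := H393.In.mem_PI.1 hp
    unfold wI
    rw [if_neg (by omega), if_neg (by omega)]
  have htw : tv (2 * N + 5) (wI N u wa w) = wa * u ^ 3 + w * u ^ 3 := by
    unfold tv
    simp only [H393.In.wI_sq hu.le ha hw, Finset.sum_add_distrib]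
    rw [H393.In.sum_pk _ (by omega), H393.In.sum_pk _ (by omega), if_pos (by omega),
      if_pos (by omega)]
  have hVtot : tv (2 * N + 5) (wI N u wa w) + ∑ p, V p + u ^ 3 ≤ V1 := by
    rw [htw]
    have h3 : (wa + w) * u ^ 3 ≤ 1 * u ^ 3 := mul_le_mul_of_nonneg_right haw hu3.le
    have h4 : κ0 * u ^ 3 ≤ 1 * u ^ 3 := mul_le_mul_of_nonneg_right hκ0 hu3.le
    linarith
  have hav : a ≤ v := by
    have h3 := H.av
    have h4 := mul_pos H.v0 H.q0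
    linarith
  have hem : Em 4 (mN u a v z) := em_mN hu H.ya hav H.vz H.zu
  have key := s3_unitB (n := n) (P := PI N) (V := V) (k := kI N) (L := 4) (e := mN u a v z)
    (b' := bN n β T1 u S T) (w' := wN u wa w) (D := D) (δ := q) (τ := β ^ 2 * T1)
    (κ0 := κ0) hn hβ hu hA hEx (by rw [hmK]; linarith)
    (fun j _ _ => H393.In.bI_nonneg hβ.le j) (H393.In.tv_bI hn0 h) hb0 (by positivity) hbK2 hE0
    hE1 hn2 (by rw [hm1]; linarith) (by rw [hm1]; linarith) (by rw [hmK]; linarith)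
    (by rw [hmK, hm1]; linarith) (by rw [hm1]; exact hS1) (by rw [hm1]; exact hG) hc1
    (fun j => H393.In.wI_nonneg j) H393.In.PI_K hwP hV0 hV hκ0 hκε hVtot hem (blk_I N) H.q0.le
    (by linarith [H.q1]) (by show 2 * (z * u) ≤ 1; linarith) (mI_near H) (bN_nonneg hβ.le)
    wN_nonneg (sum_bI_blk hn0 hN h) (sum_wI_blk hN hu ha hw) hD
  unfold psiB psiN aI
  rw [← sub_div, abs_div, abs_of_pos hP, div_le_iff₀ hP]
  refine le_trans (le_of_eq ?_) key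
  congr 1
  field_simp
  ring

/-- **helper393's input `S3H`**, with the local energy `D` at the fields of `W`. -/
theorem s3H {W : Set ℝ} (hn : 2 ≤ n) (hβ : 0 < β) (H : Adm N u (51 / 100) a v z q)
    (hz : z ≤ 51 / 50) (he : 0 ≤ e) (hT1 : 0 < T1) (hSu : S * u ^ 2 ≤ 1) (hτ : e + T1 ≤ τ)
    (hA : Ap n β y Y V1 A (E0 * (n * u ^ 5))) (hy0 : 0 < y) (hy : y ≤ 1 / 2 * u)
    (hY : 4 * u ≤ Y) (hY1 : Y ≤ 1) (hE0 : 0 ≤ E0)
    (hE1 : 1 ≤ 4 * E0 * (n * u ^ 6)) (hn2 : 1 ≤ n * u ^ 2)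
    (hG : Gc n β (4 * S) ε c1 (51 / 100 * u)) (hc1 : 0 ≤ c1)
    (hV0 : ∀ p, 0 ≤ V p) (hV : ∑ p, V p ≤ κ0 * u ^ 3) (hκ0 : κ0 ≤ 1) (hκε : 8 * κ0 ≤ ε)
    (hV1 : 3 * u ^ 3 ≤ V1) (hW : W ⊆ Set.Icc 0 1)
    (hD : ∀ T ∈ Set.Icc τ S, ∀ w ∈ W,
      (skS n 4 (ray 4 (1 + 1) (mN u a v z)) (bN n β T1 u S T) (wN u 0 w)).fe -
        (skS n 4 (mN u a v z) (bN n β T1 u S T) (wN u 0 w)).fe ≤ D * (n * u ^ 5) ∧
      (skS n 4 (ray 4 (1 + 1) (mN u a v z)) (bN n β T1 u S T) (wN u w 0)).fe -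
        (skS n 4 (mN u a v z) (bN n β T1 u S T) (wN u w 0)).fe ≤ D * (n * u ^ 5)) :
    S3H n N β u (51 / 100) a v z q S T1 e τ
      (c1 + κ0 * (5 + 320 * E0 / (β ^ 2 * T1) + 2 * E0) + q * D) V W := by
  intro T hT w hw
  have h : Shr u S T T1 e := ⟨hSu, hT.2, hτ.trans hT.1, he, hT1.le⟩
  have hw1 := hW hw
  exact ⟨s3I hn hβ H hz h hT1 hA hy0 hy hY hY1 hE0 hE1 hn2 hG hc1 hV0 hV hκ0 hκε hV1 le_rfl
      hw1.1 (by linarith [hw1.2]) (hD T hT w hw).1,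
    s3I hn hβ H hz h hT1 hA hy0 hy hY hY1 hE0 hE1 hn2 hG hc1 hV0 hV hκ0 hκε hV1 hw1.1
      le_rfl (by linarith [hw1.2]) (hD T hT w hw).2⟩

/-- the energy in the a priori box -/
lemma dI_box (hn : 0 < n) (hβ : 0 < β) (H : Adm N u (51 / 100) a v z q) (hz : z ≤ 51 / 50)
    (h : Shr u S T T1 e) (hA : Ap n β y Y V1 A (E0 * (n * u ^ 5))) (hy0 : 0 < y)
    (hy : y ≤ 1 / 2 * u) (hY : 4 * u ≤ Y) (hY1 : Y ≤ 1) (hV1 : 3 * u ^ 3 ≤ V1)
    (ha : 0 ≤ wa) (hw : 0 ≤ w) (haw : wa + w ≤ 1) :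
    (skS n 4 (ray 4 (1 + 1) (mN u a v z)) (bN n β T1 u S T) (wN u wa w)).fe -
      (skS n 4 (mN u a v z) (bN n β T1 u S T) (wN u wa w)).fe ≤ 2 * E0 * (n * u ^ 5) := by
  have hu := H.u0
  have hu3 : 0 < u ^ 3 := by positivity
  have hav : a ≤ v := by
    have h3 := H.av
    have h4 := mul_pos H.v0 H.q0
    linarith
  have hzu : z * u ≤ 51 / 50 * u := mul_le_mul_of_nonneg_right hz hu.le
  obtain ⟨h1, h2, h3, h4⟩ := bN_sq (β := β) hn h
  obtain ⟨g1, g2, g3, g4⟩ := wN_sq hu ha hw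
  have htv : tv 4 (bN n β T1 u S T) = β ^ 2 / n := by
    unfold tv
    rw [Finset.sum_range_succ, Finset.sum_range_succ, Finset.sum_range_succ,
      Finset.sum_range_one, h1, h2, h3, h4]
    ring
  have htw : tv 4 (wN u wa w) ≤ V1 := by
    unfold tv
    rw [Finset.sum_range_succ, Finset.sum_range_succ, Finset.sum_range_succ,
      Finset.sum_range_one, g1, g2, g3, g4]
    have h3 : (wa + w) * u ^ 3 ≤ 1 * u ^ 3 := mul_le_mul_of_nonneg_right haw hu3.le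
    linarith
  have he : Ex2 4 (mN u a v z) y Y :=
    { em := em_mN hu H.ya hav H.vz H.zu
      K1 := by norm_num
      y0 := hy0
      Y1 := hY1
      ge := by
        show y ≤ 51 / 100 * u
        linarith
      le := by
        show z * u ≤ Y
        linarith }
  refine (ray_box (n := n) hβ hA he (by show 2 * (z * u) ≤ Y; linarith) htv htw).trans
    (le_of_eq (by ring))

end Vale.Agent.P146.H985.S3
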