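import Vale.Agent.P146.H985.S3c
import Vale.Agent.P146.H97.CG1

/-!
# P146, lower half, S3: the field on the first level from (C-gen) (helper985)

`gc_ev`, `cg_ev`: the letters `Gc` (S3c) and `CG` (S3) for all `n ≥ n0`,
`K0 n^(-1/6) ≤ u ≤ n^(-11/100)`, `u / 2 ≤ x ≤ u`, from helper97's `gen_c`.
-/

open MeasureTheory ProbabilityTheory

namespace Vale.Agent.P146.H985.S3

open Vale.Agent.P157 Vale.Agent.P157.Lv Vale.Agent.P157.Lv.Sy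
open Vale.Agent.P146.H425 Vale.Agent.P146.H325 Vale.Agent.P146.H93 Vale.Agent.P146.H186
open Vale.Agent.P146.H479 Vale.Agent.P146.H758 Vale.Agent.P146.H560 Vale.Agent.P146.U

set_option linter.unusedSectionVars false

variable {n : ℕ} {β u x V S ε c1 c0 a κ0 : ℝ}

/-- **`Gc` for all large `n`.** -/
theorem gc_ev (hβ : 0 < β) (hG : H97.CG β) (S : ℝ) (hc : 0 < c1) :
    ∃ ε K0 : ℝ, ∃ n0 : ℕ, 0 < ε ∧ 1 ≤ K0 ∧ 1 ≤ n0 ∧ ∀ n : ℕ, n0 ≤ n → ∀ u : ℝ,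
      K0 * (n : ℝ) ^ (-(1 / 6) : ℝ) ≤ u → u ≤ (n : ℝ) ^ (-(11 / 100) : ℝ) →
      ∀ x : ℝ, 1 / 2 * u ≤ x → x ≤ u → Gc n β S ε c1 x := by
  obtain ⟨ε, K0, n0, hε, hK0, h⟩ := H97.gen_c hβ hG S hc
  refine ⟨ε, 2 * K0, max n0 1, hε, by linarith, le_max_right _ _, ?_⟩
  intro n hn u hu hu' x hx hx'
  have hn0 : n0 ≤ n := (le_max_left _ _).trans hn
  have hn1 : 1 ≤ n := (le_max_right _ _).trans hn
  have hn1' : (1 : ℝ) ≤ n := by exact_mod_cast hn1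
  have h1 : (n : ℝ) ^ (-(11 / 100) : ℝ) ≤ (n : ℝ) ^ (-(21 / 200) : ℝ) :=
    Real.rpow_le_rpow_of_exponent_le hn1' (by norm_num)
  intro K m b w hK hm hm1 hmK hb1 htv hw0 hw1
  exact h n hn0 x K m b w (by nlinarith) (hx'.trans (hu'.trans h1)) hK hm hm1 hmK hb1 htv hw0 hw1

/-- **`CG` from `Gc`.** -/
theorem CG.of_Gc (h : Gc n β a ε c1 x) (hβ : 0 < β) (hx : x ≤ u) (hc1 : 0 ≤ c1)
    (hV : 0 ≤ V) (hV1 : V ≤ ε * x ^ 3) : CG n β x a V (c1 * (n * u ^ 5)) := by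
  intro K m b hm hK hmx hmj hb htv hb1
  have h1 := h K m b (rt (sgl 1 V)) (by omega) hm hmx (hmj K (by omega) le_rfl)
    (by rw [hb1]; exact le_of_eq (by ring)) htv
    (fun j h3 h4 => by
      unfold rt sgl
      rw [if_neg (by omega), Real.sqrt_zero])
    (by
      have e1 : rt (sgl 1 V) 1 ^ 2 = V := by
        unfold rt sgl
        rw [if_pos rfl, Real.sq_sqrt hV]
      rw [e1]
      exact hV1)
  rw [← hmx] at h1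
  exact hC_of_gen hβ hm.pos (by rw [hmx]; exact hx) hc1 hV h1

/-- **`CG` for all large `n`.** -/
theorem cg_ev (hβ : 0 < β) (hG : H97.CG β) (a : ℝ) (hc : 0 < c0) :
    ∃ κ0 K0 : ℝ, ∃ n0 : ℕ, 0 < κ0 ∧ 1 ≤ K0 ∧ 1 ≤ n0 ∧ ∀ n : ℕ, n0 ≤ n → ∀ u : ℝ,
      K0 * (n : ℝ) ^ (-(1 / 6) : ℝ) ≤ u → u ≤ (n : ℝ) ^ (-(11 / 100) : ℝ) →
      ∀ x : ℝ, 1 / 2 * u ≤ x → x ≤ u → ∀ V : ℝ, 0 ≤ V → V ≤ κ0 * u ^ 3 →
      CG n β x a V (c0 * (n * u ^ 5)) := by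
  obtain ⟨ε, K0, n0, hε, hK0, hn0, h⟩ := gc_ev hβ hG a hc
  refine ⟨ε / 8, K0, n0, by positivity, hK0, hn0, ?_⟩
  intro n hn u hu hu' x hx hx' V hV hV1
  have hn1 : 1 ≤ n := hn0.trans hn
  have hn1' : (0 : ℝ) < n := by exact_mod_cast hn1
  have hu0 : 0 < u := lt_of_lt_of_le (mul_pos (by linarith) (Real.rpow_pos_of_pos hn1' _)) hu
  refine CG.of_Gc (h n hn u hu hu' x hx hx') hβ hx' hc.le hV (hV1.trans ?_)
  have h3 : (1 / 2 * u) ^ 3 ≤ x ^ 3 := pow_le_pow_left₀ (by positivity) hx 3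
  calc ε / 8 * u ^ 3 = ε * (1 / 2 * u) ^ 3 := by ring
    _ ≤ ε * x ^ 3 := mul_le_mul_of_nonneg_left h3 hε.le

end Vale.Agent.P146.H985.S3
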