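import Vale.Agent.P146.H985.SySym

/-!
# P146: the Poincaré inequality for functions which are odd under a symmetry that acts on a set `A`
of coordinates (helper985)

Generalises `H946.odd_poincare` (sign flips) to `gz π ε` (permutations with signs), and states it
for the law of the coordinates of level at most `1` in a layered system.
-/

open MeasureTheory ProbabilityTheory

namespace Vale.Agent.P146.H985

open Vale.Agent.P157 Vale.Agent.P157.Lv Vale.Agent.P157.Lv.Sy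
open Vale.Agent.P146.H425 Vale.Agent.P146.H93 Vale.Agent.P146.H946

set_option linter.unusedSectionVars false

variable {ι X : Type} [Fintype ι] {π : ι ≃ ι} {ε : ι → ℝ}

lemma Dep.congr {lev : ι → ℕ} {l : ℕ} {F : (ι → ℝ) → ℝ} (hF : Dep lev l F) {y y' : ι → ℝ}
    (h : ∀ e, lev e ≤ l → y e = y' e) : F y = F y' := by
  rw [← hF y 0, ← hF y' 0]
  congr 1
  funext e
  unfold mix
  split_ifs with he
  · exact h e he
  · rfl

variable [DecidableEq ι]

/-- Among the coordinates of level at most `l`, `gz π ε` moves only those of `A`. -/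
structure Mv (lev : ι → ℕ) (l : ℕ) (A : Finset ι) (π : ι ≃ ι) (ε : ι → ℝ) : Prop where
  sg : ∀ e, ε e * ε e = 1
  mem : ∀ e, π e ∈ A ↔ e ∈ A
  fix : ∀ e, e ∉ A → lev e ≤ l → π e = e ∧ ε e = 1

variable {lev : ι → ℕ} {l : ℕ} {A : Finset ι}

/-- The mean over `A` of an odd function vanishes. -/
theorem Mv.J_zero (h : Mv lev l A π ε) {F : (ι → ℝ) → ℝ} (hd : Dep lev l F)
    (ho : ∀ z, F (gz π ε z) = -F z) (z : ι → ℝ) : J (lvA A) 0 F z = 0 := by
  have hl : ∀ e, lvA A (π e) = lvA A e := fun e => by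
    unfold lvA
    simp only [h.mem e]
  have h1 := J_gz (π := π) h.sg hl 0 F z
  have h2 : J (lvA A) 0 F (gz π ε z) = J (lvA A) 0 F z := by
    unfold J
    congr 1
    funext w
    refine Dep.congr hd fun e he => ?_
    unfold mix lvA
    by_cases hA : e ∈ A
    · simp [hA]
    · simp only [hA, if_false, le_refl, if_true]
      obtain ⟨h3, h4⟩ := h.fix e hA he
      have h5 := gz_apply (π := π) (ε := ε) z e
      rw [h3, h4, one_mul] at h5
      exact h5
  rw [h2] at h1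
  simp only [ho] at h1
  have h3 : J (lvA A) 0 (fun z => -F z) z = -J (lvA A) 0 F z := by
    unfold J
    rw [integral_neg]
  linarith

/-- **Partial Poincaré inequality**: a function whose mean over `A` vanishes. -/
theorem zero_poincare (A : Finset ι) {F : (ι → ℝ) → ℝ} {F' : ι → (ι → ℝ) → ℝ} (hF : EG F)
    (hd : ∀ e ∈ A, PD e F (F' e)) (hF' : ∀ e ∈ A, EG (F' e))
    (h0 : ∀ z, J (lvA A) 0 F z = 0) :
    ∫ z, F z ^ 2 ∂(gI ι) ≤ ∑ e ∈ A, ∫ z, F' e z ^ 2 ∂(gI ι) := by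
  have h1 : ∀ z, ∫ w, F (mix (lvA A) 0 z w) ^ 2 ∂(gI ι) ≤
      ∑ e ∈ A, ∫ w, F' e (mix (lvA A) 0 z w) ^ 2 ∂(gI ι) := by
    intro z
    have h2 := cc_var_le_one (ι := ι) (F := fun w => F (mix (lvA A) 0 z w))
      (F' := fun e w => if e ∈ A then F' e (mix (lvA A) 0 z w) else 0) (eg_mix_right hF z)
      (fun e => by
        by_cases he : e ∈ A
        · intro y t
          simp only [he, if_true]
          have h3 := hd e he (mix (lvA A) 0 z y) t
          simp only [mix_upd_mem he]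
          exact h3
        · simp only [he, if_false]
          exact PD.of_indep fun y t => by rw [mix_upd_not he])
      (fun e => by
        by_cases he : e ∈ A
        · simp only [he, if_true]
          exact eg_mix_right (hF' e he) z
        · simp only [he, if_false]
          exact EG.const 0)
    have h0' : ∫ w, F (mix (lvA A) 0 z w) ∂(gI ι) = 0 := h0 z
    rw [h0'] at h2
    simp only [sub_zero] at h2
    refine h2.trans (le_of_eq ?_)
    rw [← Finset.sum_subset (Finset.subset_univ A)]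
    · refine Finset.sum_congr rfl fun e he => ?_
      simp only [he, if_true]
    · intro e _ he
      simp [he]
  have h4 := integral_mix (hF.pow 2) (lvA A) 0
  rw [← h4]
  have h5 : ∀ e ∈ A, ∫ z, F' e z ^ 2 ∂(gI ι) =
      ∫ z, ∫ w, F' e (mix (lvA A) 0 z w) ^ 2 ∂(gI ι) ∂(gI ι) := fun e he =>
    (integral_mix ((hF' e he).pow 2) (lvA A) 0).symm
  rw [Finset.sum_congr rfl h5, ← integral_finsetSum]
  · refine integral_mono (((hF.pow 2).J (lvA A) 0).integrable) ?_ h1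
    exact (EG.sum A fun e he => ((hF' e he).pow 2).J (lvA A) 0).integrable
  · intro e he
    exact (((hF' e he).pow 2).J (lvA A) 0).integrable

/-- **Tilted Poincaré inequality, exact form**: a function `f` with `f (gz z) = -f z` under the
weight `e^V` with `V (gz z) = V z`. -/
theorem Mv.poincare_exact (h : Mv lev l A π ε) {f V : (ι → ℝ) → ℝ} {f' V' : ι → (ι → ℝ) → ℝ}
    (hf : EG f) (hfd : ∀ e ∈ A, PD e f (f' e)) (hf' : ∀ e ∈ A, EG (f' e))
    (hV : ∀ e ∈ A, PD e V (V' e)) (hV' : ∀ e ∈ A, EG (V' e))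
    (hex : EG fun z => Real.exp (V z / 2)) (hdf : Dep lev l f) (hdV : Dep lev l V)
    (hfo : ∀ z, f (gz π ε z) = -f z) (hVe : ∀ z, V (gz π ε z) = V z) :
    ∫ z, Real.exp (V z) * f z ^ 2 ∂(gI ι) ≤
      ∫ z, Real.exp (V z) * ∑ e ∈ A, (f' e z + f z * V' e z / 2) ^ 2 ∂(gI ι) := by
  have hee : ∀ z, Real.exp (V z) = Real.exp (V z / 2) ^ 2 := fun z => by
    rw [← Real.exp_nat_mul]
    congr 1
    push_cast
    ring
  have hF' : ∀ e ∈ A, EG fun z => f' e z * Real.exp (V z / 2) +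
      f z * (Real.exp (V z / 2) * (1 / 2 * V' e z)) := fun e he =>
    ((hf' e he).mul hex).add (hf.mul (hex.mul ((hV' e he).const_mul _)))
  have h1 := zero_poincare A (F := fun z => f z * Real.exp (V z / 2))
    (F' := fun e z => f' e z * Real.exp (V z / 2) + f z * (Real.exp (V z / 2) * (1 / 2 * V' e z)))
    (hf.mul hex)
    (fun e he => by
      have h2 : PD e (fun z => Real.exp (V z / 2))
          (fun z => Real.exp (V z / 2) * (1 / 2 * V' e z)) := by
        intro y t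
        have h3 := ((hV e he y t).const_mul (1 / 2 : ℝ)).exp
        convert h3 using 1
        · funext s
          ring_nf
        · ring_nf
      exact (hfd e he).mul h2)
    hF'
    (h.J_zero (fun z w => by simp only [hdf z w, hdV z w]) (fun z => by rw [hfo, hVe]; ring))
  have h4 : ∀ z, (f z * Real.exp (V z / 2)) ^ 2 = Real.exp (V z) * f z ^ 2 := fun z => by
    rw [hee]; ring
  simp only [h4] at h1
  refine h1.trans (le_of_eq ?_)
  rw [← integral_finsetSum]
  · congr 1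
    funext z
    rw [Finset.mul_sum]
    refine Finset.sum_congr rfl fun e _ => ?_
    rw [hee]
    ring
  · intro e he
    exact ((hF' e he).pow 2).integrable

/-- **Tilted Poincaré inequality.** -/
theorem Mv.poincare (h : Mv lev l A π ε) {f V : (ι → ℝ) → ℝ} {f' V' : ι → (ι → ℝ) → ℝ} {L d : ℝ}
    (hf : EG f) (hfd : ∀ e ∈ A, PD e f (f' e)) (hf' : ∀ e ∈ A, EG (f' e))
    (hV : ∀ e ∈ A, PD e V (V' e)) (hV' : ∀ e ∈ A, EG (V' e))
    (hex : EG fun z => Real.exp (V z / 2)) (hdf : Dep lev l f) (hdV : Dep lev l V)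
    (hfo : ∀ z, f (gz π ε z) = -f z) (hVe : ∀ z, V (gz π ε z) = V z)
    (hL : ∀ z, ∑ e ∈ A, V' e z ^ 2 ≤ L ^ 2) (hdp : 0 < d) :
    ∫ z, Real.exp (V z) * f z ^ 2 ∂(gI ι) ≤
      (1 + d) * ∫ z, Real.exp (V z) * ∑ e ∈ A, f' e z ^ 2 ∂(gI ι) +
        (1 + 1 / d) * (L ^ 2 / 4) * ∫ z, Real.exp (V z) * f z ^ 2 ∂(gI ι) := by
  have hee : ∀ z, Real.exp (V z) = Real.exp (V z / 2) ^ 2 := fun z => by
    rw [← Real.exp_nat_mul]
    congr 1
    push_cast
    ring
  have hexp : EG fun z => Real.exp (V z) := by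
    have := hex.pow 2
    simpa only [← hee] using this
  refine (h.poincare_exact hf hfd hf' hV hV' hex hdf hdV hfo hVe).trans ?_
  rw [← integral_const_mul, ← integral_const_mul, ← integral_add]
  · refine integral_mono ?_ ?_ fun z => ?_
    · exact (hexp.mul (EG.sum A fun e he => by
        have := ((hf' e he).add ((hf.mul (hV' e he)).const_mul (1 / 2))).pow 2
        refine this.mono ?_ fun y => le_of_eq ?_
        · have hm := this.meas
          have e2 : (fun y => (f' e y + f y * V' e y / 2) ^ 2) =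
              fun y => (f' e y + 1 / 2 * (f y * V' e y)) ^ 2 := by funext y; ring
          rw [e2]; exact hm
        · congr 2; ring)).integrable
    · exact (((hexp.mul (EG.sum A fun e he => (hf' e he).pow 2)).const_mul _).add
        ((hexp.mul (hf.pow 2)).const_mul _)).integrable
    · show Real.exp (V z) * ∑ e ∈ A, (f' e z + f z * V' e z / 2) ^ 2 ≤ _
      have h5 : ∀ e ∈ A, (f' e z + f z * V' e z / 2) ^ 2 ≤
          (1 + d) * f' e z ^ 2 + (1 + 1 / d) * (f z ^ 2 / 4 * V' e z ^ 2) := by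
        intro e _
        have h6 : 0 ≤ (Real.sqrt d * f' e z - 1 / Real.sqrt d * (f z * V' e z / 2)) ^ 2 :=
          sq_nonneg _
        have h7 : Real.sqrt d ^ 2 = d := Real.sq_sqrt hdp.le
        have h8 : Real.sqrt d ≠ 0 := (Real.sqrt_pos.2 hdp).ne'
        have h9 : (Real.sqrt d * f' e z - 1 / Real.sqrt d * (f z * V' e z / 2)) ^ 2 =
            d * f' e z ^ 2 - 2 * (f' e z * (f z * V' e z / 2)) +
              1 / d * (f z * V' e z / 2) ^ 2 := by
          have h10 : (1 / Real.sqrt d) ^ 2 = 1 / d := by rw [div_pow, h7, one_pow]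
          have h11 : Real.sqrt d * (1 / Real.sqrt d) = 1 := by field_simp
          calc _ = Real.sqrt d ^ 2 * f' e z ^ 2 - 2 * (Real.sqrt d * (1 / Real.sqrt d)) *
                (f' e z * (f z * V' e z / 2)) + (1 / Real.sqrt d) ^ 2 * (f z * V' e z / 2) ^ 2 := by
                ring
            _ = _ := by rw [h7, h10, h11]; ring
        rw [h9] at h6
        linarith
      have h6 := Finset.sum_le_sum h5
      rw [Finset.sum_add_distrib, ← Finset.mul_sum, ← Finset.mul_sum, ← Finset.mul_sum] at h6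
      have h13 : f z ^ 2 / 4 * ∑ e ∈ A, V' e z ^ 2 ≤ f z ^ 2 / 4 * L ^ 2 :=
        mul_le_mul_of_nonneg_left (hL z) (by positivity)
      have h14 : (0 : ℝ) ≤ 1 + 1 / d := by positivity
      have h15 := mul_le_mul_of_nonneg_left h13 h14
      have h16 := mul_le_mul_of_nonneg_left (h6.trans (add_le_add_right h15 _))
        (Real.exp_pos (V z)).le
      refine h16.trans (le_of_eq ?_)
      ring
  · exact ((hexp.mul (EG.sum A fun e he => (hf' e he).pow 2)).const_mul _).integrable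
  · exact ((hexp.mul (hf.pow 2)).const_mul _).integrable

/-- The closed form: if `L ≤ 1 / 2` then the constant is `1 + 4 L`. -/
theorem Mv.poincare' (h : Mv lev l A π ε) {f V : (ι → ℝ) → ℝ} {f' V' : ι → (ι → ℝ) → ℝ} {L : ℝ}
    (hf : EG f) (hfd : ∀ e ∈ A, PD e f (f' e)) (hf' : ∀ e ∈ A, EG (f' e))
    (hV : ∀ e ∈ A, PD e V (V' e)) (hV' : ∀ e ∈ A, EG (V' e))
    (hex : EG fun z => Real.exp (V z / 2)) (hdf : Dep lev l f) (hdV : Dep lev l V)
    (hfo : ∀ z, f (gz π ε z) = -f z) (hVe : ∀ z, V (gz π ε z) = V z)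
    (hL : ∀ z, ∑ e ∈ A, V' e z ^ 2 ≤ L ^ 2) (hL0 : 0 < L) (hL1 : L ≤ 1 / 2) :
    ∫ z, Real.exp (V z) * f z ^ 2 ∂(gI ι) ≤
      (1 + 4 * L) * ∫ z, Real.exp (V z) * ∑ e ∈ A, f' e z ^ 2 ∂(gI ι) := by
  have h1 := h.poincare hf hfd hf' hV hV' hex hdf hdV hfo hVe hL hL0
  have hI : 0 ≤ ∫ z, Real.exp (V z) * f z ^ 2 ∂(gI ι) :=
    integral_nonneg fun z => by positivity
  have hK : 0 ≤ ∫ z, Real.exp (V z) * ∑ e ∈ A, f' e z ^ 2 ∂(gI ι) :=
    integral_nonneg fun z => mul_nonneg (Real.exp_pos _).le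
      (Finset.sum_nonneg fun e _ => sq_nonneg _)
  set I := ∫ z, Real.exp (V z) * f z ^ 2 ∂(gI ι) with hIdef
  set K := ∫ z, Real.exp (V z) * ∑ e ∈ A, f' e z ^ 2 ∂(gI ι) with hKdef
  have h2 : (1 + 1 / L) * (L ^ 2 / 4) = (L ^ 2 + L) / 4 := by
    field_simp
  rw [h2] at h1
  have h3 : I * (1 - (L ^ 2 + L) / 4) ≤ (1 + L) * K := by linarith
  have h4 : (1 + L) ≤ (1 + 4 * L) * (1 - (L ^ 2 + L) / 4) := by nlinarith
  have h5 : 0 < 1 - (L ^ 2 + L) / 4 := by nlinarith
  have h6 : I * (1 - (L ^ 2 + L) / 4) ≤ (1 + 4 * L) * (1 - (L ^ 2 + L) / 4) * K :=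
    h3.trans (mul_le_mul_of_nonneg_right h4 hK)
  nlinarith

/-! ### The law of the levels at most `l` -/

section law

variable [Fintype X]

/-- the log-density of the law of the levels at most `l` -/
noncomputable def VL (S : Sy ι X) (l : ℕ) (z : ι → ℝ) : ℝ :=
  ∑ i ∈ Finset.Ico 0 l, S.m (i + 1) * (S.lg (i + 1) z - S.lg i z)

/-- its partial derivatives -/
noncomputable def VLD (S : Sy ι X) (D : ι → (ι → ℝ) → X → ℝ) (l : ℕ) (e : ι) (z : ι → ℝ) : ℝ :=
  S.m l * S.T l (D e) z -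
    ∑ i ∈ Finset.Ico 0 l, S.p i * (if S.lev e ≤ i then S.T i (D e) z else 0)

variable [Nonempty X] {S : Sy ι X} {D : ι → (ι → ℝ) → X → ℝ} {τ : X ≃ X}

lemma VL_zero (S : Sy ι X) (z : ι → ℝ) : VL S 0 z = 0 := by simp [VL]

lemma VL_one (S : Sy ι X) (z : ι → ℝ) : VL S 1 z = S.m 1 * (S.lg 1 z - S.lg 0 z) := by
  simp [VL]

lemma VLD_one (hS : S.Reg) (D : ι → (ι → ℝ) → X → ℝ) {e : ι} (he : S.lev e = 1) (z : ι → ℝ) :
    VLD S D 1 e z = S.m 1 * S.T 1 (D e) z := by
  simp [VLD, he]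

lemma SyS.VL (h : SyS S π ε τ) (l : ℕ) (z : ι → ℝ) : VL S l (gz π ε z) = VL S l z := by
  unfold H985.VL
  simp only [h.lg]

lemma VL_lip (hS : S.Reg) {l : ℕ} (hl : l ≤ S.K) : Lip (VL S l) := lc_lip_sum hS hl

lemma VL_dep (hS : S.Reg) {l : ℕ} (hl : l ≤ S.K) : Dep S.lev l (VL S l) := by
  intro z w
  unfold VL
  refine Finset.sum_congr rfl fun i hi => ?_
  rw [Finset.mem_Ico] at hi
  rw [(hS.dep_lg (l := i + 1) (by omega)).mono (show i + 1 ≤ l by omega) z w,
    (hS.dep_lg (l := i) (by omega)).mono (show i ≤ l by omega) z w]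

/-- the density -/
lemma dn_zero_eq (hl : l ≤ S.K) (z : ι → ℝ) :
    S.dn 0 z = Real.exp (VL S l z) * S.dn l z := by
  unfold dn VL
  rw [← Real.exp_add, Finset.sum_Ico_consecutive _ (Nat.zero_le _) hl]

/-- **The law of the levels at most `l` has the density `e^{VL}`.** -/
theorem Ex_eq_VL (hS : S.Reg) {l : ℕ} (hl : l ≤ S.K) {g : (ι → ℝ) → ℝ} (hg : EG g)
    (hd : Dep S.lev l g) : S.Ex (fun z _ => g z) = ∫ z, Real.exp (VL S l z) * g z ∂(gI ι) := by
  have hE : EG fun z => Real.exp (VL S l z) := lc_eg_exp (VL_lip hS hl)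
  unfold Ex
  simp only [av_fst S g]
  have e : (fun z => S.dn 0 z * g z) = fun z => (Real.exp (VL S l z) * g z) * S.dn l z := by
    funext z
    rw [dn_zero_eq hl]
    ring
  rw [e, ← integral_J ((hE.mul hg).mul (hS.eg_dn hl)) (lev := S.lev) (l := l)]
  congr 1
  funext z
  have hdep : Dep S.lev l fun z => Real.exp (VL S l z) * g z := fun z w => by
    simp only [VL_dep hS hl z w, hd z w]
  rw [hdep.J_mul, hS.J_dn hl, mul_one]

lemma VL_pd (hS : S.RegD D) {l : ℕ} (hl : l ≤ S.K) {e : ι} (he : S.lev e ≤ l) :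
    PD e (VL S l) (VLD S D l e) := by
  have hlg : ∀ i ≤ S.K, PD e (S.lg i) (fun z => if S.lev e ≤ i then S.T i (D e) z else 0) := by
    intro i hi
    by_cases he : S.lev e ≤ i
    · simp only [he, if_true]
      exact hS.pd_lg hi he
    · simp only [he, if_false]
      exact (hS.toReg.dep_lg hi).pd (not_le.1 he)
  have h1 : PD e (fun z => ∑ i ∈ Finset.Ico 0 l, S.m (i + 1) * (S.lg (i + 1) z - S.lg i z))
      (fun z => ∑ i ∈ Finset.Ico 0 l, S.m (i + 1) *
        ((if S.lev e ≤ i + 1 then S.T (i + 1) (D e) z else 0) -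
          (if S.lev e ≤ i then S.T i (D e) z else 0))) := by
    refine PD.sum _ fun i hi => ?_
    obtain ⟨_, hi2⟩ := Finset.mem_Ico.1 hi
    exact ((hlg (i + 1) (by omega)).sub (hlg i (by omega))).const_mul _
  refine h1.congr fun z => ?_
  rw [abel S.m (fun i => if S.lev e ≤ i then S.T i (D e) z else 0) (Nat.zero_le l)]
  unfold VLD
  simp only [if_pos he]
  have h4 : S.p 0 = S.m (0 + 1) := by simp [p, hS.m0]
  have h3 := Finset.sum_eq_sum_Ico_succ_bot (Nat.succ_pos l)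
    (fun i => S.p i * (if S.lev e ≤ i then S.T i (D e) z else 0))
  have h5 := Finset.sum_Ico_succ_top (Nat.zero_le l)
    (fun i => S.p i * (if S.lev e ≤ i then S.T i (D e) z else 0))
  rw [Nat.succ_eq_add_one] at h3
  rw [h5, h4, if_pos he] at h3
  have h6 : ∑ i ∈ Finset.Ico (0 + 1) (l + 1), (S.m (i + 1) - S.m i) *
      (if S.lev e ≤ i then S.T i (D e) z else 0) = ∑ i ∈ Finset.Ico (0 + 1) (l + 1), S.p i *
      (if S.lev e ≤ i then S.T i (D e) z else 0) := rfl
  rw [h6]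
  have h7 : S.p l = S.m (l + 1) - S.m l := rfl
  rw [h7] at h3
  linarith

lemma VLD_eg (hS : S.RegD D) {l : ℕ} (hl : l ≤ S.K) (e : ι) : EG (VLD S D l e) := by
  unfold VLD
  refine ((hS.toReg.eg_T hl (hS.nh e)).const_mul _).sub (EG.sum _ fun i hi => ?_)
  rw [Finset.mem_Ico] at hi
  split_ifs
  · exact (hS.toReg.eg_T (by omega) (hS.nh e)).const_mul _
  · simpa using EG.const 0

lemma Dep_pd {lev : ι → ℕ} {l : ℕ} {f f' : (ι → ℝ) → ℝ} {e : ι} (hp : PD e f f')
    (hd : Dep lev l f) (he : lev e ≤ l) : Dep lev l f' := by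
  intro z w
  have h1 := hp (mix lev l z w) (z e)
  have h2 := hp z (z e)
  simp only [← mix_update he, hd _ w] at h1
  rw [Function.update_eq_self] at h1 h2
  exact h1.unique h2

/-- **Exact tilted Poincaré inequality in the law of the levels at most `l`.** -/
theorem Mv.poincare_Ex (hA : Mv S.lev l A π ε) (hS : S.RegD D) (h : SyS S π ε τ)
    (hAl : ∀ e ∈ A, S.lev e ≤ l) (hl : l ≤ S.K) {f : (ι → ℝ) → ℝ} {f' : ι → (ι → ℝ) → ℝ}
    (hf : EG f) (hdf : Dep S.lev l f) (hfd : ∀ e ∈ A, PD e f (f' e)) (hf' : ∀ e ∈ A, EG (f' e))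
    (hfo : ∀ z, f (gz π ε z) = -f z) :
    S.Ex (fun z _ => f z ^ 2) ≤
      S.Ex (fun z _ => ∑ e ∈ A, (f' e z + f z * VLD S D l e z / 2) ^ 2) := by
  have hR := hS.toReg
  have hdV : ∀ e ∈ A, Dep S.lev l (VLD S D l e) := fun e he =>
    Dep_pd (VL_pd hS hl (hAl e he)) (VL_dep hR hl) (hAl e he)
  have hdf' : ∀ e ∈ A, Dep S.lev l (f' e) := fun e he => Dep_pd (hfd e he) hdf (hAl e he)
  have hg : ∀ e ∈ A, EG fun z => (f' e z + f z * VLD S D l e z / 2) ^ 2 := fun e he => by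
    have h1 := ((hf' e he).add ((hf.mul (VLD_eg hS hl e)).const_mul (1 / 2))).pow 2
    have e2 : (fun z => (f' e z + f z * VLD S D l e z / 2) ^ 2) =
        fun z => (f' e z + 1 / 2 * (f z * VLD S D l e z)) ^ 2 := by funext z; ring
    rw [e2]; exact h1
  rw [Ex_eq_VL hR hl (hf.pow 2) (fun z w => by simp only [hdf z w]),
    Ex_eq_VL hR hl (EG.sum A hg) (fun z w => by
      refine Finset.sum_congr rfl fun e he => ?_
      rw [hdf' e he z w, hdf z w, hdV e he z w])]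
  refine hA.poincare_exact hf hfd hf' (fun e he => VL_pd hS hl (hAl e he))
    (fun e _ => VLD_eg hS hl e) ?_ hdf (VL_dep hR hl) hfo (h.VL l)
  have h1 := (VL_lip hR hl).exp_eg (1 / 2)
  have e2 : (fun z => Real.exp (VL S l z / 2)) = fun z => Real.exp (1 / 2 * VL S l z) := by
    funext z; ring_nf
  rw [e2]; exact h1

/-- **Tilted Poincaré inequality in the law of the levels at most `l`.** -/
theorem Mv.poincare_Ex_d (hA : Mv S.lev l A π ε) (hS : S.RegD D) (h : SyS S π ε τ)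
    (hAl : ∀ e ∈ A, S.lev e ≤ l) (hl : l ≤ S.K) {f : (ι → ℝ) → ℝ} {f' : ι → (ι → ℝ) → ℝ}
    {L d : ℝ} (hf : EG f) (hdf : Dep S.lev l f) (hfd : ∀ e ∈ A, PD e f (f' e))
    (hf' : ∀ e ∈ A, EG (f' e)) (hfo : ∀ z, f (gz π ε z) = -f z)
    (hL : ∀ z, ∑ e ∈ A, VLD S D l e z ^ 2 ≤ L ^ 2) (hdp : 0 < d) :
    S.Ex (fun z _ => f z ^ 2) ≤ (1 + d) * S.Ex (fun z _ => ∑ e ∈ A, f' e z ^ 2) +
      (1 + 1 / d) * (L ^ 2 / 4) * S.Ex (fun z _ => f z ^ 2) := by
  have hR := hS.toReg
  have hdf' : ∀ e ∈ A, Dep S.lev l (f' e) := fun e he => Dep_pd (hfd e he) hdf (hAl e he)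
  rw [Ex_eq_VL hR hl (hf.pow 2) (fun z w => by simp only [hdf z w]),
    Ex_eq_VL hR hl (EG.sum A fun e he => (hf' e he).pow 2) (fun z w => by
      refine Finset.sum_congr rfl fun e he => ?_
      rw [hdf' e he z w])]
  refine hA.poincare hf hfd hf' (fun e he => VL_pd hS hl (hAl e he))
    (fun e _ => VLD_eg hS hl e) ?_ hdf (VL_dep hR hl) hfo (h.VL l) hL hdp
  have h1 := (VL_lip hR hl).exp_eg (1 / 2)
  have e2 : (fun z => Real.exp (VL S l z / 2)) = fun z => Real.exp (1 / 2 * VL S l z) := by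
    funext z; ring_nf
  rw [e2]; exact h1

/-- The closed form: if `L ≤ 1 / 2` then the constant is `1 + 4 L`. -/
theorem Mv.poincare_Ex' (hA : Mv S.lev l A π ε) (hS : S.RegD D) (h : SyS S π ε τ)
    (hAl : ∀ e ∈ A, S.lev e ≤ l) (hl : l ≤ S.K) {f : (ι → ℝ) → ℝ} {f' : ι → (ι → ℝ) → ℝ}
    {L : ℝ} (hf : EG f) (hdf : Dep S.lev l f) (hfd : ∀ e ∈ A, PD e f (f' e))
    (hf' : ∀ e ∈ A, EG (f' e)) (hfo : ∀ z, f (gz π ε z) = -f z)
    (hL : ∀ z, ∑ e ∈ A, VLD S D l e z ^ 2 ≤ L ^ 2) (hL0 : 0 < L) (hL1 : L ≤ 1 / 2) :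
    S.Ex (fun z _ => f z ^ 2) ≤ (1 + 4 * L) * S.Ex (fun z _ => ∑ e ∈ A, f' e z ^ 2) := by
  have hR := hS.toReg
  have hdf' : ∀ e ∈ A, Dep S.lev l (f' e) := fun e he => Dep_pd (hfd e he) hdf (hAl e he)
  rw [Ex_eq_VL hR hl (hf.pow 2) (fun z w => by simp only [hdf z w]),
    Ex_eq_VL hR hl (EG.sum A fun e he => (hf' e he).pow 2) (fun z w => by
      refine Finset.sum_congr rfl fun e he => ?_
      rw [hdf' e he z w])]
  refine hA.poincare' hf hfd hf' (fun e he => VL_pd hS hl (hAl e he))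
    (fun e _ => VLD_eg hS hl e) ?_ hdf (VL_dep hR hl) hfo (h.VL l) hL hL0 hL1
  have h1 := (VL_lip hR hl).exp_eg (1 / 2)
  have e2 : (fun z => Real.exp (VL S l z / 2)) = fun z => Real.exp (1 / 2 * VL S l z) := by
    funext z; ring_nf
  rw [e2]; exact h1

end law

end Vale.Agent.P146.H985
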