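import Vale.Agent.P146.H985.OddP

/-!
# P146: the first and the third chaos of an odd function (helper985)

For a function `g` of Gaussian coordinates `e ∈ A` with vanishing even chaoses (odd in `A`):
`0 ≤ E g² - ∑ (E g_e)² - (1/6) ∑ (E g_efh)² ≤ ∑ E g_efhk²` and
`∑ (E g_efh² - (E g_efh)²) ≤ ∑ E g_efhk²`.
Only integration by parts and the Poincaré inequality are used.
-/

open MeasureTheory ProbabilityTheory

namespace Vale.Agent.P146.H985.Ch

open Vale.Agent.P157 Vale.Agent.P157.Lv Vale.Agent.P157.Lv.Sy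
open Vale.Agent.P146.H425 Vale.Agent.P146.H93 Vale.Agent.P146.H946

set_option linter.unusedSectionVars false

variable {ι : Type} [Fintype ι] [DecidableEq ι] {A : Finset ι}

/-- the Kronecker symbol, as in `PD.coord` -/
def dl (e' e : ι) : ℝ := if e' = e then 1 else 0

lemma dl_comm (e f : ι) : dl e f = dl f e := by
  unfold dl; simp only [eq_comm]

lemma pd_coord (a e : ι) : PD a (fun y : ι → ℝ => y e) (fun _ => dl e a) := PD.coord e

lemma sum_dl {a : ι} (ha : a ∈ A) (X : ι → ℝ) : ∑ e ∈ A, dl e a * X e = X a := by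
  unfold dl
  simp [ite_mul, Finset.sum_ite_eq', ha]

lemma sum_dl' {a : ι} (ha : a ∈ A) (X : ι → ℝ) : ∑ e ∈ A, dl a e * X e = X a := by
  unfold dl
  simp [ite_mul, Finset.sum_ite_eq, ha]

/-! ### Functions with three derivatives -/

/-- three derivatives in the coordinates of `A` -/
structure D3 (A : Finset ι) (g : (ι → ℝ) → ℝ) (g1 : ι → (ι → ℝ) → ℝ)
    (g2 : ι → ι → (ι → ℝ) → ℝ) (g3 : ι → ι → ι → (ι → ℝ) → ℝ) : Prop where
  e0 : EG g
  e1 : ∀ e ∈ A, EG (g1 e)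
  e2 : ∀ e ∈ A, ∀ f ∈ A, EG (g2 e f)
  e3 : ∀ e ∈ A, ∀ f ∈ A, ∀ h ∈ A, EG (g3 e f h)
  d1 : ∀ e ∈ A, PD e g (g1 e)
  d2 : ∀ e ∈ A, ∀ f ∈ A, PD f (g1 e) (g2 e f)
  d3 : ∀ e ∈ A, ∀ f ∈ A, ∀ h ∈ A, PD h (g2 e f) (g3 e f h)

variable {g : (ι → ℝ) → ℝ} {g1 : ι → (ι → ℝ) → ℝ} {g2 : ι → ι → (ι → ℝ) → ℝ}
  {g3 : ι → ι → ι → (ι → ℝ) → ℝ} {g4 : ι → ι → ι → ι → (ι → ℝ) → ℝ}

lemma D3.sub {f : (ι → ℝ) → ℝ} {f1 : ι → (ι → ℝ) → ℝ} {f2 : ι → ι → (ι → ℝ) → ℝ}
    {f3 : ι → ι → ι → (ι → ℝ) → ℝ} (hg : D3 A g g1 g2 g3) (hf : D3 A f f1 f2 f3) :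
    D3 A (fun z => g z - f z) (fun e z => g1 e z - f1 e z) (fun e h z => g2 e h z - f2 e h z)
      (fun e h k z => g3 e h k z - f3 e h k z) where
  e0 := hg.e0.sub hf.e0
  e1 := fun e he => (hg.e1 e he).sub (hf.e1 e he)
  e2 := fun e he f hf' => (hg.e2 e he f hf').sub (hf.e2 e he f hf')
  e3 := fun e he f hf' h hh => (hg.e3 e he f hf' h hh).sub (hf.e3 e he f hf' h hh)
  d1 := fun e he => (hg.d1 e he).sub (hf.d1 e he)
  d2 := fun e he f hf' => (hg.d2 e he f hf').sub (hf.d2 e he f hf')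
  d3 := fun e he f hf' h hh => (hg.d3 e he f hf' h hh).sub (hf.d3 e he f hf' h hh)

lemma D3.one (H : D3 A g g1 g2 g3) {h : ι} (hh : h ∈ A) :
    ∫ z, z h * g z ∂(gI ι) = ∫ z, g1 h z ∂(gI ι) :=
  (H.d1 h hh).stein H.e0 (H.e1 h hh)

/-- the third Hermite coefficient -/
lemma D3.three (H : D3 A g g1 g2 g3) {e f h : ι} (he : e ∈ A) (hf : f ∈ A) (hh : h ∈ A) :
    ∫ z, z e * (z f * (z h * g z)) ∂(gI ι) = ∫ z, g3 e f h z ∂(gI ι) +
      dl e f * ∫ z, g1 h z ∂(gI ι) + dl e h * ∫ z, g1 f z ∂(gI ι) +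
        dl f h * ∫ z, g1 e z ∂(gI ι) := by
  have c := fun i : ι => EG.coord (ι := ι) i
  -- first step
  have p1 : PD e (fun z : ι → ℝ => z f * (z h * g z))
      (fun z => dl f e * (z h * g z) + z f * (dl h e * g z + z h * g1 e z)) :=
    (pd_coord e f).mul ((pd_coord e h).mul (H.d1 e he))
  have i1 := p1.stein ((c f).mul ((c h).mul H.e0))
    ((((c h).mul H.e0).const_mul _).add
      ((c f).mul ((H.e0.const_mul _).add ((c h).mul (H.e1 e he)))))
  have p2 : PD f (fun z : ι → ℝ => z h * g1 e z) (fun z => dl h f * g1 e z + z h * g2 e f z) :=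
    (pd_coord f h).mul (H.d2 e he f hf)
  have i2 := p2.stein ((c h).mul (H.e1 e he))
    (((H.e1 e he).const_mul _).add ((c h).mul (H.e2 e he f hf)))
  have i3 := (H.d3 e he f hf h hh).stein (H.e2 e he f hf) (H.e3 e he f hf h hh)
  have i4 := H.one hh
  have i5 := H.one hf
  have s1 : ∫ z, (dl f e * (z h * g z) + z f * (dl h e * g z + z h * g1 e z)) ∂(gI ι) =
      dl f e * ∫ z, z h * g z ∂(gI ι) + dl h e * ∫ z, z f * g z ∂(gI ι) +
        ∫ z, z f * (z h * g1 e z) ∂(gI ι) := by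
    rw [← integral_const_mul, ← integral_const_mul, ← integral_add, ← integral_add]
    · congr 1
      funext z
      ring
    · exact ((((c h).mul H.e0).const_mul (dl f e)).add
        (((c f).mul H.e0).const_mul (dl h e))).integrable
    · exact ((c f).mul ((c h).mul (H.e1 e he))).integrable
    · exact (((c h).mul H.e0).const_mul (dl f e)).integrable
    · exact (((c f).mul H.e0).const_mul (dl h e)).integrable
  have s2 : ∫ z, (dl h f * g1 e z + z h * g2 e f z) ∂(gI ι) =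
      dl h f * ∫ z, g1 e z ∂(gI ι) + ∫ z, z h * g2 e f z ∂(gI ι) := by
    rw [← integral_const_mul, ← integral_add]
    · exact ((H.e1 e he).const_mul (dl h f)).integrable
    · exact ((c h).mul (H.e2 e he f hf)).integrable
  rw [i1, s1, i4, i5, i2, s2, i3, dl_comm f e, dl_comm h e, dl_comm h f]
  ring

/-- the third Hermite coefficient is symmetric -/
lemma D3.symm12 (H : D3 A g g1 g2 g3) {e f h : ι} (he : e ∈ A) (hf : f ∈ A) (hh : h ∈ A) :
    ∫ z, g3 e f h z ∂(gI ι) = ∫ z, g3 f e h z ∂(gI ι) := by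
  have h1 := H.three he hf hh
  have h2 := H.three hf he hh
  have e1 : ∫ z, z e * (z f * (z h * g z)) ∂(gI ι) = ∫ z, z f * (z e * (z h * g z)) ∂(gI ι) := by
    congr 1; funext z; ring
  rw [e1, h2, dl_comm f e] at h1
  linarith

lemma D3.symm23 (H : D3 A g g1 g2 g3) {e f h : ι} (he : e ∈ A) (hf : f ∈ A) (hh : h ∈ A) :
    ∫ z, g3 e f h z ∂(gI ι) = ∫ z, g3 e h f z ∂(gI ι) := by
  have h1 := H.three he hf hh
  have h2 := H.three he hh hf
  have e1 : ∫ z, z e * (z f * (z h * g z)) ∂(gI ι) = ∫ z, z e * (z h * (z f * g z)) ∂(gI ι) := by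
    congr 1; funext z; ring
  rw [e1, h2, dl_comm h f] at h1
  linarith

/-! ### The polynomial -/

/-- a symmetric tensor on `A` -/
structure Ts (A : Finset ι) (t : ι → ι → ι → ℝ) : Prop where
  s12 : ∀ e ∈ A, ∀ f ∈ A, ∀ h ∈ A, t e f h = t f e h
  s23 : ∀ e ∈ A, ∀ f ∈ A, ∀ h ∈ A, t e f h = t e h f

/-- the trace of the tensor -/
def uu (A : Finset ι) (t : ι → ι → ι → ℝ) (h : ι) : ℝ := ∑ e ∈ A, t e e h

/-- the polynomial with the Hermite coefficients `c`, `t` -/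
noncomputable def Po (A : Finset ι) (c : ι → ℝ) (t : ι → ι → ι → ℝ) (z : ι → ℝ) : ℝ :=
  ∑ h ∈ A, (c h - 1 / 2 * uu A t h) * z h +
    1 / 6 * ∑ e ∈ A, ∑ f ∈ A, ∑ h ∈ A, t e f h * (z e * (z f * z h))

noncomputable def Po1 (A : Finset ι) (c : ι → ℝ) (t : ι → ι → ι → ℝ) (a : ι) (z : ι → ℝ) : ℝ :=
  (c a - 1 / 2 * uu A t a) + 1 / 2 * ∑ f ∈ A, ∑ h ∈ A, t a f h * (z f * z h)

noncomputable def Po2 (A : Finset ι) (t : ι → ι → ι → ℝ) (a b : ι) (z : ι → ℝ) : ℝ :=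
  ∑ h ∈ A, t a b h * z h

variable {c : ι → ℝ} {t : ι → ι → ι → ℝ}

/-- **The derivatives of the polynomial.** -/
theorem Ts.d3 (ht : Ts A t) (c : ι → ℝ) :
    D3 A (Po A c t) (Po1 A c t) (Po2 A t) (fun a b d _ => t a b d) := by
  have cc := fun i : ι => EG.coord (ι := ι) i
  refine ⟨?_, ?_, ?_, fun _ _ _ _ _ _ => EG.const _, ?_, ?_, ?_⟩
  · exact (EG.sum A fun h _ => (cc h).const_mul _).add
      ((EG.sum A fun e _ => EG.sum A fun f _ => EG.sum A fun h _ =>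
        ((cc e).mul ((cc f).mul (cc h))).const_mul _).const_mul _)
  · intro a _
    exact (EG.const _).add ((EG.sum A fun f _ => EG.sum A fun h _ =>
        ((cc f).mul (cc h)).const_mul _).const_mul _)
  · intro a _ b _
    exact EG.sum A fun h _ => (cc h).const_mul _
  · intro a ha
    have h1 : PD a (Po A c t) (fun z =>
        ∑ h ∈ A, (c h - 1 / 2 * uu A t h) * dl h a +
          1 / 6 * ∑ e ∈ A, ∑ f ∈ A, ∑ h ∈ A,
            t e f h * (dl e a * (z f * z h) + z e * (dl f a * z h + z f * dl h a))) :=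
      (PD.sum A fun h _ => (pd_coord a h).const_mul _).add
        ((PD.sum A fun e _ => PD.sum A fun f _ => PD.sum A fun h _ =>
          (((pd_coord a e).mul ((pd_coord a f).mul (pd_coord a h))).const_mul _)).const_mul _)
    refine h1.congr fun z => ?_
    have e1 : ∑ h ∈ A, (c h - 1 / 2 * uu A t h) * dl h a = c a - 1 / 2 * uu A t a := by
      have := sum_dl ha fun h => c h - 1 / 2 * uu A t h
      rw [← this]
      exact Finset.sum_congr rfl fun h _ => mul_comm _ _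
    have e2 : ∑ e ∈ A, ∑ f ∈ A, ∑ h ∈ A,
            t e f h * (dl e a * (z f * z h) + z e * (dl f a * z h + z f * dl h a)) =
        3 * ∑ f ∈ A, ∑ h ∈ A, t a f h * (z f * z h) := by
      have s1 : ∑ e ∈ A, ∑ f ∈ A, ∑ h ∈ A, dl e a * (t e f h * (z f * z h)) =
          ∑ f ∈ A, ∑ h ∈ A, t a f h * (z f * z h) := by
        simp_rw [← Finset.mul_sum]
        exact sum_dl ha fun e => ∑ f ∈ A, ∑ h ∈ A, t e f h * (z f * z h)
      have s2 : ∑ e ∈ A, ∑ f ∈ A, ∑ h ∈ A, dl f a * (t e f h * (z e * z h)) =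
          ∑ f ∈ A, ∑ h ∈ A, t a f h * (z f * z h) := by
        simp_rw [← Finset.mul_sum]
        refine Finset.sum_congr rfl fun e he => ?_
        rw [sum_dl ha fun f => ∑ h ∈ A, t e f h * (z e * z h)]
        refine Finset.sum_congr rfl fun h hh => ?_
        rw [ht.s12 e he a ha h hh]
      have s3 : ∑ e ∈ A, ∑ f ∈ A, ∑ h ∈ A, dl h a * (t e f h * (z e * z f)) =
          ∑ f ∈ A, ∑ h ∈ A, t a f h * (z f * z h) := by
        refine Finset.sum_congr rfl fun e he => Finset.sum_congr rfl fun f hf => ?_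
        rw [sum_dl ha fun h => t e f h * (z e * z f)]
        rw [ht.s23 e he f hf a ha, ht.s12 e he a ha f hf]
      have s4 : ∑ e ∈ A, ∑ f ∈ A, ∑ h ∈ A,
            t e f h * (dl e a * (z f * z h) + z e * (dl f a * z h + z f * dl h a)) =
          ∑ e ∈ A, ∑ f ∈ A, ∑ h ∈ A, dl e a * (t e f h * (z f * z h)) +
          ∑ e ∈ A, ∑ f ∈ A, ∑ h ∈ A, dl f a * (t e f h * (z e * z h)) +
          ∑ e ∈ A, ∑ f ∈ A, ∑ h ∈ A, dl h a * (t e f h * (z e * z f)) := by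
        simp_rw [← Finset.sum_add_distrib]
        refine Finset.sum_congr rfl fun e _ => Finset.sum_congr rfl fun f _ =>
          Finset.sum_congr rfl fun h _ => ?_
        ring
      rw [s4, s1, s2, s3]
      ring
    rw [e1, e2]
    unfold Po1
    ring
  · intro a ha b hb
    have h1 : PD b (Po1 A c t a) (fun z => 0 + 1 / 2 * ∑ f ∈ A, ∑ h ∈ A,
        t a f h * (dl f b * z h + z f * dl h b)) :=
      (PD.const _).add ((PD.sum A fun f _ => PD.sum A fun h _ =>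
          ((pd_coord b f).mul (pd_coord b h)).const_mul _).const_mul _)
    refine h1.congr fun z => ?_
    have s1 : ∑ f ∈ A, ∑ h ∈ A, dl f b * (t a f h * z h) = ∑ h ∈ A, t a b h * z h := by
      simp_rw [← Finset.mul_sum]
      exact sum_dl hb fun f => ∑ h ∈ A, t a f h * z h
    have s2 : ∑ f ∈ A, ∑ h ∈ A, dl h b * (t a f h * z f) = ∑ h ∈ A, t a b h * z h := by
      refine Finset.sum_congr rfl fun f hf => ?_
      rw [sum_dl hb fun h => t a f h * z f, ht.s23 a ha f hf b hb]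
    have s3 : ∑ f ∈ A, ∑ h ∈ A, t a f h * (dl f b * z h + z f * dl h b) =
        ∑ f ∈ A, ∑ h ∈ A, dl f b * (t a f h * z h) +
          ∑ f ∈ A, ∑ h ∈ A, dl h b * (t a f h * z f) := by
      simp_rw [← Finset.sum_add_distrib]
      refine Finset.sum_congr rfl fun f _ => Finset.sum_congr rfl fun h _ => ?_
      ring
    rw [s3, s1, s2]
    unfold Po2
    ring
  · intro a ha b hb d hd
    have h1 : PD d (Po2 A t a b) (fun z => ∑ h ∈ A, t a b h * dl h d) :=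
      PD.sum A fun h _ => (pd_coord d h).const_mul _
    refine h1.congr fun z => ?_
    have := sum_dl hd fun h => t a b h
    rw [← this]
    exact Finset.sum_congr rfl fun h _ => mul_comm _ _

/-- **The pairing with the polynomial.** -/
theorem D3.pair (H : D3 A g g1 g2 g3) (ht : Ts A t) (c : ι → ℝ) :
    ∫ z, g z * Po A c t z ∂(gI ι) = ∑ h ∈ A, c h * ∫ z, g1 h z ∂(gI ι) +
      1 / 6 * ∑ e ∈ A, ∑ f ∈ A, ∑ h ∈ A, t e f h * ∫ z, g3 e f h z ∂(gI ι) := by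
  have cc := fun i : ι => EG.coord (ι := ι) i
  set C : ι → ℝ := fun h => ∫ z, g1 h z ∂(gI ι) with hC
  have e0 : (fun z => g z * Po A c t z) = fun z =>
      ∑ h ∈ A, (c h - 1 / 2 * uu A t h) * (z h * g z) +
        1 / 6 * ∑ e ∈ A, ∑ f ∈ A, ∑ h ∈ A, t e f h * (z e * (z f * (z h * g z))) := by
    funext z
    unfold Po
    rw [mul_add, Finset.mul_sum]
    congr 1
    · exact Finset.sum_congr rfl fun h _ => by ring
    · rw [← mul_assoc, mul_comm (g z) (1 / 6), mul_assoc]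
      congr 1
      simp_rw [Finset.mul_sum]
      refine Finset.sum_congr rfl fun e _ => Finset.sum_congr rfl fun f _ =>
        Finset.sum_congr rfl fun h _ => ?_
      ring
  have I1 : ∀ h ∈ A, EG fun z => (c h - 1 / 2 * uu A t h) * (z h * g z) := fun h _ =>
    ((cc h).mul H.e0).const_mul _
  have I3 : ∀ e ∈ A, ∀ f ∈ A, ∀ h ∈ A, EG fun z : ι → ℝ =>
      t e f h * (z e * (z f * (z h * g z))) := fun e _ f _ h _ =>
    ((cc e).mul ((cc f).mul ((cc h).mul H.e0))).const_mul _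
  rw [e0, integral_add (EG.sum A I1).integrable
    ((EG.sum A fun e he => EG.sum A fun f hf => EG.sum A fun h hh =>
      I3 e he f hf h hh).const_mul _).integrable, integral_finsetSum A fun h hh =>
        (I1 h hh).integrable, integral_const_mul, integral_finsetSum A fun e he =>
        (EG.sum A fun f hf => EG.sum A fun h hh => I3 e he f hf h hh).integrable]
  have e1 : ∀ h ∈ A, ∫ z, (c h - 1 / 2 * uu A t h) * (z h * g z) ∂(gI ι) =
      (c h - 1 / 2 * uu A t h) * C h := fun h hh => by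
    rw [integral_const_mul, H.one hh]
  have e2 : ∀ e ∈ A, ∫ z, ∑ f ∈ A, ∑ h ∈ A, t e f h * (z e * (z f * (z h * g z))) ∂(gI ι) =
      ∑ f ∈ A, ∑ h ∈ A, t e f h * (∫ z, g3 e f h z ∂(gI ι) + dl e f * C h + dl e h * C f +
        dl f h * C e) := by
    intro e he
    rw [integral_finsetSum A fun f hf => (EG.sum A fun h hh => I3 e he f hf h hh).integrable]
    refine Finset.sum_congr rfl fun f hf => ?_
    rw [integral_finsetSum A fun h hh => (I3 e he f hf h hh).integrable]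
    refine Finset.sum_congr rfl fun h hh => ?_
    rw [integral_const_mul, H.three he hf hh]
  rw [Finset.sum_congr rfl e1, Finset.sum_congr rfl e2]
  -- the three contractions
  have k1 : ∑ e ∈ A, ∑ f ∈ A, ∑ h ∈ A, dl e f * (t e f h * C h) = ∑ h ∈ A, uu A t h * C h := by
    have : ∀ e ∈ A, ∑ f ∈ A, ∑ h ∈ A, dl e f * (t e f h * C h) = ∑ h ∈ A, t e e h * C h := by
      intro e he
      simp_rw [← Finset.mul_sum]
      exact sum_dl' he fun f => ∑ h ∈ A, t e f h * C h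
    rw [Finset.sum_congr rfl this, Finset.sum_comm]
    refine Finset.sum_congr rfl fun h _ => ?_
    unfold uu
    rw [Finset.sum_mul]
  have k2 : ∑ e ∈ A, ∑ f ∈ A, ∑ h ∈ A, dl e h * (t e f h * C f) = ∑ h ∈ A, uu A t h * C h := by
    have : ∀ e ∈ A, ∑ f ∈ A, ∑ h ∈ A, dl e h * (t e f h * C f) = ∑ f ∈ A, t e e f * C f := by
      intro e he
      refine Finset.sum_congr rfl fun f hf => ?_
      rw [sum_dl' he fun h => t e f h * C f, ht.s23 e he f hf e he]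
    rw [Finset.sum_congr rfl this, Finset.sum_comm]
    refine Finset.sum_congr rfl fun h _ => ?_
    unfold uu
    rw [Finset.sum_mul]
  have k3 : ∑ e ∈ A, ∑ f ∈ A, ∑ h ∈ A, dl f h * (t e f h * C e) = ∑ h ∈ A, uu A t h * C h := by
    have : ∀ e ∈ A, ∑ f ∈ A, ∑ h ∈ A, dl f h * (t e f h * C e) = uu A t e * C e := by
      intro e he
      unfold uu
      rw [Finset.sum_mul]
      refine Finset.sum_congr rfl fun f hf => ?_
      rw [sum_dl' hf fun h => t e f h * C e, ht.s12 e he f hf f hf, ht.s23 f hf e he f hf]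
    exact Finset.sum_congr rfl this
  have k4 : ∑ e ∈ A, ∑ f ∈ A, ∑ h ∈ A, t e f h * (∫ z, g3 e f h z ∂(gI ι) + dl e f * C h +
      dl e h * C f + dl f h * C e) =
      ∑ e ∈ A, ∑ f ∈ A, ∑ h ∈ A, t e f h * ∫ z, g3 e f h z ∂(gI ι) +
      ∑ e ∈ A, ∑ f ∈ A, ∑ h ∈ A, dl e f * (t e f h * C h) +
      ∑ e ∈ A, ∑ f ∈ A, ∑ h ∈ A, dl e h * (t e f h * C f) +
      ∑ e ∈ A, ∑ f ∈ A, ∑ h ∈ A, dl f h * (t e f h * C e) := by
    simp_rw [← Finset.sum_add_distrib]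
    refine Finset.sum_congr rfl fun e _ => Finset.sum_congr rfl fun f _ =>
      Finset.sum_congr rfl fun h _ => ?_
    ring
  rw [k4, k1, k2, k3]
  have k5 : ∑ h ∈ A, (c h - 1 / 2 * uu A t h) * C h =
      ∑ h ∈ A, c h * C h - 1 / 2 * ∑ h ∈ A, uu A t h * C h := by
    rw [Finset.mul_sum, ← Finset.sum_sub_distrib]
    exact Finset.sum_congr rfl fun h _ => by ring
  rw [k5]
  ring

/-! ### Functions of the coordinates of `A` -/

/-- `F` does not depend on the coordinates outside `A` -/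
def Ind (A : Finset ι) (F : (ι → ℝ) → ℝ) : Prop :=
  ∀ e, e ∉ A → ∀ y t, F (Function.update y e t) = F y

lemma Ind.deriv {F F' : (ι → ℝ) → ℝ} (hI : Ind A F) {e : ι} (he : e ∈ A) (hd : PD e F F') :
    Ind A F' := by
  intro e' he' y t
  have hne : e ≠ e' := fun h => he' (h ▸ he)
  have h1 := hd (Function.update y e' t) (y e)
  have h2 := hd y (y e)
  have e1 : (fun s => F (Function.update (Function.update y e' t) e s)) =
      fun s => F (Function.update y e s) := by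
    funext s
    rw [Function.update_comm hne.symm, hI e' he']
  rw [e1] at h1
  have h3 := h1.unique h2
  rw [Function.update_eq_self] at h3
  have e2 : Function.update (Function.update y e' t) e (y e) = Function.update y e' t := by
    have h4 : (Function.update y e' t) e = y e := Function.update_of_ne hne _ _
    rw [← h4, Function.update_eq_self]
  rw [e2] at h3
  exact h3

lemma Ind.var {F : (ι → ℝ) → ℝ} {F' : ι → (ι → ℝ) → ℝ} (hI : Ind A F) (hF : EG F)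
    (hd : ∀ e ∈ A, PD e F (F' e)) (hF' : ∀ e ∈ A, EG (F' e)) :
    ∫ z, F z ^ 2 ∂(gI ι) - (∫ z, F z ∂(gI ι)) ^ 2 ≤ ∑ e ∈ A, ∫ z, F' e z ^ 2 ∂(gI ι) := by
  have h2 := cc_var_le_one (ι := ι) (F := F) (F' := fun e w => if e ∈ A then F' e w else 0) hF
    (fun e => by
      by_cases he : e ∈ A
      · simp only [he, if_true]
        exact hd e he
      · simp only [he, if_false]
        exact PD.of_indep fun y t => hI e he y t)
    (fun e => by
      by_cases he : e ∈ A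
      · simp only [he, if_true]
        exact hF' e he
      · simp only [he, if_false]
        exact EG.const 0)
  set m := ∫ w, F w ∂(gI ι) with hm
  have e1 : ∫ z, (F z - m) ^ 2 ∂(gI ι) = ∫ z, F z ^ 2 ∂(gI ι) - m ^ 2 := by
    have e2 : (fun z => (F z - m) ^ 2) = fun z => F z ^ 2 - 2 * m * F z + m ^ 2 := by
      funext z; ring
    rw [e2, integral_add ((hF.pow 2).sub (hF.const_mul _)).integrable (integrable_const _),
      integral_sub (hF.pow 2).integrable (hF.const_mul _).integrable, integral_const_mul, ← hm]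
    simp
    ring
  rw [e1] at h2
  refine h2.trans (le_of_eq ?_)
  rw [← Finset.sum_subset (Finset.subset_univ A)]
  · exact Finset.sum_congr rfl fun e he => by simp only [he, if_true]
  · intro e _ he
    simp [he]

lemma Ind.zero {F : (ι → ℝ) → ℝ} {F' : ι → (ι → ℝ) → ℝ} (hI : Ind A F) (hF : EG F)
    (hd : ∀ e ∈ A, PD e F (F' e)) (hF' : ∀ e ∈ A, EG (F' e)) (h0 : ∫ z, F z ∂(gI ι) = 0) :
    ∫ z, F z ^ 2 ∂(gI ι) ≤ ∑ e ∈ A, ∫ z, F' e z ^ 2 ∂(gI ι) := by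
  have := hI.var hF hd hF'
  rw [h0] at this
  simpa using this

lemma ind_Po (c : ι → ℝ) (t : ι → ι → ι → ℝ) : Ind A (Po A c t) := by
  intro e he y s
  have h1 : ∀ h ∈ A, Function.update y e s h = y h := fun h hh =>
    Function.update_of_ne (fun h' : h = e => he (by rw [← h']; exact hh)) _ _
  unfold Po
  congr 1
  · exact Finset.sum_congr rfl fun h hh => by rw [h1 h hh]
  · congr 1
    exact Finset.sum_congr rfl fun e he => Finset.sum_congr rfl fun f hf =>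
      Finset.sum_congr rfl fun h hh => by rw [h1 e he, h1 f hf, h1 h hh]

lemma Ind.sub {F G : (ι → ℝ) → ℝ} (hF : Ind A F) (hG : Ind A G) :
    Ind A (fun z => F z - G z) := fun e he y t => by simp only [hF e he, hG e he]

/-- **The first and the third chaos of a function whose even moments vanish.** -/
theorem chaos3 (H : D3 A g g1 g2 g3) (hI : Ind A g)
    (d4 : ∀ e ∈ A, ∀ f ∈ A, ∀ h ∈ A, ∀ k ∈ A, PD k (g3 e f h) (g4 e f h k))
    (e4 : ∀ e ∈ A, ∀ f ∈ A, ∀ h ∈ A, ∀ k ∈ A, EG (g4 e f h k))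
    (m0 : ∫ z, g z ∂(gI ι) = 0) (m2 : ∀ e ∈ A, ∀ f ∈ A, ∫ z, g2 e f z ∂(gI ι) = 0) :
    ∑ e ∈ A, (∫ z, g1 e z ∂(gI ι)) ^ 2 +
      1 / 6 * ∑ e ∈ A, ∑ f ∈ A, ∑ h ∈ A, (∫ z, g3 e f h z ∂(gI ι)) ^ 2 ≤
        ∫ z, g z ^ 2 ∂(gI ι) ∧
    ∫ z, g z ^ 2 ∂(gI ι) ≤ ∑ e ∈ A, (∫ z, g1 e z ∂(gI ι)) ^ 2 +
      1 / 6 * ∑ e ∈ A, ∑ f ∈ A, ∑ h ∈ A, (∫ z, g3 e f h z ∂(gI ι)) ^ 2 +
        ∑ e ∈ A, ∑ f ∈ A, ∑ h ∈ A, ∑ k ∈ A, ∫ z, g4 e f h k z ^ 2 ∂(gI ι) := by
  obtain ⟨c, hc⟩ : ∃ c : ι → ℝ, c = fun h => ∫ z, g1 h z ∂(gI ι) := ⟨_, rfl⟩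
  obtain ⟨t, htd⟩ : ∃ t : ι → ι → ι → ℝ, t = fun e f h => ∫ z, g3 e f h z ∂(gI ι) := ⟨_, rfl⟩
  have ht : Ts A t := by
    rw [htd]
    exact ⟨fun e he f hf h hh => H.symm12 he hf hh, fun e he f hf h hh => H.symm23 he hf hh⟩
  have hc' : ∀ h, ∫ z, g1 h z ∂(gI ι) = c h := fun h => by rw [hc]
  have ht' : ∀ e f h, ∫ z, g3 e f h z ∂(gI ι) = t e f h := fun e f h => by rw [htd]
  have HP := ht.d3 c
  have cc := fun i : ι => EG.coord (ι := ι) i
  -- the integrals of the polynomial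
  have z1 : ∀ h : ι, ∫ z : ι → ℝ, z h ∂(gI ι) = 0 := by
    intro h
    have h1 := (PD.const (e := h) (ι := ι) (1 : ℝ)).stein (EG.const 1) (EG.const 0)
    simpa using h1
  have z2 : ∀ f ∈ A, ∀ h ∈ A, ∫ z : ι → ℝ, z f * z h ∂(gI ι) = dl f h := by
    intro f _ h _
    have h1 := (pd_coord (ι := ι) f h).stein (cc h) (EG.const _)
    rw [h1]
    simp [dl_comm h f]
  have z3 : ∀ e ∈ A, ∀ f ∈ A, ∀ h ∈ A, ∫ z : ι → ℝ, z e * (z f * z h) ∂(gI ι) = 0 := by
    intro e _ f _ h _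
    have h1 := ((pd_coord (ι := ι) e f).mul (pd_coord (ι := ι) e h)).stein ((cc f).mul (cc h))
      (((cc h).const_mul _).add (((cc f).mul (EG.const _))))
    rw [h1, integral_add ((cc h).const_mul _).integrable ((cc f).mul (EG.const _)).integrable,
      integral_const_mul, integral_mul_const, z1, z1]
    simp
  have P0 : ∫ z, Po A c t z ∂(gI ι) = 0 := by
    unfold Po
    rw [integral_add (EG.sum A fun h _ => (cc h).const_mul _).integrable
      ((EG.sum A fun e _ => EG.sum A fun f _ => EG.sum A fun h _ =>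
        ((cc e).mul ((cc f).mul (cc h))).const_mul _).const_mul _).integrable,
      integral_finsetSum A fun h _ => ((cc h).const_mul _).integrable, integral_const_mul,
      integral_finsetSum A fun e _ => (EG.sum A fun f _ => EG.sum A fun h _ =>
        ((cc e).mul ((cc f).mul (cc h))).const_mul _).integrable]
    have k1 : ∀ h ∈ A, ∫ z : ι → ℝ, (c h - 1 / 2 * uu A t h) * z h ∂(gI ι) = 0 := fun h _ => by
      rw [integral_const_mul, z1, mul_zero]
    have k2 : ∀ e ∈ A, ∫ z : ι → ℝ, ∑ f ∈ A, ∑ h ∈ A, t e f h * (z e * (z f * z h)) ∂(gI ι) = 0 := by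
      intro e he
      rw [integral_finsetSum A fun f _ => (EG.sum A fun h _ =>
        ((cc e).mul ((cc f).mul (cc h))).const_mul _).integrable]
      refine Finset.sum_eq_zero fun f hf => ?_
      rw [integral_finsetSum A fun h _ =>
        (((cc e).mul ((cc f).mul (cc h))).const_mul _).integrable]
      refine Finset.sum_eq_zero fun h hh => ?_
      rw [integral_const_mul, z3 e he f hf h hh, mul_zero]
    rw [Finset.sum_eq_zero k1, Finset.sum_eq_zero k2]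
    ring
  have P1 : ∀ a ∈ A, ∫ z, Po1 A c t a z ∂(gI ι) = c a := by
    intro a ha
    unfold Po1
    rw [integral_add (integrable_const _) ((EG.sum A fun f _ => EG.sum A fun h _ =>
        ((cc f).mul (cc h)).const_mul _).const_mul _).integrable, integral_const_mul,
      integral_finsetSum A fun f _ => (EG.sum A fun h _ =>
        ((cc f).mul (cc h)).const_mul _).integrable]
    have k2 : ∀ f ∈ A, ∫ z : ι → ℝ, ∑ h ∈ A, t a f h * (z f * z h) ∂(gI ι) = t f f a := by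
      intro f hf
      rw [integral_finsetSum A fun h _ => (((cc f).mul (cc h)).const_mul _).integrable]
      have k3 : ∀ h ∈ A, ∫ z : ι → ℝ, t a f h * (z f * z h) ∂(gI ι) = dl f h * t a f h := by
        intro h hh
        rw [integral_const_mul, z2 f hf h hh, mul_comm]
      rw [Finset.sum_congr rfl k3, sum_dl' hf fun h => t a f h, ht.s12 a ha f hf f hf,
        ht.s23 f hf a ha f hf]
    rw [Finset.sum_congr rfl k2]
    have k4 : ∑ f ∈ A, t f f a = uu A t a := rfl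
    rw [k4]
    simp
  have P2 : ∀ a b, ∫ z, Po2 A t a b z ∂(gI ι) = 0 := by
    intro a b
    unfold Po2
    rw [integral_finsetSum A fun h _ => ((cc h).const_mul _).integrable]
    refine Finset.sum_eq_zero fun h _ => ?_
    rw [integral_const_mul, z1, mul_zero]
  -- the square
  have q1 : ∫ z, g z * Po A c t z ∂(gI ι) = ∑ e ∈ A, c e ^ 2 +
      1 / 6 * ∑ e ∈ A, ∑ f ∈ A, ∑ h ∈ A, t e f h ^ 2 := by
    rw [H.pair ht c]
    simp only [hc', ht', ← sq]
  have q2 : ∫ z, Po A c t z * Po A c t z ∂(gI ι) = ∑ e ∈ A, c e ^ 2 +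
      1 / 6 * ∑ e ∈ A, ∑ f ∈ A, ∑ h ∈ A, t e f h ^ 2 := by
    rw [HP.pair ht c]
    congr 1
    · exact Finset.sum_congr rfl fun h hh => by rw [P1 h hh, sq]
    · congr 1
      refine Finset.sum_congr rfl fun e he => Finset.sum_congr rfl fun f hf =>
        Finset.sum_congr rfl fun h hh => ?_
      simp [sq]
  have HF := H.sub HP
  have q3 : ∫ z, (g z - Po A c t z) ^ 2 ∂(gI ι) = ∫ z, g z ^ 2 ∂(gI ι) -
      (∑ e ∈ A, c e ^ 2 + 1 / 6 * ∑ e ∈ A, ∑ f ∈ A, ∑ h ∈ A, t e f h ^ 2) := by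
    have e1 : (fun z => (g z - Po A c t z) ^ 2) =
        fun z => g z ^ 2 - 2 * (g z * Po A c t z) + Po A c t z * Po A c t z := by
      funext z; ring
    rw [e1, integral_add ((H.e0.pow 2).sub ((H.e0.mul HP.e0).const_mul _)).integrable
      (HP.e0.mul HP.e0).integrable, integral_sub (H.e0.pow 2).integrable
      ((H.e0.mul HP.e0).const_mul _).integrable, integral_const_mul, q1, q2]
    ring
  have hIF : Ind A (fun z => g z - Po A c t z) := hI.sub (ind_Po c t)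
  simp only [hc', ht']
  constructor
  · have : 0 ≤ ∫ z, (g z - Po A c t z) ^ 2 ∂(gI ι) := integral_nonneg fun z => sq_nonneg _
    rw [q3] at this
    linarith
  · have s0 : ∫ z, (g z - Po A c t z) ^ 2 ∂(gI ι) ≤
        ∑ e ∈ A, ∫ z, (g1 e z - Po1 A c t e z) ^ 2 ∂(gI ι) :=
      hIF.zero HF.e0 HF.d1 HF.e1 (by
        rw [integral_sub H.e0.integrable HP.e0.integrable, m0, P0, sub_zero])
    have hI1 : ∀ e ∈ A, Ind A (fun z => g1 e z - Po1 A c t e z) := fun e he =>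
      hIF.deriv he (HF.d1 e he)
    have s1 : ∀ e ∈ A, ∫ z, (g1 e z - Po1 A c t e z) ^ 2 ∂(gI ι) ≤
        ∑ f ∈ A, ∫ z, (g2 e f z - Po2 A t e f z) ^ 2 ∂(gI ι) := fun e he =>
      (hI1 e he).zero (HF.e1 e he) (HF.d2 e he) (HF.e2 e he) (by
        rw [integral_sub (H.e1 e he).integrable (HP.e1 e he).integrable, P1 e he, hc', sub_self])
    have hI2 : ∀ e ∈ A, ∀ f ∈ A, Ind A (fun z => g2 e f z - Po2 A t e f z) := fun e he f hf =>
      (hI1 e he).deriv hf (HF.d2 e he f hf)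
    have s2 : ∀ e ∈ A, ∀ f ∈ A, ∫ z, (g2 e f z - Po2 A t e f z) ^ 2 ∂(gI ι) ≤
        ∑ h ∈ A, ∫ z, (g3 e f h z - t e f h) ^ 2 ∂(gI ι) := fun e he f hf =>
      (hI2 e he f hf).zero (HF.e2 e he f hf) (HF.d3 e he f hf) (HF.e3 e he f hf) (by
        rw [integral_sub (H.e2 e he f hf).integrable (HP.e2 e he f hf).integrable, P2,
          m2 e he f hf, sub_zero])
    have hI3 : ∀ e ∈ A, ∀ f ∈ A, ∀ h ∈ A, Ind A (fun z => g3 e f h z - t e f h) :=
      fun e he f hf h hh => (hI2 e he f hf).deriv hh (HF.d3 e he f hf h hh)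
    have s3 : ∀ e ∈ A, ∀ f ∈ A, ∀ h ∈ A, ∫ z, (g3 e f h z - t e f h) ^ 2 ∂(gI ι) ≤
        ∑ k ∈ A, ∫ z, g4 e f h k z ^ 2 ∂(gI ι) := fun e he f hf h hh =>
      (hI3 e he f hf h hh).zero (HF.e3 e he f hf h hh)
        (fun k hk => ((d4 e he f hf h hh k hk).sub (PD.const (t e f h))).congr fun z => by ring)
        (e4 e he f hf h hh) (by
        rw [integral_sub (H.e3 e he f hf h hh).integrable (integrable_const _), ht']
        simp)
    have s4 := s0.trans (Finset.sum_le_sum fun e he => (s1 e he).trans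
      (Finset.sum_le_sum fun f hf => (s2 e he f hf).trans
        (Finset.sum_le_sum fun h hh => s3 e he f hf h hh)))
    rw [q3] at s4
    linarith

/-! ### The conditional form: averages over the coordinates of `A` -/

lemma pd_mix {F F' : (ι → ℝ) → ℝ} {e : ι} (he : e ∈ A) (hd : PD e F F') (z : ι → ℝ) :
    PD e (fun w => F (mix (lvA A) 0 z w)) (fun w => F' (mix (lvA A) 0 z w)) := by
  intro y t
  have h3 := hd (mix (lvA A) 0 z y) t
  simp only [mix_upd_mem he]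
  exact h3

lemma ind_mix (F : (ι → ℝ) → ℝ) (z : ι → ℝ) : Ind A (fun w => F (mix (lvA A) 0 z w)) := by
  intro e he y t
  simp only [mix_upd_not he]

lemma D3.mix (H : D3 A g g1 g2 g3) (z : ι → ℝ) :
    D3 A (fun w => g (Lv.mix (lvA A) 0 z w)) (fun e w => g1 e (Lv.mix (lvA A) 0 z w))
      (fun e f w => g2 e f (Lv.mix (lvA A) 0 z w))
      (fun e f h w => g3 e f h (Lv.mix (lvA A) 0 z w)) where
  e0 := eg_mix_right H.e0 z
  e1 := fun e he => eg_mix_right (H.e1 e he) z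
  e2 := fun e he f hf => eg_mix_right (H.e2 e he f hf) z
  e3 := fun e he f hf h hh => eg_mix_right (H.e3 e he f hf h hh) z
  d1 := fun e he => pd_mix he (H.d1 e he) z
  d2 := fun e he f hf => pd_mix hf (H.d2 e he f hf) z
  d3 := fun e he f hf h hh => pd_mix hh (H.d3 e he f hf h hh) z

/-- the partial variance -/
lemma var_J {F : (ι → ℝ) → ℝ} {F' : ι → (ι → ℝ) → ℝ} (hF : EG F)
    (hd : ∀ e ∈ A, PD e F (F' e)) (hF' : ∀ e ∈ A, EG (F' e)) (z : ι → ℝ) :
    J (lvA A) 0 (fun z => F z ^ 2) z - J (lvA A) 0 F z ^ 2 ≤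
      ∑ e ∈ A, J (lvA A) 0 (fun z => F' e z ^ 2) z :=
  (ind_mix F z).var (eg_mix_right hF z) (fun e he => pd_mix he (hd e he) z)
    fun e he => eg_mix_right (hF' e he) z

/-- the partial variance, integrated -/
theorem var_int {F : (ι → ℝ) → ℝ} {F' : ι → (ι → ℝ) → ℝ} (hF : EG F)
    (hd : ∀ e ∈ A, PD e F (F' e)) (hF' : ∀ e ∈ A, EG (F' e)) :
    ∫ z, F z ^ 2 ∂(gI ι) - ∫ z, J (lvA A) 0 F z ^ 2 ∂(gI ι) ≤
      ∑ e ∈ A, ∫ z, F' e z ^ 2 ∂(gI ι) := by
  have h1 : ∀ e ∈ A, ∫ z, F' e z ^ 2 ∂(gI ι) = ∫ z, J (lvA A) 0 (fun z => F' e z ^ 2) z ∂(gI ι) :=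
    fun e he => (integral_J ((hF' e he).pow 2)).symm
  have i1 := ((hF.pow 2).J (lvA A) 0).integrable
  have i2 := ((hF.J (lvA A) 0).pow 2).integrable
  rw [Finset.sum_congr rfl h1, ← integral_J (hF.pow 2) (lev := lvA A) (l := 0),
    ← integral_sub i1 i2, ← integral_finsetSum A fun e he =>
      (((hF' e he).pow 2).J (lvA A) 0).integrable]
  exact integral_mono (i1.sub i2)
    (EG.sum A fun e he => ((hF' e he).pow 2).J (lvA A) 0).integrable fun z => var_J hF hd hF' z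

/-- **The first and the third chaos over `A`, pointwise in the other coordinates.** -/
theorem chaos3_J (H : D3 A g g1 g2 g3)
    (d4 : ∀ e ∈ A, ∀ f ∈ A, ∀ h ∈ A, ∀ k ∈ A, PD k (g3 e f h) (g4 e f h k))
    (e4 : ∀ e ∈ A, ∀ f ∈ A, ∀ h ∈ A, ∀ k ∈ A, EG (g4 e f h k)) (z : ι → ℝ)
    (m0 : J (lvA A) 0 g z = 0) (m2 : ∀ e ∈ A, ∀ f ∈ A, J (lvA A) 0 (g2 e f) z = 0) :
    ∑ e ∈ A, J (lvA A) 0 (g1 e) z ^ 2 +
      1 / 6 * ∑ e ∈ A, ∑ f ∈ A, ∑ h ∈ A, J (lvA A) 0 (g3 e f h) z ^ 2 ≤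
        J (lvA A) 0 (fun z => g z ^ 2) z ∧
    J (lvA A) 0 (fun z => g z ^ 2) z ≤ ∑ e ∈ A, J (lvA A) 0 (g1 e) z ^ 2 +
      1 / 6 * ∑ e ∈ A, ∑ f ∈ A, ∑ h ∈ A, J (lvA A) 0 (g3 e f h) z ^ 2 +
        ∑ e ∈ A, ∑ f ∈ A, ∑ h ∈ A, ∑ k ∈ A, J (lvA A) 0 (fun z => g4 e f h k z ^ 2) z :=
  chaos3 (H.mix z) (ind_mix g z) (g4 := fun e f h k w => g4 e f h k (Lv.mix (lvA A) 0 z w))
    (fun e he f hf h hh k hk => pd_mix hk (d4 e he f hf h hh k hk) z)
    (fun e he f hf h hh k hk => eg_mix_right (e4 e he f hf h hh k hk) z) m0 m2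

/-- **The first and the third chaos over `A`, integrated.** -/
theorem chaos3_int (H : D3 A g g1 g2 g3)
    (d4 : ∀ e ∈ A, ∀ f ∈ A, ∀ h ∈ A, ∀ k ∈ A, PD k (g3 e f h) (g4 e f h k))
    (e4 : ∀ e ∈ A, ∀ f ∈ A, ∀ h ∈ A, ∀ k ∈ A, EG (g4 e f h k))
    (m0 : ∀ z, J (lvA A) 0 g z = 0) (m2 : ∀ e ∈ A, ∀ f ∈ A, ∀ z, J (lvA A) 0 (g2 e f) z = 0) :
    ∑ e ∈ A, ∫ z, J (lvA A) 0 (g1 e) z ^ 2 ∂(gI ι) +
      1 / 6 * ∑ e ∈ A, ∑ f ∈ A, ∑ h ∈ A, ∫ z, J (lvA A) 0 (g3 e f h) z ^ 2 ∂(gI ι) ≤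
        ∫ z, g z ^ 2 ∂(gI ι) ∧
    ∫ z, g z ^ 2 ∂(gI ι) ≤ ∑ e ∈ A, ∫ z, J (lvA A) 0 (g1 e) z ^ 2 ∂(gI ι) +
      1 / 6 * ∑ e ∈ A, ∑ f ∈ A, ∑ h ∈ A, ∫ z, J (lvA A) 0 (g3 e f h) z ^ 2 ∂(gI ι) +
        ∑ e ∈ A, ∑ f ∈ A, ∑ h ∈ A, ∑ k ∈ A, ∫ z, g4 e f h k z ^ 2 ∂(gI ι) := by
  have E1 : ∀ e ∈ A, EG fun z => J (lvA A) 0 (g1 e) z ^ 2 := fun e he =>
    ((H.e1 e he).J _ _).pow 2
  have E3 : ∀ e ∈ A, ∀ f ∈ A, ∀ h ∈ A, EG fun z => J (lvA A) 0 (g3 e f h) z ^ 2 :=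
    fun e he f hf h hh => ((H.e3 e he f hf h hh).J _ _).pow 2
  have E4 : ∀ e ∈ A, ∀ f ∈ A, ∀ h ∈ A, ∀ k ∈ A,
      EG fun z => J (lvA A) 0 (fun z => g4 e f h k z ^ 2) z :=
    fun e he f hf h hh k hk => ((e4 e he f hf h hh k hk).pow 2).J _ _
  have S1 := EG.sum A E1
  have S3 := (EG.sum A fun e he => EG.sum A fun f hf => EG.sum A fun h hh =>
    E3 e he f hf h hh).const_mul (1 / 6)
  have S4 := EG.sum A fun e he => EG.sum A fun f hf => EG.sum A fun h hh =>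
    EG.sum A fun k hk => E4 e he f hf h hh k hk
  have r1 : ∫ z, (∑ e ∈ A, J (lvA A) 0 (g1 e) z ^ 2) ∂(gI ι) =
      ∑ e ∈ A, ∫ z, J (lvA A) 0 (g1 e) z ^ 2 ∂(gI ι) :=
    integral_finsetSum A fun e he => (E1 e he).integrable
  have r3 : ∫ z, (1 / 6 * ∑ e ∈ A, ∑ f ∈ A, ∑ h ∈ A, J (lvA A) 0 (g3 e f h) z ^ 2) ∂(gI ι) =
      1 / 6 * ∑ e ∈ A, ∑ f ∈ A, ∑ h ∈ A, ∫ z, J (lvA A) 0 (g3 e f h) z ^ 2 ∂(gI ι) := by
    rw [integral_const_mul]
    congr 1
    rw [integral_finsetSum A fun e he => (EG.sum A fun f hf => EG.sum A fun h hh =>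
      E3 e he f hf h hh).integrable]
    refine Finset.sum_congr rfl fun e he => ?_
    rw [integral_finsetSum A fun f hf => (EG.sum A fun h hh => E3 e he f hf h hh).integrable]
    refine Finset.sum_congr rfl fun f hf => ?_
    rw [integral_finsetSum A fun h hh => (E3 e he f hf h hh).integrable]
  have r4 : ∫ z, (∑ e ∈ A, ∑ f ∈ A, ∑ h ∈ A, ∑ k ∈ A,
      J (lvA A) 0 (fun z => g4 e f h k z ^ 2) z) ∂(gI ι) =
      ∑ e ∈ A, ∑ f ∈ A, ∑ h ∈ A, ∑ k ∈ A, ∫ z, g4 e f h k z ^ 2 ∂(gI ι) := by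
    rw [integral_finsetSum A fun e he => (EG.sum A fun f hf => EG.sum A fun h hh =>
      EG.sum A fun k hk => E4 e he f hf h hh k hk).integrable]
    refine Finset.sum_congr rfl fun e he => ?_
    rw [integral_finsetSum A fun f hf => (EG.sum A fun h hh =>
      EG.sum A fun k hk => E4 e he f hf h hh k hk).integrable]
    refine Finset.sum_congr rfl fun f hf => ?_
    rw [integral_finsetSum A fun h hh => (EG.sum A fun k hk =>
      E4 e he f hf h hh k hk).integrable]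
    refine Finset.sum_congr rfl fun h hh => ?_
    rw [integral_finsetSum A fun k hk => (E4 e he f hf h hh k hk).integrable]
    exact Finset.sum_congr rfl fun k hk => integral_J ((e4 e he f hf h hh k hk).pow 2)
  have r0 := integral_J (H.e0.pow 2) (lev := lvA A) (l := 0)
  have i0 := ((H.e0.pow 2).J (lvA A) 0).integrable
  constructor
  · rw [← r1, ← r3, ← integral_add S1.integrable S3.integrable, ← r0]
    exact integral_mono (S1.add S3).integrable i0 fun z =>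
      (chaos3_J H d4 e4 z (m0 z) fun e he f hf => m2 e he f hf z).1
  · rw [← r1, ← r3, ← r4, ← integral_add S1.integrable S3.integrable,
      ← integral_add (S1.add S3).integrable S4.integrable, ← r0]
    exact integral_mono i0 ((S1.add S3).add S4).integrable fun z =>
      (chaos3_J H d4 e4 z (m0 z) fun e he f hf => m2 e he f hf z).2

/-- the error of the third derivatives -/
theorem third_err (H : D3 A g g1 g2 g3)
    (d4 : ∀ e ∈ A, ∀ f ∈ A, ∀ h ∈ A, ∀ k ∈ A, PD k (g3 e f h) (g4 e f h k))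
    (e4 : ∀ e ∈ A, ∀ f ∈ A, ∀ h ∈ A, ∀ k ∈ A, EG (g4 e f h k)) :
    ∑ e ∈ A, ∑ f ∈ A, ∑ h ∈ A, (∫ z, g3 e f h z ^ 2 ∂(gI ι) -
      ∫ z, J (lvA A) 0 (g3 e f h) z ^ 2 ∂(gI ι)) ≤
        ∑ e ∈ A, ∑ f ∈ A, ∑ h ∈ A, ∑ k ∈ A, ∫ z, g4 e f h k z ^ 2 ∂(gI ι) :=
  Finset.sum_le_sum fun e he => Finset.sum_le_sum fun f hf => Finset.sum_le_sum fun h hh =>
    var_int (H.e3 e he f hf h hh) (d4 e he f hf h hh) (e4 e he f hf h hh)

/-! ### Functions which are odd under the flip of `A` -/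

lemma PD.unique {F F1 F2 : (ι → ℝ) → ℝ} {e : ι} (h1 : PD e F F1) (h2 : PD e F F2)
    (z : ι → ℝ) : F1 z = F2 z := by
  have a := h1 z (z e)
  have b := h2 z (z e)
  rw [Function.update_eq_self] at a b
  exact a.unique b

/-- the derivative of an odd function is even and conversely -/
lemma flip_deriv {ε : ι → ℝ} {F F' : (ι → ℝ) → ℝ} {e : ι} {s : ℝ} (hε : ε e = -1)
    (hd : PD e F F') (ho : ∀ z, F (gz (Equiv.refl ι) ε z) = s * F z) (z : ι → ℝ) :
    F' (gz (Equiv.refl ι) ε z) = -s * F' z := by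
  have h1 := PD.gz (π := Equiv.refl ι) (ε := ε) (e := e) hd
  simp only [ho] at h1
  have h2 := PD.unique h1 (hd.const_mul s) z
  simp only [hε] at h2
  linarith

variable {lev : ι → ℕ} {l : ℕ} {ε : ι → ℝ}

lemma odd_J (hA : Mv lev l A (Equiv.refl ι) ε) (hε : ∀ e ∈ A, ε e = -1)
    (hAl : ∀ e ∈ A, lev e ≤ l) (H : D3 A g g1 g2 g3) (hdep : Dep lev l g)
    (ho : ∀ z, g (gz (Equiv.refl ι) ε z) = -g z) :
    (∀ z, J (lvA A) 0 g z = 0) ∧ ∀ e ∈ A, ∀ f ∈ A, ∀ z, J (lvA A) 0 (g2 e f) z = 0 := by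
  refine ⟨fun z => hA.J_zero hdep ho z, fun e he f hf z => ?_⟩
  have h1 : ∀ z, g1 e (gz (Equiv.refl ι) ε z) = 1 * g1 e z := fun z => by
    have := flip_deriv (s := -1) (hε e he) (H.d1 e he) (fun z => by rw [ho]; ring) z
    rw [this]; ring
  have h2 : ∀ z, g2 e f (gz (Equiv.refl ι) ε z) = -g2 e f z := fun z => by
    have := flip_deriv (s := 1) (hε f hf) (H.d2 e he f hf) h1 z
    rw [this]; ring
  have d1 : Dep lev l (g1 e) := Dep_pd (H.d1 e he) hdep (hAl e he)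
  have d2 : Dep lev l (g2 e f) := Dep_pd (H.d2 e he f hf) d1 (hAl f hf)
  exact hA.J_zero d2 h2 z

/-- **(a') for an odd function**: the first and the third chaos in the coordinates of `A`. -/
theorem odd_chaos3 (hA : Mv lev l A (Equiv.refl ι) ε) (hε : ∀ e ∈ A, ε e = -1)
    (hAl : ∀ e ∈ A, lev e ≤ l) (H : D3 A g g1 g2 g3)
    (d4 : ∀ e ∈ A, ∀ f ∈ A, ∀ h ∈ A, ∀ k ∈ A, PD k (g3 e f h) (g4 e f h k))
    (e4 : ∀ e ∈ A, ∀ f ∈ A, ∀ h ∈ A, ∀ k ∈ A, EG (g4 e f h k)) (hdep : Dep lev l g)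
    (ho : ∀ z, g (gz (Equiv.refl ι) ε z) = -g z) :
    ∑ e ∈ A, ∫ z, J (lvA A) 0 (g1 e) z ^ 2 ∂(gI ι) +
      1 / 6 * ∑ e ∈ A, ∑ f ∈ A, ∑ h ∈ A, ∫ z, J (lvA A) 0 (g3 e f h) z ^ 2 ∂(gI ι) ≤
        ∫ z, g z ^ 2 ∂(gI ι) ∧
    ∫ z, g z ^ 2 ∂(gI ι) ≤ ∑ e ∈ A, ∫ z, J (lvA A) 0 (g1 e) z ^ 2 ∂(gI ι) +
      1 / 6 * ∑ e ∈ A, ∑ f ∈ A, ∑ h ∈ A, ∫ z, J (lvA A) 0 (g3 e f h) z ^ 2 ∂(gI ι) +
        ∑ e ∈ A, ∑ f ∈ A, ∑ h ∈ A, ∑ k ∈ A, ∫ z, g4 e f h k z ^ 2 ∂(gI ι) := by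
  obtain ⟨m0, m2⟩ := odd_J hA hε hAl H hdep ho
  exact chaos3_int H d4 e4 m0 m2

end Vale.Agent.P146.H985.Ch
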