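import Vale.Agent.P146.H985.S3c
import Vale.Agent.P146.H607.X2
import Vale.Agent.P146.H437.GridN

/-!
# P146, lower half, S3 for the cross law of helper607 (helper985)

`close_X`: helper607's `Close` with the plain law `psiU` at the last exponent.
-/

set_option linter.all false

open MeasureTheory ProbabilityTheory

namespace Vale.Agent.P146.H985.S3

open Vale.Agent.P157 Vale.Agent.P157.Lv Vale.Agent.P157.Lv.Sy
open Vale.Agent.P146.H425 Vale.Agent.P146.H325 Vale.Agent.P146.H93 Vale.Agent.P146.H186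
open Vale.Agent.P146.H479 Vale.Agent.P146.H758 Vale.Agent.P146.H560 Vale.Agent.P146.U
open Vale.Agent.P146.H607 (KX mX bX wX PX fX Close em_mX bX_nonneg psP)
open Vale.Agent.P146.H437 (m2U b2U em_m2U fe_two)

variable {n a : ℕ} {β κ u y Y V1 A E0 κ0 c1 δ D S ε e T s w : ℝ} {V : {p // p ∈ PX a} → ℝ}

/-- the blocks of the cross law: the levels `1, …, a` and `a + 1, …, 3 a + 2` -/
def kX (a : ℕ) (l : ℕ) : ℕ := if l = 0 then 0 else if l = 1 then a else 3 * a + 2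

lemma blk_X (a : ℕ) : Blk (KX a) 2 (kX a) where
  k0 := rfl
  kL := rfl
  mono := fun l hl => by
    unfold kX
    interval_cases l
    · simp
    · simp
      omega

lemma bX_sq (hn : 0 < n) (ha : 1 ≤ a) (h1 : s * u ^ 2 ≤ 1) (he : 0 ≤ e) (hes : e ≤ s) (j : ℕ) :
    bX n a β u e s j ^ 2 = (if j = 1 then β ^ 2 / n * (1 - s * u ^ 2) else 0) +
      (if j = 2 * a + 1 then β ^ 2 / n * (e * u ^ 2) else 0) +
      (if j = 3 * a + 2 then β ^ 2 / n * ((s - e) * u ^ 2) else 0) := by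
  have hn' : (0 : ℝ) < n := Nat.cast_pos.2 hn
  have hsq : (β / √(n : ℝ)) ^ 2 = β ^ 2 / n := by
    rw [div_pow, Real.sq_sqrt hn'.le]
  unfold bX
  by_cases h2 : j = 1
  · rw [if_pos h2, if_pos h2, if_neg (by omega), if_neg (by omega), mul_pow, hsq,
      Real.sq_sqrt (by linarith)]
    ring
  · rw [if_neg h2, if_neg h2]
    by_cases h3 : j = 2 * a + 1
    · rw [if_pos h3, if_pos h3, if_neg (by omega), mul_pow, hsq,
        Real.sq_sqrt (by positivity)]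
      ring
    · rw [if_neg h3, if_neg h3]
      by_cases h4 : j = 3 * a + 2
      · rw [if_pos h4, if_pos h4, mul_pow, hsq,
          Real.sq_sqrt (mul_nonneg (by linarith) (sq_nonneg u))]
        ring
      · rw [if_neg h4, if_neg h4]
        ring

lemma sum_ite_Ioc (f : ℝ) {p q i : ℕ} (h : p < i ∧ i ≤ q) :
    ∑ j ∈ Finset.Ioc p q, (if j = i then f else 0) = f := by
  rw [Finset.sum_ite_eq', if_pos (Finset.mem_Ioc.2 h)]

lemma sum_ite_Ioc0 (f : ℝ) {p q i : ℕ} (h : i ≤ p ∨ q < i) :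
    ∑ j ∈ Finset.Ioc p q, (if j = i then f else 0) = 0 := by
  rw [Finset.sum_ite_eq', if_neg]
  intro h2
  have := Finset.mem_Ioc.1 h2
  omega

lemma sum_bX_A (hn : 0 < n) (ha : 1 ≤ a) (h1 : s * u ^ 2 ≤ 1) (he : 0 ≤ e) (hes : e ≤ s) :
    ∑ j ∈ Finset.Ioc 0 a, bX n a β u e s j ^ 2 = β ^ 2 / n * (1 - s * u ^ 2) := by
  simp only [bX_sq hn ha h1 he hes, Finset.sum_add_distrib]
  rw [sum_ite_Ioc _ ⟨by omega, ha⟩, sum_ite_Ioc0 _ (Or.inr (by omega)),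
    sum_ite_Ioc0 _ (Or.inr (by omega))]
  ring

lemma sum_bX_V (hn : 0 < n) (ha : 1 ≤ a) (h1 : s * u ^ 2 ≤ 1) (he : 0 ≤ e) (hes : e ≤ s) :
    ∑ j ∈ Finset.Ioc a (3 * a + 2), bX n a β u e s j ^ 2 = β ^ 2 / n * (s * u ^ 2) := by
  simp only [bX_sq hn ha h1 he hes, Finset.sum_add_distrib]
  rw [sum_ite_Ioc0 _ (Or.inl ha), sum_ite_Ioc _ ⟨by omega, by omega⟩,
    sum_ite_Ioc _ ⟨by omega, le_rfl⟩]
  ring

lemma tv_bX (hn : 0 < n) (ha : 1 ≤ a) (h1 : s * u ^ 2 ≤ 1) (he : 0 ≤ e) (hes : e ≤ s) :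
    tv (KX a) (bX n a β u e s) = β ^ 2 / n := by
  rw [tv_Icc]
  have e1 : Finset.Icc 1 (KX a) = Finset.Ioc 0 (3 * a + 2) := by
    ext j
    unfold KX
    simp only [Finset.mem_Icc, Finset.mem_Ioc]
    omega
  rw [e1]
  simp only [bX_sq hn ha h1 he hes, Finset.sum_add_distrib]
  rw [sum_ite_Ioc _ ⟨by omega, by omega⟩, sum_ite_Ioc _ ⟨by omega, by omega⟩,
    sum_ite_Ioc _ ⟨by omega, le_rfl⟩]
  ring

lemma wX_sq (hu : 0 < u) (hw : 0 ≤ w) (j : ℕ) :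
    wX a u w j ^ 2 = if j = 3 * a + 2 then w * u ^ 3 else 0 := by
  unfold wX
  split_ifs
  · exact Real.sq_sqrt (by positivity)
  · ring

lemma tv_wX (hu : 0 < u) (hw : 0 ≤ w) : tv (KX a) (wX a u w) = w * u ^ 3 := by
  rw [tv_Icc]
  have e1 : Finset.Icc 1 (KX a) = Finset.Ioc 0 (3 * a + 2) := by
    ext j
    unfold KX
    simp only [Finset.mem_Icc, Finset.mem_Ioc]
    omega
  rw [e1]
  simp only [wX_sq hu hw]
  rw [sum_ite_Ioc _ ⟨by omega, le_rfl⟩]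

lemma mX_near (ha : 1 ≤ a) (hu : 0 < u) {y v : ℝ} (hy : 0 < y) (hv : 0 < v) (hδ : 0 ≤ δ)
    {l j : ℕ} (hl : l < 2) (h1 : kX a l < j) (h2 : j ≤ kX a (l + 1)) :
    |mX a u y v δ j - (if l = 0 then y * u else v * u)| ≤
      δ * (if l = 0 then y * u else v * u) := by
  have ha' : (0 : ℝ) < a := by exact_mod_cast ha
  interval_cases l
  · have h3 : 0 < j := h1
    have h4 : j ≤ a := h2
    rw [if_pos rfl, H607.mX_A h3 h4]
    have hj0 : (0 : ℝ) ≤ j / a := by positivity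
    have hj1 : (j : ℝ) / a ≤ 1 := by
      rw [div_le_one ha']
      exact_mod_cast h4
    rw [abs_le]
    have hyu : 0 < y * u := by positivity
    constructor
    · nlinarith [mul_nonneg hyu.le (mul_nonneg hδ hj0)]
    · nlinarith [mul_nonneg hyu.le (mul_nonneg hδ (sub_nonneg.2 hj1)),
        mul_nonneg hyu.le hδ]
  · have h3 : a < j := h1
    have h4 : j ≤ 3 * a + 2 := h2
    rw [if_neg (by norm_num), H607.mX_V h3 h4]
    have h3' : (a : ℝ) ≤ j := by exact_mod_cast h3.le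
    have h4' : (j : ℝ) ≤ 3 * a + 2 := by exact_mod_cast h4
    have hj0 : (0 : ℝ) ≤ ((j : ℝ) - a) / (2 * a + 2) := by
      apply div_nonneg <;> linarith
    have hj1 : ((j : ℝ) - a) / (2 * a + 2) ≤ 1 := by
      rw [div_le_one (by linarith)]
      linarith
    rw [abs_le]
    have hyu : 0 < v * u := by positivity
    constructor
    · nlinarith [mul_nonneg hyu.le (mul_nonneg hδ hj0)]
    · nlinarith [mul_nonneg hyu.le (mul_nonneg hδ (sub_nonneg.2 hj1)),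
        mul_nonneg hyu.le hδ]

/-- the plain law -/
noncomputable def fPX (n : ℕ) (β κ u e : ℝ) (s w : ℝ) : ℝ :=
  (skS n 3 (mU κ u (1 + κ)) (bU n β e u s) (wU u w)).fe

lemma psP_fPX : psP n β u (P1 n β (51 / 100 * u)) (fPX n β κ u e) s w =
    psiU n β κ e u s (1 + κ) w := rfl

lemma mX_bds (ha : 1 ≤ a) (hu : 0 < u) (hκ : 0 < κ) (hκ1 : κ ≤ 1 / 200) (hδ : 0 ≤ δ)
    (hδ1 : δ ≤ 1 / 100) : 1 / 2 * u ≤ mX a u (51 / 100) (1 + κ) δ 1 ∧
      mX a u (51 / 100) (1 + κ) δ 1 ≤ u ∧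
      (1 + κ) * u ≤ 2 * mX a u (51 / 100) (1 + κ) δ 1 := by
  have h0 : kX a 0 < 1 := by simp [kX]
  have h1 : 1 ≤ kX a (0 + 1) := by simpa [kX] using ha
  have h3 := abs_le.1 (mX_near (δ := δ) ha hu (by norm_num : (0 : ℝ) < 51 / 100)
      (by linarith : 0 < 1 + κ) hδ (l := 0) (j := 1) (by norm_num) h0 h1)
  rw [if_pos rfl] at h3
  refine ⟨by nlinarith [h3.1], by nlinarith [h3.2], by nlinarith [h3.1]⟩

lemma ex2_X (ha : 1 ≤ a) (hu : 0 < u) (hκ : 0 < κ) (hκ1 : κ ≤ 1 / 200) (hδ : 0 ≤ δ)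
    (hδ1 : δ ≤ 1 / 100) (hy0 : 0 < y) (hy : y ≤ 1 / 2 * u) (hY : 4 * u ≤ Y) (hY1 : Y ≤ 1) :
    Ex2 (KX a) (mX a u (51 / 100) (1 + κ) δ) y Y := by
  have hyv : (51 / 100 : ℝ) ≤ (1 + κ) * (1 - δ) := by nlinarith
  have h4u : 4 * u ≤ 1 := hY.trans hY1
  have hv1 : u * (1 + κ) ≤ 1 := by nlinarith
  have hm : Em (KX a) (mX a u (51 / 100) (1 + κ) δ) :=
    em_mX ha hu (by norm_num) hyv hδ (by linarith) hv1
  exact {
    em := hm
    K1 := by unfold KX; omega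
    y0 := hy0
    Y1 := hY1
    ge := hy.trans (mX_bds ha hu hκ hκ1 hδ hδ1).1
    le := by
      have : KX a = 3 * a + 2 := rfl
      rw [this, H607.mX_E]
      nlinarith }

lemma bK_X (hn : 0 < n) (hβ : 0 < β) (hu : 0 < u) (ha : 1 ≤ a) (h1 : s * u ^ 2 ≤ 1) (he : 0 ≤ e)
    (heT : e < T) (hTs : T ≤ s) : 0 < bX n a β u e s (KX a) ∧
      β ^ 2 * (T - e) * u ^ 2 ≤ n * bX n a β u e s (KX a) ^ 2 := by
  have hn' : (0 : ℝ) < n := Nat.cast_pos.2 hn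
  have hu2 : 0 < u ^ 2 := by positivity
  have hes : e < s := heT.trans_le hTs
  have hK : KX a = 3 * a + 2 := rfl
  constructor
  · rw [hK, H607.bX_E ha]
    have h3 : 0 < (s - e) * u ^ 2 := mul_pos (by linarith) hu2
    positivity
  · have h3 := bX_sq (β := β) hn ha h1 he hes.le (3 * a + 2)
    rw [if_neg (by omega), if_neg (by omega), if_pos rfl] at h3
    rw [hK, h3]
    have e1 : (n : ℝ) * (0 + 0 + β ^ 2 / n * ((s - e) * u ^ 2)) = β ^ 2 * (s - e) * u ^ 2 := by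
      field_simp
      ring
    rw [e1]
    exact mul_le_mul_of_nonneg_right (mul_le_mul_of_nonneg_left (by linarith)
      (sq_nonneg β)) hu2.le

lemma b1_X (hn : 0 < n) (hu : 0 < u) (ha : 1 ≤ a) (h1 : s * u ^ 2 ≤ 1) (he : 0 ≤ e)
    (hes : e ≤ s) (hsS : s ≤ S) {x : ℝ} (hx : 1 / 2 * u ≤ x) :
    β ^ 2 / n * (1 - 4 * S * x ^ 2) ≤ bX n a β u e s 1 ^ 2 := by
  have hn' : (0 : ℝ) < n := Nat.cast_pos.2 hn
  have hS0 : 0 ≤ S := by linarith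
  have h3 := bX_sq (β := β) hn ha h1 he hes 1
  rw [if_pos rfl, if_neg (by omega), if_neg (by omega)] at h3
  rw [h3]
  have h4 : (1 / 2 * u) ^ 2 ≤ x ^ 2 := pow_le_pow_left₀ (by positivity) hx 2
  have h5 : s * u ^ 2 ≤ 4 * S * x ^ 2 := by
    calc s * u ^ 2 ≤ S * u ^ 2 := mul_le_mul_of_nonneg_right hsS (by positivity)
      _ = 4 * S * (1 / 2 * u) ^ 2 := by ring
      _ ≤ _ := mul_le_mul_of_nonneg_left h4 (by positivity)
  have : β ^ 2 / n * (1 - 4 * S * x ^ 2) ≤ β ^ 2 / n * (1 - s * u ^ 2) :=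
    mul_le_mul_of_nonneg_left (by linarith) (by positivity)
  linarith

lemma b2U_nonneg (hβ : 0 ≤ β) : ∀ l < 2, 0 ≤ b2U n β u s (l + 1) := by
  intro l hl
  have hc : 0 ≤ β / √(n : ℝ) := by positivity
  interval_cases l
  · exact mul_nonneg hc (Real.sqrt_nonneg _)
  · exact mul_nonneg hc (Real.sqrt_nonneg _)

lemma b2U_sq (hn : 0 < n) (h1 : s * u ^ 2 ≤ 1) (hs : 0 ≤ s) :
    b2U n β u s 1 ^ 2 = β ^ 2 / n * (1 - s * u ^ 2) ∧
      b2U n β u s 2 ^ 2 = β ^ 2 / n * (s * u ^ 2) := by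
  have hn' : (0 : ℝ) < n := Nat.cast_pos.2 hn
  have hsq : (β / √(n : ℝ)) ^ 2 = β ^ 2 / n := by
    rw [div_pow, Real.sq_sqrt hn'.le]
  constructor
  · show (β / √n * √(1 - s * u ^ 2)) ^ 2 = _
    rw [mul_pow, hsq, Real.sq_sqrt (by linarith)]
  · show (β / √n * √(s * u ^ 2)) ^ 2 = _
    rw [mul_pow, hsq, Real.sq_sqrt (by positivity)]

lemma tv_b2U (hn : 0 < n) (h1 : s * u ^ 2 ≤ 1) (hs : 0 ≤ s) :
    tv 2 (b2U n β u s) = β ^ 2 / n := by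
  unfold tv
  rw [Finset.sum_range_succ, Finset.sum_range_one, zero_add, (b2U_sq hn h1 hs).1,
    (b2U_sq hn h1 hs).2]
  ring

lemma wU_sq (hu : 0 < u) (hw : 0 ≤ w) : wU u w 1 ^ 2 = 0 ∧ wU u w 2 ^ 2 = w * u ^ 3 := by
  constructor
  · show (0 : ℝ) ^ 2 = 0
    norm_num
  · show (√(w * u ^ 3)) ^ 2 = _
    exact Real.sq_sqrt (by positivity)

lemma tv_wU (hu : 0 < u) (hw : 0 ≤ w) : tv 2 (wU u w) = w * u ^ 3 := by
  unfold tv
  rw [Finset.sum_range_succ, Finset.sum_range_one, zero_add, (wU_sq hu hw).1,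
    (wU_sq hu hw).2]
  ring

lemma ex2_m2U (hu : 0 < u) (hκ : 0 < κ) (hκ1 : κ ≤ 1 / 200) (hy0 : 0 < y) (hy : y ≤ 1 / 2 * u)
    (hY : 4 * u ≤ Y) (hY1 : Y ≤ 1) : Ex2 2 (m2U u (1 + κ)) y Y where
  em := em_m2U hu (by linarith) (by nlinarith)
  K1 := by norm_num
  y0 := hy0
  Y1 := hY1
  ge := by
    show y ≤ 51 / 100 * u
    linarith
  le := by
    show (1 + κ) * u ≤ Y
    nlinarith

/-- **S3 for the cross law**, one share, one field. -/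
theorem close_X1 (hn : 2 ≤ n) (hβ : 0 < β) (hu : 0 < u) (hκ : 0 < κ) (hκ1 : κ ≤ 1 / 200)
    (ha : 1 ≤ a) (hδ : 0 ≤ δ) (hδ1 : δ ≤ 1 / 100) (he : 0 < e) (heT : e < T)
    (hSu : S * u ^ 2 ≤ 1)
    (hA : Ap n β y Y V1 A (E0 * (n * u ^ 5))) (hy0 : 0 < y) (hy : y ≤ 1 / 2 * u)
    (hY : 4 * u ≤ Y) (hY1 : Y ≤ 1) (hE0 : 0 ≤ E0)
    (hE1 : 1 ≤ 4 * E0 * (n * u ^ 6)) (hn2 : 1 ≤ n * u ^ 2)
    (hG : Gc n β (4 * S) ε c1 (mX a u (51 / 100) (1 + κ) δ 1)) (hc1 : 0 ≤ c1)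
    (hV0 : ∀ p, 0 ≤ V p) (hV : ∑ p, V p ≤ κ0 * u ^ 3) (hκ0 : κ0 ≤ 1) (hκε : 8 * κ0 ≤ ε)
    (hV1 : 3 * u ^ 3 ≤ V1) (hTs : T ≤ s) (hsS : s ≤ S) (hw : 0 ≤ w) (hw1 : w ≤ 1)
    (hD : (skS n 2 (ray 2 (1 + 1) (m2U u (1 + κ))) (b2U n β u s) (wU u w)).fe -
      (skS n 2 (m2U u (1 + κ)) (b2U n β u s) (wU u w)).fe ≤ D * (n * u ^ 5)) :
    |fX n a β u (51 / 100) (1 + κ) δ e s w V - ((skS n 2 (m2U u (1 + κ)) (b2U n β u s)
      (wU u w)).fe + n / (2 * β) * ∑ p, V p)| ≤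
      (c1 + κ0 * (5 + 320 * E0 / (β ^ 2 * (T - e)) + 2 * E0) + δ * D) * (n * u ^ 5) := by
  have hn0 : 0 < n := by omega
  have hu2 : 0 < u ^ 2 := by positivity
  have hu3 : 0 < u ^ 3 := by positivity
  have hes : e < s := heT.trans_le hTs
  have hs1 : s * u ^ 2 ≤ 1 := (mul_le_mul_of_nonneg_right hsS hu2.le).trans hSu
  have h4u : 4 * u ≤ 1 := hY.trans hY1
  obtain ⟨hm1, hm1', hmKx⟩ := mX_bds (a := a) (u := u) ha hu hκ hκ1 hδ hδ1
  have hmK : mX a u (51 / 100) (1 + κ) δ (KX a) = (1 + κ) * u := by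
    have : KX a = 3 * a + 2 := rfl
    rw [this, H607.mX_E, mul_comm]
  have hκu : (1 + κ) * u ≤ 2 * u := by nlinarith
  have hEx := ex2_X (a := a) ha hu hκ hκ1 hδ hδ1 hy0 hy hY hY1
  obtain ⟨hb0, hbK2⟩ := bK_X (a := a) hn0 hβ hu ha hs1 he.le heT hTs
  have hS1 := b1_X (β := β) (a := a) (S := S) hn0 hu ha hs1 he.le hes.le hsS hm1
  have hw0 : ∀ j, 0 ≤ wX a u w j := by
    intro j
    unfold wX
    split_ifs
    · positivity
    · exact le_rfl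
  have hP : ∀ p ∈ PX a, 1 ≤ p ∧ p ≤ KX a := by
    intro p hp
    have := Finset.mem_Icc.1 hp
    unfold KX
    omega
  have hwP : ∀ p ∈ PX a, wX a u w p = 0 := by
    intro p hp
    have := Finset.mem_Icc.1 hp
    unfold wX
    rw [if_neg (by omega)]
  have hw3 : w * u ^ 3 ≤ 1 * u ^ 3 := mul_le_mul_of_nonneg_right hw1 hu3.le
  have hVtot : tv (KX a) (wX a u w) + ∑ p, V p + u ^ 3 ≤ V1 := by
    rw [tv_wX hu hw]
    have h4 : κ0 * u ^ 3 ≤ 1 * u ^ 3 := mul_le_mul_of_nonneg_right hκ0 hu3.le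
    linarith
  have hb21 := (b2U_sq (n := n) (β := β) hn0 hs1 (he.le.trans hes.le)).1
  have hb22 := (b2U_sq (n := n) (β := β) hn0 hs1 (he.le.trans hes.le)).2
  exact s3_unitB (n := n) (P := PX a) (V := V) (k := kX a) (L := 2) (e := m2U u (1 + κ))
    (b' := b2U n β u s) (w' := wU u w) (D := D) (δ := δ) (τ := β ^ 2 * (T - e))
    (κ0 := κ0) hn hβ hu hA hEx (by rw [hmK]; linarith) (bX_nonneg hβ.le)
    (tv_bX hn0 ha hs1 he.le hes.le) hb0 (by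
      have : 0 < T - e := by linarith
      positivity) hbK2 hE0 hE1 hn2 hm1 hm1' (by rw [hmK]; exact hκu) (by rw [hmK]; exact hmKx)
    hS1 hG hc1 hw0 hP hwP hV0 hV hκ0 hκε hVtot (ex2_m2U hu hκ hκ1 hy0 hy hY hY1).em (blk_X a) hδ
    (by linarith) (by show 2 * ((1 + κ) * u) ≤ 1; linarith)
    (fun l hl j h1 h2 => by
      have h3 := mX_near (δ := δ) ha hu (by norm_num : (0 : ℝ) < 51 / 100)
        (by linarith : 0 < 1 + κ) hδ hl h1 h2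
      interval_cases l
      · exact h3
      · exact h3) (b2U_nonneg hβ.le)
    (fun l hl => by
      interval_cases l
      · exact le_rfl
      · exact Real.sqrt_nonneg _)
    (fun l hl => by
      interval_cases l
      · exact (sum_bX_A hn0 ha hs1 he.le hes.le).trans hb21.symm
      · exact (sum_bX_V hn0 ha hs1 he.le hes.le).trans hb22.symm)
    (fun l hl => by
      interval_cases l
      · show ∑ j ∈ Finset.Ioc 0 a, wX a u w j ^ 2 = _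
        simp only [wX_sq hu hw]
        rw [sum_ite_Ioc0 _ (Or.inr (by omega))]
        exact (wU_sq hu hw).1.symm
      · show ∑ j ∈ Finset.Ioc a (3 * a + 2), wX a u w j ^ 2 = _
        simp only [wX_sq hu hw]
        rw [sum_ite_Ioc _ ⟨by omega, le_rfl⟩]
        exact (wU_sq hu hw).2.symm)
    hD

/-- **S3 for the cross law.** -/
theorem close_X (hn : 2 ≤ n) (hβ : 0 < β) (hu : 0 < u) (hκ : 0 < κ) (hκ1 : κ ≤ 1 / 200)
    (ha : 1 ≤ a) (hδ : 0 ≤ δ) (hδ1 : δ ≤ 1 / 100) (he : 0 < e) (heT : e < T)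
    (hSu : S * u ^ 2 ≤ 1)
    (hA : Ap n β y Y V1 A (E0 * (n * u ^ 5))) (hy0 : 0 < y) (hy : y ≤ 1 / 2 * u)
    (hY : 4 * u ≤ Y) (hY1 : Y ≤ 1) (hE0 : 0 ≤ E0)
    (hE1 : 1 ≤ 4 * E0 * (n * u ^ 6)) (hn2 : 1 ≤ n * u ^ 2)
    (hG : Gc n β (4 * S) ε c1 (mX a u (51 / 100) (1 + κ) δ 1)) (hc1 : 0 ≤ c1)
    (hV0 : ∀ p, 0 ≤ V p) (hV : ∑ p, V p ≤ κ0 * u ^ 3) (hκ0 : κ0 ≤ 1) (hκε : 8 * κ0 ≤ ε)
    (hV1 : 3 * u ^ 3 ≤ V1) :
    Close n a β u (51 / 100) (1 + κ) δ e T S V (fPX n β κ u e)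
      (c1 + κ0 * (5 + 320 * E0 / (β ^ 2 * (T - e)) + 2 * E0) + δ * (2 * E0)) := by
  intro s hs w hw
  have hn0 : 0 < n := by omega
  have hu2 : 0 < u ^ 2 := by positivity
  have hu3 : 0 < u ^ 3 := by positivity
  have hes : e < s := heT.trans_le hs.1
  have hs1 : s * u ^ 2 ≤ 1 := (mul_le_mul_of_nonneg_right hs.2 hu2.le).trans hSu
  have h4u : 4 * u ≤ 1 := hY.trans hY1
  have hw3 : w * u ^ 3 ≤ 1 * u ^ 3 := mul_le_mul_of_nonneg_right hw.2 hu3.le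
  have hD := ray_box (n := n) (b' := b2U n β u s) (w' := wU u w) hβ hA
    (ex2_m2U hu hκ hκ1 hy0 hy hY hY1)
    (by show 2 * ((1 + κ) * u) ≤ Y; nlinarith) (tv_b2U hn0 hs1 (he.le.trans hes.le))
    (by rw [tv_wU hu hw.1]; linarith)
  have key := close_X1 (D := 2 * E0) hn hβ hu hκ hκ1 ha hδ hδ1 he heT hSu hA hy0 hy hY hY1 hE0
    hE1 hn2 hG hc1 hV0 hV hκ0 hκε hV1 hs.1 hs.2 hw.1 hw.2 (hD.trans (le_of_eq (by ring)))
  unfold fPX
  rw [fe_two hu (by linarith) (by nlinarith) he.le hes.le]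
  exact key

end Vale.Agent.P146.H985.S3
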