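import Vale.Agent.P146.H985.S3

/-!
# P146, lower half, S3 with the field on the first level as one input (helper985)

* `s3_fieldC`: `s3_field` with the single input `hC` for this law.
* `hC_of_gen`: `hC` from helper97's `gen_c`.
* `s3_amp`, `s3_ampB`: the same for `amp w P V` (main fields `w` outside `P`, white fields of the
  variances `V` on `P`), against the same law without the small fields, and against the plain law of
  its blocks.
-/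

open MeasureTheory ProbabilityTheory

namespace Vale.Agent.P146.H985.S3

open Vale.Agent.P157 Vale.Agent.P157.Lv Vale.Agent.P157.Lv.Sy
open Vale.Agent.P146.H425 Vale.Agent.P146.H325 Vale.Agent.P146.H93 Vale.Agent.P146.H186
open Vale.Agent.P146.H479 Vale.Agent.P146.H758 Vale.Agent.P146.H560 Vale.Agent.P146.U

set_option linter.unusedSectionVars false

variable {n K L : ℕ} {m e b w b' w' W v : ℕ → ℝ} {k : ℕ → ℕ}
  {β u y Y V1 A E E0 τ κ0 c0 a x c r δ Δ D Vs s D0 A1 : ℝ} {l : ℕ}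

/-- **S3: the fields**, one input for the field on the first level. -/
theorem s3_fieldC (hn : 2 ≤ n) (hβ : 0 < β) (hu : 0 < u)
    (hA : Ap n β y Y V1 A (E0 * (n * u ^ 5))) (h : Ex2 K m y Y) (h2 : 2 * m K ≤ Y)
    (hb : Na K b) (htv : tv K b = β ^ 2 / n) (hb0 : 0 < b K) (hτ : 0 < τ)
    (hbK : τ * u ^ 2 ≤ n * b K ^ 2) (hE0 : 0 ≤ E0) (hE1 : 1 ≤ 4 * E0 * (n * u ^ 6))
    (hn2 : 1 ≤ n * u ^ 2) (h1 : 1 / 2 * u ≤ m 1) (hK2 : m K ≤ 2 * u) (hc0 : 0 ≤ c0)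
    (hW : ∀ i, 0 ≤ W i) (hv : ∀ i, 0 ≤ v i)
    (hC : GV n K m b (sgl 1 (tot K v)) - GV n K m b (fun _ => 0) ≤
      n / β / 2 * tot K v + c0 * (n * u ^ 5))
    (hV : tot K v ≤ κ0 * u ^ 3) (hκ0 : κ0 ≤ 1) (hV1 : tot K W + tot K v + u ^ 3 ≤ V1) :
    |GV n K m b (fun i => W i + v i) - GV n K m b W - n / β / 2 * tot K v| ≤
      (c0 + κ0 * (5 + 320 * E0 / τ + 2 * E0)) * (n * u ^ 5) := by
  have hn0 : (0 : ℝ) < n := by exact_mod_cast (by omega : 0 < n)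
  have hK := h.K1
  have hm := h.em
  have ht : 0 ≤ tot K v := Finset.sum_nonneg fun _ _ => hv _
  have htW : 0 ≤ tot K W := Finset.sum_nonneg fun _ _ => hW _
  have hu3 : 0 < u ^ 3 := by positivity
  have hκ00 : 0 ≤ κ0 := by
    by_contra hc
    push Not at hc
    nlinarith [mul_neg_of_neg_of_pos hc hu3]
  have hmK1 : m 1 ≤ m K := em_mono hm hK (by omega)
  have hP : 0 < (n : ℝ) * u ^ 5 := by positivity
  -- upper side
  have hr : ∀ j, 1 ≤ j → j < K → m j < m (j + 1) →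
      Rq n K m b (rt fun i => low j W i + sgl j (tot K v) i) j ≤
        5 * (1 + 64 * E0 / τ) * u := by
    intro j hj hjK _
    refine rq_box (n := n) hn hβ.le hA h h2 htv ?_ hb0 hu hτ hE0 h1 (hmK1.trans hK2) hbK hE1 hn2 hjK
    rw [tv_rt (fun i => add_nonneg (low_nonneg j hW i) (sgl_nonneg j ht i)), tot_add,
      tot_sgl_one hj hjK.le]
    have := tot_low_le (K := K) hW j
    linarith
  have hup := gv_up (n := n) (c := n / β / 2 * tot K v + c0 * (n * u ^ 5)) (by omega) hm hb hK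
    hW hv hC hr
  have hmv : n * tot K v / 2 * (m K - m 1) * (5 * (1 + 64 * E0 / τ) * u) ≤
      κ0 * (5 + 320 * E0 / τ) * (n * u ^ 5) := by
    have e1 : n * tot K v / 2 * (m K - m 1) ≤ n * (κ0 * u ^ 3) / 2 * (2 * u) :=
      mul_le_mul (by
        have := mul_le_mul_of_nonneg_left hV hn0.le
        linarith) (by linarith) (by linarith) (by positivity)
    calc n * tot K v / 2 * (m K - m 1) * (5 * (1 + 64 * E0 / τ) * u)
        ≤ n * (κ0 * u ^ 3) / 2 * (2 * u) * (5 * (1 + 64 * E0 / τ) * u) :=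
          mul_le_mul_of_nonneg_right e1 (by positivity)
      _ = κ0 * (5 + 320 * E0 / τ) * (n * u ^ 5) := by field_simp; ring
  -- lower side
  have e4 : ∀ U : ℕ → ℝ, (∀ i, 0 ≤ U i) → tot K U ≤ V1 →
      |GV n K m b U - (A + n / β / 2 * tot K U)| ≤ E0 * (n * u ^ 5) := by
    intro U hU hU1
    have h3 := near (n := n) (w := rt U) hA h hβ.le htv (by rw [tv_rt hU]; exact hU1)
    rwa [tv_rt hU] at h3
  have hs : ∀ i, 0 ≤ W i + sgl 1 (u ^ 3) i := fun i => add_nonneg (hW i) (sgl_nonneg 1 hu3.le i)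
  have e5 := e4 W hW (by linarith)
  have e6 := e4 (fun i => W i + sgl 1 (u ^ 3) i) hs (by
    rw [tot_add, tot_sgl_one le_rfl hK]
    linarith)
  rw [tot_add, tot_sgl_one le_rfl hK] at e6
  have hlo := gv_lo (n := n) (g := n / β / 2) (D := 2 * (E0 * (n * u ^ 5))) hm hb hK hW hv hu3
    (hV.trans (by nlinarith)) (by
      have := (abs_le.1 e5).2
      have := (abs_le.1 e6).1
      linarith)
  have e7 : 2 * (E0 * (n * u ^ 5)) * (tot K v / u ^ 3) ≤ κ0 * (2 * E0) * (n * u ^ 5) := by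
    have : tot K v / u ^ 3 ≤ κ0 := by rw [div_le_iff₀ hu3]; exact hV
    calc 2 * (E0 * (n * u ^ 5)) * (tot K v / u ^ 3) ≤ 2 * (E0 * (n * u ^ 5)) * κ0 :=
          mul_le_mul_of_nonneg_left this (by positivity)
      _ = _ := by ring
  have e8 : 0 ≤ κ0 * (5 + 320 * E0 / τ) * (n * u ^ 5) := by positivity
  have e9 : 0 ≤ κ0 * (2 * E0) * (n * u ^ 5) := by positivity
  have e10 : 0 ≤ c0 * (n * u ^ 5) := by positivity
  have e11 : (c0 + κ0 * (5 + 320 * E0 / τ + 2 * E0)) * (n * u ^ 5) = c0 * (n * u ^ 5) +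
      κ0 * (5 + 320 * E0 / τ) * (n * u ^ 5) + κ0 * (2 * E0) * (n * u ^ 5) := by ring
  rw [e11, abs_le]
  constructor <;> linarith

lemma rt_zero : rt (fun _ => 0) = fun _ => 0 := by
  funext j
  exact Real.sqrt_zero

/-- **The input `hC`** from the conclusion of helper97's `gen_c` at this law. -/
theorem hC_of_gen {c1 : ℝ} (hβ : 0 < β) (hx : 0 < m 1) (hx' : m 1 ≤ u) (hc1 : 0 ≤ c1) {V : ℝ}
    (hV : 0 ≤ V)
    (h : (skS n K m b (rt (sgl 1 V))).fe ≤ (skS n K m b fun _ => 0).fe +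
      n / (2 * β) * rt (sgl 1 V) 1 ^ 2 + c1 * (n * m 1 ^ 5)) :
    GV n K m b (sgl 1 V) - GV n K m b (fun _ => 0) ≤ n / β / 2 * V + c1 * (n * u ^ 5) := by
  have e1 : rt (sgl 1 V) 1 ^ 2 = V := by
    unfold rt sgl
    rw [if_pos rfl, Real.sq_sqrt hV]
  rw [e1] at h
  unfold GV
  rw [rt_zero]
  have e2 : (n : ℝ) / (2 * β) * V = n / β / 2 * V := by
    field_simp
  have e3 : c1 * ((n : ℝ) * m 1 ^ 5) ≤ c1 * (n * u ^ 5) :=
    mul_le_mul_of_nonneg_left (mul_le_mul_of_nonneg_left (pow_le_pow_left₀ hx.le hx' 5)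
      (Nat.cast_nonneg n)) hc1
  rw [e2] at h
  linarith

/-! ### the letters `amp` -/

/-- the variances of the levels of `P` -/
noncomputable def vP (P : Finset ℕ) (V : {p // p ∈ P} → ℝ) (j : ℕ) : ℝ :=
  if h : j ∈ P then V ⟨j, h⟩ else 0

lemma vP_nonneg {P : Finset ℕ} {V : {p // p ∈ P} → ℝ} (hV : ∀ p, 0 ≤ V p) (j : ℕ) :
    0 ≤ vP P V j := by
  unfold vP
  split_ifs
  · exact hV _
  · exact le_rfl

lemma tot_vP {P : Finset ℕ} {V : {p // p ∈ P} → ℝ} (hP : ∀ p ∈ P, 1 ≤ p ∧ p ≤ K) :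
    tot K (vP P V) = ∑ p, V p := by
  have h1 : tot K (vP P V) = ∑ j ∈ Finset.Icc 1 K, vP P V j := by
    unfold tot
    rw [Finset.range_eq_Ico, Finset.sum_Ico_add' (fun j => vP P V j) 0 K 1]
    refine Finset.sum_congr ?_ fun _ _ => rfl
    ext j
    simp only [Finset.mem_Ico, Finset.mem_Icc]
    omega
  have h2 : ∑ j ∈ Finset.Icc 1 K, vP P V j = ∑ j ∈ P, vP P V j := by
    symm
    refine Finset.sum_subset (fun j hj => Finset.mem_Icc.2 (hP j hj)) fun j _ hj => ?_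
    unfold vP
    rw [dif_neg hj]
  rw [h1, h2, ← Finset.sum_coe_sort P]
  refine Finset.sum_congr rfl fun p _ => ?_
  unfold vP
  rw [dif_pos p.2]

/-- the law with the small fields -/
lemma gv_amp {P : Finset ℕ} {V : {p // p ∈ P} → ℝ} (hw : ∀ j, 0 ≤ w j)
    (hwP : ∀ p ∈ P, w p = 0) : GV n K m b (fun i => w i ^ 2 + vP P V i) =
      (skS n K m b (amp w P V)).fe := by
  unfold GV
  congr 2
  funext j
  show √(w j ^ 2 + vP P V j) = amp w P V j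
  unfold vP amp
  by_cases h : j ∈ P
  · rw [dif_pos h, dif_pos h, hwP j h]
    congr 1
    ring
  · rw [dif_neg h, dif_neg h, add_zero, Real.sqrt_sq (hw j)]

lemma gv_main (hw : ∀ j, 0 ≤ w j) : GV n K m b (fun i => w i ^ 2) = (skS n K m b w).fe := by
  unfold GV
  congr 2
  funext j
  exact Real.sqrt_sq (hw j)

/-- **S3 for `amp w P V`.** -/
theorem s3_amp {P : Finset ℕ} {V : {p // p ∈ P} → ℝ} (hn : 2 ≤ n) (hβ : 0 < β) (hu : 0 < u)
    (hA : Ap n β y Y V1 A (E0 * (n * u ^ 5))) (h : Ex2 K m y Y) (h2 : 2 * m K ≤ Y)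
    (hb : Na K b) (htv : tv K b = β ^ 2 / n) (hb0 : 0 < b K) (hτ : 0 < τ)
    (hbK : τ * u ^ 2 ≤ n * b K ^ 2) (hE0 : 0 ≤ E0) (hE1 : 1 ≤ 4 * E0 * (n * u ^ 6))
    (hn2 : 1 ≤ n * u ^ 2) (h1 : 1 / 2 * u ≤ m 1) (hK2 : m K ≤ 2 * u) (hc0 : 0 ≤ c0)
    (hw : ∀ j, 0 ≤ w j) (hP : ∀ p ∈ P, 1 ≤ p ∧ p ≤ K) (hwP : ∀ p ∈ P, w p = 0)
    (hV0 : ∀ p, 0 ≤ V p)
    (hC : GV n K m b (sgl 1 (∑ p, V p)) - GV n K m b (fun _ => 0) ≤
      n / β / 2 * (∑ p, V p) + c0 * (n * u ^ 5))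
    (hV : ∑ p, V p ≤ κ0 * u ^ 3) (hκ0 : κ0 ≤ 1) (hV1 : tv K w + ∑ p, V p + u ^ 3 ≤ V1) :
    |(skS n K m b (amp w P V)).fe - (skS n K m b w).fe - n / β / 2 * ∑ p, V p| ≤
      (c0 + κ0 * (5 + 320 * E0 / τ + 2 * E0)) * (n * u ^ 5) := by
  have et := tot_vP (V := V) hP
  have h3 := s3_fieldC (W := fun i => w i ^ 2) (v := vP P V) (κ0 := κ0) (c0 := c0) hn hβ hu hA h
    h2 hb htv hb0 hτ hbK hE0 hE1 hn2 h1 hK2 hc0 (fun i => sq_nonneg _) (vP_nonneg hV0)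
    (by rw [et]; exact hC) (by rw [et]; exact hV) hκ0 (by rw [et]; exact hV1)
  rwa [gv_amp hw hwP, gv_main hw, et] at h3

/-- **S3 for `amp w P V` against the plain law of the blocks.** -/
theorem s3_ampB {P : Finset ℕ} {V : {p // p ∈ P} → ℝ} {F : ℝ} (he : Em L e) (hk : Blk K L k)
    (hm : Em K m) (hK : 1 ≤ K) (hδ : 0 ≤ δ) (hδ1 : δ < 1) (hΔ : 0 < Δ) (hδΔ : δ ≤ Δ)
    (heL : (1 + Δ) * e L ≤ 1)
    (hme : ∀ l < L, ∀ j, k l < j → j ≤ k (l + 1) → |m j - e (l + 1)| ≤ δ * e (l + 1))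
    (hb' : ∀ l < L, 0 ≤ b' (l + 1)) (hw' : ∀ l < L, 0 ≤ w' (l + 1))
    (hbb : ∀ l < L, ∑ j ∈ Finset.Ioc (k l) (k (l + 1)), b j ^ 2 = b' (l + 1) ^ 2)
    (hww : ∀ l < L, ∑ j ∈ Finset.Ioc (k l) (k (l + 1)), w j ^ 2 = w' (l + 1) ^ 2)
    (hF : |(skS n K m b (amp w P V)).fe - (skS n K m b w).fe - n / β / 2 * ∑ p, V p| ≤ F)
    (hD : (skS n L (ray L (1 + Δ) e) b' w').fe - (skS n L e b' w').fe ≤ D) :
    |(skS n K m b (amp w P V)).fe - ((skS n L e b' w').fe + n / (2 * β) * ∑ p, V p)| ≤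
      F + δ / Δ * D := by
  have h1 := fe_exp (n := n) hm he hK hk hδ hδ1 hΔ hδΔ heL hme hb' hw' hbb hww
  have h2 : δ / Δ * ((skS n L (ray L (1 + Δ) e) b' w').fe - (skS n L e b' w').fe) ≤ δ / Δ * D :=
    mul_le_mul_of_nonneg_left hD (by positivity)
  have h3 := abs_le.1 hF
  have h4 := abs_le.1 (h1.trans h2)
  have e1 : (n : ℝ) / (2 * β) = n / β / 2 := by rw [div_div, mul_comm]
  rw [e1, abs_le]
  constructor <;> linarith [h3.1, h3.2, h4.1, h4.2]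

end Vale.Agent.P146.H985.S3
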