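import Vale.Agent.P146.H985.S3b

/-!
# P146, lower half, S3 in unit letters (helper985)

* `Gc`: the conclusion of helper97's `gen_c` at one `n` and one exponent `x`.
* `s3_unit`: the small fields cost `(c' + κ0 (5 + 320 E0 / τ + 2 E0)) n u⁵`.
* `s3_unitB`: against the plain law of the blocks (exponents within the factor `1 ± δ`): the further
  error `2 E0 δ n u⁵`, or `δ D` with the local energy `D`.
-/

open MeasureTheory ProbabilityTheory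

namespace Vale.Agent.P146.H985.S3

open Vale.Agent.P157 Vale.Agent.P157.Lv Vale.Agent.P157.Lv.Sy
open Vale.Agent.P146.H425 Vale.Agent.P146.H325 Vale.Agent.P146.H93 Vale.Agent.P146.H186
open Vale.Agent.P146.H479 Vale.Agent.P146.H758 Vale.Agent.P146.H560 Vale.Agent.P146.U

set_option linter.unusedSectionVars false

variable {n K L : ℕ} {m e b w b' w' W v : ℕ → ℝ} {k : ℕ → ℕ}
  {β u y Y V1 A E E0 τ κ0 c0 c1 a x c r δ Δ D Vs S ε : ℝ} {l : ℕ}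

/-- the conclusion of helper97's `gen_c` at one `n` and one exponent `x` -/
def Gc (n : ℕ) (β S ε c1 x : ℝ) : Prop := ∀ (K : ℕ) (m b w : ℕ → ℝ), 1 ≤ K → Em K m → m 1 = x →
  m K ≤ 2 * x → β ^ 2 / n * (1 - S * x ^ 2) ≤ b 1 ^ 2 → tv K b = β ^ 2 / n →
  (∀ j, 2 ≤ j → j ≤ K → w j = 0) → w 1 ^ 2 ≤ ε * x ^ 3 →
  (skS n K m b w).fe ≤ (skS n K m b fun _ => 0).fe + n / (2 * β) * w 1 ^ 2 + c1 * (n * x ^ 5)

/-- **S3 in unit letters.** -/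
theorem s3_unit {P : Finset ℕ} {V : {p // p ∈ P} → ℝ} (hn : 2 ≤ n) (hβ : 0 < β) (hu : 0 < u)
    (hA : Ap n β y Y V1 A (E0 * (n * u ^ 5))) (h : Ex2 K m y Y) (h2 : 2 * m K ≤ Y)
    (hb : Na K b) (htv : tv K b = β ^ 2 / n) (hb0 : 0 < b K) (hτ : 0 < τ)
    (hbK : τ * u ^ 2 ≤ n * b K ^ 2) (hE0 : 0 ≤ E0) (hE1 : 1 ≤ 4 * E0 * (n * u ^ 6))
    (hn2 : 1 ≤ n * u ^ 2) (h1 : 1 / 2 * u ≤ m 1) (h1' : m 1 ≤ u) (hK2 : m K ≤ 2 * u)
    (hKx : m K ≤ 2 * m 1) (hS : β ^ 2 / n * (1 - S * m 1 ^ 2) ≤ b 1 ^ 2)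
    (hG : Gc n β S ε c1 (m 1)) (hc1 : 0 ≤ c1)
    (hw : ∀ j, 0 ≤ w j) (hP : ∀ p ∈ P, 1 ≤ p ∧ p ≤ K) (hwP : ∀ p ∈ P, w p = 0)
    (hV0 : ∀ p, 0 ≤ V p) (hV : ∑ p, V p ≤ κ0 * u ^ 3) (hκ0 : κ0 ≤ 1) (hκε : 8 * κ0 ≤ ε)
    (hV1 : tv K w + ∑ p, V p + u ^ 3 ≤ V1) :
    |(skS n K m b (amp w P V)).fe - (skS n K m b w).fe - n / β / 2 * ∑ p, V p| ≤
      (c1 + κ0 * (5 + 320 * E0 / τ + 2 * E0)) * (n * u ^ 5) := by
  have hs : 0 ≤ ∑ p, V p := Finset.sum_nonneg fun p _ => hV0 p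
  have hu3 : 0 < u ^ 3 := by positivity
  have hκ00 : 0 ≤ κ0 := by
    by_contra hc
    push Not at hc
    nlinarith [mul_neg_of_neg_of_pos hc hu3]
  have hε : 0 ≤ ε := by linarith
  have hC := hC_of_gen (n := n) (K := K) (m := m) (b := b) (u := u) (V := ∑ p, V p) hβ h.em.pos
    h1' hc1 hs (hG K m b (rt (sgl 1 (∑ p, V p))) h.K1 h.em rfl hKx hS htv
      (fun j h3 h4 => by
        unfold rt sgl
        rw [if_neg (by omega), Real.sqrt_zero])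
      (by
        have e1 : rt (sgl 1 (∑ p, V p)) 1 ^ 2 = ∑ p, V p := by
          unfold rt sgl
          rw [if_pos rfl, Real.sq_sqrt hs]
        rw [e1]
        have h3 : (1 / 2 * u) ^ 3 ≤ m 1 ^ 3 := pow_le_pow_left₀ (by positivity) h1 3
        calc ∑ p, V p ≤ κ0 * u ^ 3 := hV
          _ = 8 * κ0 * (1 / 2 * u) ^ 3 := by ring
          _ ≤ ε * (1 / 2 * u) ^ 3 := mul_le_mul_of_nonneg_right hκε (by positivity)
          _ ≤ ε * m 1 ^ 3 := mul_le_mul_of_nonneg_left h3 hε))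
  exact s3_amp hn hβ hu hA h h2 hb htv hb0 hτ hbK hE0 hE1 hn2 h1 hK2 hc1 hw hP hwP hV0 hC hV hκ0
    hV1

/-- the energy of the exponents in the a priori box -/
theorem ray_box (hβ : 0 < β) (hA : Ap n β y Y V1 A E) (he : Ex2 L e y Y)
    (heL : 2 * e L ≤ Y) (htv : tv L b' = β ^ 2 / n) (hw : tv L w' ≤ V1) :
    (skS n L (ray L (1 + 1) e) b' w').fe - (skS n L e b' w').fe ≤ 2 * E := by
  have h1 : Ex2 L (ray L (1 + 1) e) y Y :=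
    { em := em_ray he.em (by norm_num) (by linarith [he.Y1])
      K1 := he.K1
      y0 := he.y0
      Y1 := he.Y1
      ge := by
        unfold ray
        rw [if_pos he.K1]
        have := he.ge
        have := he.y0
        linarith
      le := by
        unfold ray
        rw [if_pos le_rfl]
        linarith }
  exact (abs_le.1 (fe_diff (n := n) (w := w') (w' := w') hA he h1 hβ.le htv htv hw rfl)).2

/-- **S3 in unit letters, against the plain law of the blocks.** -/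
theorem s3_unitB {P : Finset ℕ} {V : {p // p ∈ P} → ℝ} (hn : 2 ≤ n) (hβ : 0 < β) (hu : 0 < u)
    (hA : Ap n β y Y V1 A (E0 * (n * u ^ 5))) (h : Ex2 K m y Y) (h2 : 2 * m K ≤ Y)
    (hb : Na K b) (htv : tv K b = β ^ 2 / n) (hb0 : 0 < b K) (hτ : 0 < τ)
    (hbK : τ * u ^ 2 ≤ n * b K ^ 2) (hE0 : 0 ≤ E0) (hE1 : 1 ≤ 4 * E0 * (n * u ^ 6))
    (hn2 : 1 ≤ n * u ^ 2) (h1 : 1 / 2 * u ≤ m 1) (h1' : m 1 ≤ u) (hK2 : m K ≤ 2 * u)
    (hKx : m K ≤ 2 * m 1) (hS : β ^ 2 / n * (1 - S * m 1 ^ 2) ≤ b 1 ^ 2)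
    (hG : Gc n β S ε c1 (m 1)) (hc1 : 0 ≤ c1)
    (hw : ∀ j, 0 ≤ w j) (hP : ∀ p ∈ P, 1 ≤ p ∧ p ≤ K) (hwP : ∀ p ∈ P, w p = 0)
    (hV0 : ∀ p, 0 ≤ V p) (hV : ∑ p, V p ≤ κ0 * u ^ 3) (hκ0 : κ0 ≤ 1) (hκε : 8 * κ0 ≤ ε)
    (hV1 : tv K w + ∑ p, V p + u ^ 3 ≤ V1)
    (he : Em L e) (hk : Blk K L k) (hδ : 0 ≤ δ) (hδ1 : δ < 1) (heL : 2 * e L ≤ 1)
    (hme : ∀ l < L, ∀ j, k l < j → j ≤ k (l + 1) → |m j - e (l + 1)| ≤ δ * e (l + 1))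
    (hb' : ∀ l < L, 0 ≤ b' (l + 1)) (hw' : ∀ l < L, 0 ≤ w' (l + 1))
    (hbb : ∀ l < L, ∑ j ∈ Finset.Ioc (k l) (k (l + 1)), b j ^ 2 = b' (l + 1) ^ 2)
    (hww : ∀ l < L, ∑ j ∈ Finset.Ioc (k l) (k (l + 1)), w j ^ 2 = w' (l + 1) ^ 2)
    (hD : (skS n L (ray L (1 + 1) e) b' w').fe - (skS n L e b' w').fe ≤ D * (n * u ^ 5)) :
    |(skS n K m b (amp w P V)).fe - ((skS n L e b' w').fe + n / (2 * β) * ∑ p, V p)| ≤
      (c1 + κ0 * (5 + 320 * E0 / τ + 2 * E0) + δ * D) * (n * u ^ 5) := by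
  have h3 := s3_unit (P := P) (V := V) hn hβ hu hA h h2 hb htv hb0 hτ hbK hE0 hE1 hn2 h1 h1' hK2
    hKx hS hG hc1 hw hP hwP hV0 hV hκ0 hκε hV1
  have h4 := s3_ampB (n := n) (P := P) (V := V) he hk h.em h.K1 hδ hδ1 one_pos hδ1.le
    (by linarith) hme hb' hw' hbb hww h3 hD
  refine h4.trans (le_of_eq ?_)
  ring

end Vale.Agent.P146.H985.S3
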