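import Vale.Agent.P146.H758.Sand
import Vale.Agent.P146.H479.Subg

/-!
# P146, lower half, S3: small fields of a law, any number of levels (helper985)

`GV n K m b V` = free energy of `skS n K m b` with white fields of VARIANCES `V j`.
`gv_up`, `gv_lo`: adding small fields `v j ≥ 0` (total `V`) to the law with the main fields `W j`
costs `n V / (2 β)` up to errors: the upper side from the same statement for the field `V` alone on
the first level, the lower side from a chord.
-/

open MeasureTheory ProbabilityTheory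

namespace Vale.Agent.P146.H985.S3

open Vale.Agent.P157 Vale.Agent.P157.Lv Vale.Agent.P157.Lv.Sy
open Vale.Agent.P146.H425 Vale.Agent.P146.H325 Vale.Agent.P146.H93 Vale.Agent.P146.H186
open Vale.Agent.P146.H479

set_option linter.unusedSectionVars false

/-- the amplitudes with given variances -/
noncomputable def rt (V : ℕ → ℝ) : ℕ → ℝ := fun j => √(V j)

lemma na_rt (V : ℕ → ℝ) (K : ℕ) : Na K (rt V) := fun _ _ _ => Real.sqrt_nonneg _

/-- the free energy as a function of the variances of the fields -/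
noncomputable def GV (n K : ℕ) (m b V : ℕ → ℝ) : ℝ := (skS n K m b (rt V)).fe

/-- the response of the field of the level `p` -/
noncomputable def cV (n K : ℕ) (m b V : ℕ → ℝ) (p : ℕ) : ℝ := cSK n K m b (rt V) p

/-- the total variance -/
def tot (K : ℕ) (V : ℕ → ℝ) : ℝ := ∑ j ∈ Finset.range K, V (j + 1)

/-- the variance `t` on the level `j` only -/
def sgl (j : ℕ) (t : ℝ) (i : ℕ) : ℝ := if i = j then t else 0

/-- the levels `≤ j` only -/
def low (j : ℕ) (W : ℕ → ℝ) (i : ℕ) : ℝ := if i ≤ j then W i else 0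

variable {n K : ℕ} {m b V V' W v U : ℕ → ℝ} {r c D β t s x y : ℝ} {j p q : ℕ}

lemma sgl_nonneg (j : ℕ) (ht : 0 ≤ t) (i : ℕ) : 0 ≤ sgl j t i := by
  unfold sgl
  split_ifs
  · exact ht
  · exact le_rfl

lemma low_nonneg (j : ℕ) (hW : ∀ i, 0 ≤ W i) (i : ℕ) : 0 ≤ low j W i := by
  unfold low
  split_ifs
  · exact hW i
  · exact le_rfl

lemma tot_sgl (hj : 1 ≤ j) (hjK : j ≤ K) (t : ℝ) (f : ℕ → ℝ) :
    ∑ i ∈ Finset.range K, sgl j t (i + 1) * f (i + 1) = t * f j := by
  rw [Finset.sum_eq_single (j - 1)]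
  · unfold sgl
    rw [show j - 1 + 1 = j by omega, if_pos rfl]
  · intro i _ hi
    unfold sgl
    rw [if_neg (by omega), zero_mul]
  · intro h
    exact absurd (Finset.mem_range.2 (by omega)) h

/-- the gradient in the direction of other fields -/
lemma gv_fields (hV : ∀ i, 0 ≤ V i) (hV' : ∀ i, 0 ≤ V' i) :
    gv n K m b (rt V) b (rt V') =
      1 / 2 * ∑ i ∈ Finset.range K, (V' (i + 1) - V (i + 1)) * cV n K m b V (i + 1) := by
  unfold gv cV
  rw [← Fin.sum_univ_eq_sum_range
    (fun i => (V' (i + 1) - V (i + 1)) * cSK n K m b (rt V) (i + 1)) K]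
  congr 1
  refine Finset.sum_congr rfl fun i _ => ?_
  have e1 : rt V ((i : ℕ) + 1) ^ 2 = V (i + 1) := Real.sq_sqrt (hV _)
  have e2 : rt V' ((i : ℕ) + 1) ^ 2 = V' (i + 1) := Real.sq_sqrt (hV' _)
  rw [e1, e2]
  ring

/-- **The supergradient inequality.** -/
lemma super (hm : Em K m) (hb : Na K b) (hV : ∀ i, 0 ≤ V i) (hV' : ∀ i, 0 ≤ V' i) :
    GV n K m b V' ≤ GV n K m b V +
      1 / 2 * ∑ i ∈ Finset.range K, (V' (i + 1) - V (i + 1)) * cV n K m b V (i + 1) := by
  rw [← gv_fields hV hV']
  exact fe_super hm hb (na_rt _ _) hb (na_rt _ _)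

lemma mono' (hm : Em K m) (hb : Na K b) (hV : ∀ i, 0 ≤ V i) (hV' : ∀ i, 0 ≤ V' i) :
    0 ≤ ∑ i ∈ Finset.range K, (V' (i + 1) - V (i + 1)) *
      (cV n K m b V (i + 1) - cV n K m b V' (i + 1)) := by
  have h := gv_mono (n := n) hm hb (na_rt V K) hb (na_rt V' K)
  rw [gv_fields hV hV', gv_fields hV' hV, ← mul_add, ← Finset.sum_add_distrib] at h
  have e : ∀ i ∈ Finset.range K, (V' (i + 1) - V (i + 1)) * cV n K m b V (i + 1) +
      (V (i + 1) - V' (i + 1)) * cV n K m b V' (i + 1) =
      (V' (i + 1) - V (i + 1)) * (cV n K m b V (i + 1) - cV n K m b V' (i + 1)) :=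
    fun i _ => by ring
  rw [Finset.sum_congr rfl e] at h
  linarith

lemma QW_nonneg (hm : Em K m) (b w : ℕ → ℝ) (hp : p ≤ K) : 0 ≤ QW n K m b w p := by
  have hR := (linS_sk (n := n) hm b w).reg
  have h1 : ∀ i : Fin n, EG ((skS n K m b w).T p (fun _ x => H325.sp x i)) := fun i =>
    hR.eg_T (show p ≤ (skS n K m b w).K from hp) (Nh.snd fun x => H325.sp x i)
  have e : QW n K m b w p = (skS n K m b w).Ex (fun z _ => ∑ i : Fin n,
      (skS n K m b w).T p (fun _ x => H325.sp x i) z *
        (skS n K m b w).T p (fun _ x => H325.sp x i) z) := by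
    unfold QW H186.rl
    simp only [sq]
    rfl
  rw [e, ← hR.Ex_const 0]
  exact hR.Ex_mono (Nh.fst (EG.const 0)) (Nh.fst (EG.sum _ fun i _ => (h1 i).mul (h1 i)))
    fun z _ => Finset.sum_nonneg fun i _ => mul_self_nonneg _

lemma cV_mono (hm : Em K m) (b V : ℕ → ℝ) (hpq : p ≤ q) (hq : q ≤ K + 1) :
    cV n K m b V p ≤ cV n K m b V q := by
  have h := cSK_sub (n := n) (K := K) (m := m) (b := b) (w := rt V) hpq hq
  have h2 : 0 ≤ ∑ l ∈ Finset.Ico p q, (m (l + 1) - m l) * QW n K m b (rt V) l := by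
    refine Finset.sum_nonneg fun l hl => ?_
    have h3 := Finset.mem_Ico.1 hl
    exact mul_nonneg (sub_nonneg.2 (hm.mono l (by omega))) (QW_nonneg hm b _ (by omega))
  unfold cV
  linarith

lemma cV_succ (hn : 0 < n) (m b V : ℕ → ℝ) (hp : p ≤ K) :
    cV n K m b V (p + 1) - cV n K m b V p = (m (p + 1) - m p) * (n * Rq n K m b (rt V) p) := by
  have h := cSK_sub (n := n) (K := K) (m := m) (b := b) (w := rt V) (p := p) (q := p + 1)
    (by omega) (by omega)
  rw [Nat.Ico_succ_singleton, Finset.sum_singleton, QW_eq hn] at h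
  exact h

lemma add_nonneg' (hV : ∀ i, 0 ≤ V i) (hv : ∀ i, 0 ≤ v i) (i : ℕ) : 0 ≤ V i + v i :=
  add_nonneg (hV i) (hv i)

/-- **Moving a field**: from the level `q` to the level `p` -/
lemma move (hm : Em K m) (hb : Na K b) (hV : ∀ i, 0 ≤ V i) (ht : 0 ≤ t) (hp : 1 ≤ p)
    (hq : 1 ≤ q) (hpK : p ≤ K) (hqK : q ≤ K) :
    GV n K m b (fun i => V i + sgl q t i) ≤ GV n K m b (fun i => V i + sgl p t i) +
      t / 2 * (cV n K m b (fun i => V i + sgl p t i) q -
        cV n K m b (fun i => V i + sgl p t i) p) := by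
  have h := super (n := n) hm hb (V := fun i => V i + sgl p t i) (V' := fun i => V i + sgl q t i)
    (fun i => add_nonneg (hV i) (sgl_nonneg p ht i))
    (fun i => add_nonneg (hV i) (sgl_nonneg q ht i))
  have e : ∀ i ∈ Finset.range K, ((V (i + 1) + sgl q t (i + 1)) - (V (i + 1) + sgl p t (i + 1))) *
      cV n K m b (fun i => V i + sgl p t i) (i + 1) =
      sgl q t (i + 1) * cV n K m b (fun i => V i + sgl p t i) (i + 1) -
      sgl p t (i + 1) * cV n K m b (fun i => V i + sgl p t i) (i + 1) := fun i _ => by ring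
  rw [Finset.sum_congr rfl e, Finset.sum_sub_distrib,
    tot_sgl hq hqK t (fun i => cV n K m b (fun i => V i + sgl p t i) i),
    tot_sgl hp hpK t (fun i => cV n K m b (fun i => V i + sgl p t i) i)] at h
  linarith

/-- all the small fields to the last level -/
lemma all_last (hm : Em K m) (hb : Na K b) (hK : 1 ≤ K) (hW : ∀ i, 0 ≤ W i)
    (hv : ∀ i, 0 ≤ v i) :
    GV n K m b (fun i => W i + v i) ≤ GV n K m b (fun i => W i + sgl K (tot K v) i) := by
  have ht : 0 ≤ tot K v := Finset.sum_nonneg fun _ _ => hv _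
  have h := super (n := n) hm hb (V := fun i => W i + sgl K (tot K v) i)
    (V' := fun i => W i + v i)
    (fun i => add_nonneg (hW i) (sgl_nonneg K ht i)) (fun i => add_nonneg (hW i) (hv i))
  have e : ∀ i ∈ Finset.range K, ((W (i + 1) + v (i + 1)) - (W (i + 1) + sgl K (tot K v) (i + 1))) *
      cV n K m b (fun i => W i + sgl K (tot K v) i) (i + 1) =
      v (i + 1) * cV n K m b (fun i => W i + sgl K (tot K v) i) (i + 1) -
      sgl K (tot K v) (i + 1) * cV n K m b (fun i => W i + sgl K (tot K v) i) (i + 1) :=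
    fun i _ => by ring
  rw [Finset.sum_congr rfl e, Finset.sum_sub_distrib,
    tot_sgl hK le_rfl _ (fun i => cV n K m b (fun i => W i + sgl K (tot K v) i) i)] at h
  have h2 : ∑ i ∈ Finset.range K, v (i + 1) *
      cV n K m b (fun i => W i + sgl K (tot K v) i) (i + 1) ≤
      tot K v * cV n K m b (fun i => W i + sgl K (tot K v) i) K := by
    unfold tot
    rw [Finset.sum_mul]
    refine Finset.sum_le_sum fun i hi => mul_le_mul_of_nonneg_left ?_ (hv _)
    have := Finset.mem_range.1 hi
    exact cV_mono hm b _ (by omega) (by omega)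
  linarith

/-- all the small fields to the first level -/
lemma all_first (hm : Em K m) (hb : Na K b) (hK : 1 ≤ K) (hW : ∀ i, 0 ≤ W i)
    (hv : ∀ i, 0 ≤ v i) :
    GV n K m b (fun i => W i + sgl 1 (tot K v) i) ≤ GV n K m b (fun i => W i + v i) := by
  have ht : 0 ≤ tot K v := Finset.sum_nonneg fun _ _ => hv _
  have h := super (n := n) hm hb (V' := fun i => W i + sgl 1 (tot K v) i)
    (V := fun i => W i + v i) (fun i => add_nonneg (hW i) (hv i))
    (fun i => add_nonneg (hW i) (sgl_nonneg 1 ht i))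
  have e : ∀ i ∈ Finset.range K, ((W (i + 1) + sgl 1 (tot K v) (i + 1)) - (W (i + 1) + v (i + 1))) *
      cV n K m b (fun i => W i + v i) (i + 1) =
      sgl 1 (tot K v) (i + 1) * cV n K m b (fun i => W i + v i) (i + 1) -
      v (i + 1) * cV n K m b (fun i => W i + v i) (i + 1) :=
    fun i _ => by ring
  rw [Finset.sum_congr rfl e, Finset.sum_sub_distrib,
    tot_sgl le_rfl hK _ (fun i => cV n K m b (fun i => W i + v i) i)] at h
  have h2 : tot K v * cV n K m b (fun i => W i + v i) 1 ≤ ∑ i ∈ Finset.range K, v (i + 1) *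
      cV n K m b (fun i => W i + v i) (i + 1) := by
    unfold tot
    rw [Finset.sum_mul]
    refine Finset.sum_le_sum fun i hi => mul_le_mul_of_nonneg_left ?_ (hv _)
    have := Finset.mem_range.1 hi
    exact cV_mono hm b _ (by omega) (by omega)
  linarith

/-- the response of one field decreases in its variance -/
lemma anti_one (hm : Em K m) (hb : Na K b) (hV : ∀ i, 0 ≤ V i) (hj : 1 ≤ j) (hjK : j ≤ K)
    (hx : 0 ≤ x) (hxy : x ≤ y) : 0 ≤ (y - x) * (cV n K m b (fun i => V i + sgl j x i) j -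
      cV n K m b (fun i => V i + sgl j y i) j) := by
  have h := mono' (n := n) hm hb (V := fun i => V i + sgl j x i)
    (V' := fun i => V i + sgl j y i) (fun i => add_nonneg (hV i) (sgl_nonneg j hx i))
    (fun i => add_nonneg (hV i) (sgl_nonneg j (hx.trans hxy) i))
  have e : ∀ i ∈ Finset.range K, ((V (i + 1) + sgl j y (i + 1)) - (V (i + 1) + sgl j x (i + 1))) *
      (cV n K m b (fun i => V i + sgl j x i) (i + 1) -
        cV n K m b (fun i => V i + sgl j y i) (i + 1)) = sgl j (y - x) (i + 1) *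
      (fun i => cV n K m b (fun i => V i + sgl j x i) i -
        cV n K m b (fun i => V i + sgl j y i) i) (i + 1) := by
    intro i _
    unfold sgl
    split_ifs <;> ring
  rw [Finset.sum_congr rfl e, tot_sgl hj hjK (y - x)
    (fun i => cV n K m b (fun i => V i + sgl j x i) i -
        cV n K m b (fun i => V i + sgl j y i) i)] at h
  exact h

/-- one field changed -/
lemma super_one (hm : Em K m) (hb : Na K b) (hV : ∀ i, 0 ≤ V i) (hj : 1 ≤ j) (hjK : j ≤ K)
    (hx : 0 ≤ x) (hy : 0 ≤ y) : GV n K m b (fun i => V i + sgl j y i) ≤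
      GV n K m b (fun i => V i + sgl j x i) +
        (y - x) / 2 * cV n K m b (fun i => V i + sgl j x i) j := by
  have h := super (n := n) hm hb (V := fun i => V i + sgl j x i)
    (V' := fun i => V i + sgl j y i) (fun i => add_nonneg (hV i) (sgl_nonneg j hx i))
    (fun i => add_nonneg (hV i) (sgl_nonneg j hy i))
  have e : ∀ i ∈ Finset.range K, ((V (i + 1) + sgl j y (i + 1)) - (V (i + 1) + sgl j x (i + 1))) *
      cV n K m b (fun i => V i + sgl j x i) (i + 1) = sgl j (y - x) (i + 1) *
      (fun i => cV n K m b (fun i => V i + sgl j x i) i) (i + 1) := by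
    intro i _
    unfold sgl
    split_ifs <;> ring
  rw [Finset.sum_congr rfl e, tot_sgl hj hjK (y - x)
    (fun i => cV n K m b (fun i => V i + sgl j x i) i)] at h
  linarith

lemma sgl_zero (j : ℕ) (V : ℕ → ℝ) : (fun i => V i + sgl j 0 i) = V := by
  funext i
  unfold sgl
  split_ifs <;> simp

/-- **The increments of one field are antitone.** -/
lemma four_point (hm : Em K m) (hb : Na K b) (hV : ∀ i, 0 ≤ V i) (hj : 1 ≤ j) (hjK : j ≤ K)
    (hx : 0 ≤ x) (ht : 0 ≤ t) :
    GV n K m b (fun i => V i + sgl j (x + t) i) - GV n K m b (fun i => V i + sgl j x i) ≤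
      GV n K m b (fun i => V i + sgl j t i) - GV n K m b V := by
  rcases le_total t x with h | h
  · have h1 := super_one (n := n) hm hb hV hj hjK hx (add_nonneg hx ht)
    have h2 := super_one (n := n) hm hb hV hj hjK ht (le_refl 0)
    have h3 := anti_one (n := n) hm hb hV hj hjK ht h
    rw [sgl_zero] at h2
    rcases h.eq_or_lt with rfl | h4
    · linarith
    · have h5 : 0 ≤ cV n K m b (fun i => V i + sgl j t i) j -
          cV n K m b (fun i => V i + sgl j x i) j := by
        by_contra hc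
        push Not at hc
        nlinarith [mul_pos (sub_pos.2 h4) (neg_pos.2 hc)]
      nlinarith [mul_nonneg ht h5]
  · have h1 := super_one (n := n) hm hb hV hj hjK ht (add_nonneg hx ht)
    have h2 := super_one (n := n) hm hb hV hj hjK hx (le_refl 0)
    have h3 := anti_one (n := n) hm hb hV hj hjK hx h
    rw [sgl_zero] at h2
    rcases h.eq_or_lt with rfl | h4
    · linarith
    · have h5 : 0 ≤ cV n K m b (fun i => V i + sgl j x i) j -
          cV n K m b (fun i => V i + sgl j t i) j := by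
        by_contra hc
        push Not at hc
        nlinarith [mul_pos (sub_pos.2 h4) (neg_pos.2 hc)]
      nlinarith [mul_nonneg hx h5]

lemma low_succ (j : ℕ) (W : ℕ → ℝ) :
    low (j + 1) W = fun i => low j W i + sgl (j + 1) (W (j + 1)) i := by
  funext i
  unfold low sgl
  by_cases h1 : i ≤ j
  · rw [if_pos (by omega), if_pos h1, if_neg (by omega), add_zero]
  · by_cases h2 : i = j + 1
    · rw [if_pos (by omega), if_neg h1, if_pos h2, zero_add, h2]
    · rw [if_neg (by omega), if_neg h1, if_neg h2, add_zero]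

/-- the chain of `gv_up` -/
lemma chain (hn : 0 < n) (hm : Em K m) (hb : Na K b) (hW : ∀ i, 0 ≤ W i) (ht : 0 ≤ t)
    (h1 : GV n K m b (fun i => low 1 W i + sgl 1 t i) - GV n K m b (low 1 W) ≤ c)
    (hr : ∀ j, 1 ≤ j → j < K → m j < m (j + 1) →
      Rq n K m b (rt fun i => low j W i + sgl j t i) j ≤ r) :
    ∀ j, 1 ≤ j → j ≤ K →
      GV n K m b (fun i => low j W i + sgl j t i) - GV n K m b (low j W) ≤
        c + n * t / 2 * (m j - m 1) * r := by
  intro j hj
  induction j, hj using Nat.le_induction with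
  | base =>
    intro _
    rw [sub_self, mul_zero, zero_mul, add_zero]
    exact h1
  | succ j hj ih =>
    intro hjK
    have ih := ih (by omega)
    have hL : ∀ i, 0 ≤ low j W i := low_nonneg j hW
    have h2 := four_point (n := n) hm hb hL (by omega : 1 ≤ j + 1) hjK (hW (j + 1)) ht
    have e1 : (fun i => low (j + 1) W i + sgl (j + 1) t i) =
        fun i => low j W i + sgl (j + 1) (W (j + 1) + t) i := by
      rw [low_succ]
      funext i
      by_cases h : i = j + 1
      · simp only [sgl, if_pos h]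
        ring
      · simp only [sgl, if_neg h]
        ring
    rw [e1, low_succ]
    have h3 := move (n := n) hm hb hL ht hj (by omega : 1 ≤ j + 1) (by omega) hjK
    rw [cV_succ hn m b _ (by omega)] at h3
    have h4 : (m (j + 1) - m j) * (n * Rq n K m b (rt fun i => low j W i + sgl j t i) j) ≤
        (m (j + 1) - m j) * (n * r) := by
      rcases (hm.mono j (by omega)).eq_or_lt with h5 | h5
      · rw [h5, sub_self, zero_mul, zero_mul]
      · exact mul_le_mul_of_nonneg_left (mul_le_mul_of_nonneg_left (hr j hj (by omega) h5)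
          (Nat.cast_nonneg n)) (sub_nonneg.2 h5.le)
    nlinarith [mul_le_mul_of_nonneg_left h4 (by linarith : 0 ≤ t / 2)]

/-- only the levels `1, …, K` matter -/
lemma GV_congr (_ : Em K m) (b : ℕ → ℝ) (h : ∀ i, 1 ≤ i → i ≤ K → V i = V' i) :
    GV n K m b V = GV n K m b V' := by
  unfold GV
  rw [sk_congr (w' := rt V') (fun _ _ _ => rfl) rfl rfl (fun _ _ => rfl) (fun _ _ _ => rfl)
    (fun j h1 h2 => by
      show √(V j) = √(V' j)
      rw [h j h1 h2])]

/-- **S3, upper side.** -/
theorem gv_up (hn : 0 < n) (hm : Em K m) (hb : Na K b) (hK : 1 ≤ K) (hW : ∀ i, 0 ≤ W i)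
    (hv : ∀ i, 0 ≤ v i) (hC : GV n K m b (sgl 1 (tot K v)) - GV n K m b (fun _ => 0) ≤ c)
    (hr : ∀ j, 1 ≤ j → j < K → m j < m (j + 1) →
      Rq n K m b (rt fun i => low j W i + sgl j (tot K v) i) j ≤ r) :
    GV n K m b (fun i => W i + v i) ≤ GV n K m b W + c + n * tot K v / 2 * (m K - m 1) * r := by
  have ht : 0 ≤ tot K v := Finset.sum_nonneg fun _ _ => hv _
  have h0 : GV n K m b (fun i => low 1 W i + sgl 1 (tot K v) i) - GV n K m b (low 1 W) ≤ c := by
    have e1 : GV n K m b (low 1 W) = GV n K m b (fun i => 0 + sgl 1 (W 1) i) := by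
      refine GV_congr hm b fun i h1 h2 => ?_
      unfold low sgl
      rw [zero_add]
      by_cases h : i = 1
      · rw [if_pos h.le, if_pos h, h]
      · rw [if_neg (by omega), if_neg h]
    have e2 : GV n K m b (fun i => low 1 W i + sgl 1 (tot K v) i) =
        GV n K m b (fun i => 0 + sgl 1 (W 1 + tot K v) i) := by
      refine GV_congr hm b fun i h1 h2 => ?_
      unfold low sgl
      rw [zero_add]
      by_cases h : i = 1
      · rw [if_pos h.le, if_pos h, if_pos h, h]
      · rw [if_neg (by omega), if_neg h, if_neg h, zero_add]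
    have h3 := four_point (n := n) hm hb (V := fun _ => 0) (fun _ => le_rfl) le_rfl hK (hW 1) ht
    rw [e1, e2]
    refine h3.trans (le_trans (le_of_eq ?_) hC)
    congr 1
    refine GV_congr hm b fun i h1 h2 => ?_
    rw [zero_add]
  have h1 := chain hn hm hb hW ht h0 hr K hK le_rfl
  have h2 := all_last (n := n) hm hb hK hW hv
  have e3 : GV n K m b (low K W) = GV n K m b W :=
    GV_congr hm b fun i h1 h2 => by unfold low; rw [if_pos h2]
  have e4 : GV n K m b (fun i => low K W i + sgl K (tot K v) i) =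
      GV n K m b (fun i => W i + sgl K (tot K v) i) :=
    GV_congr hm b fun i h1 h2 => by unfold low; rw [if_pos h2]
  rw [e3, e4] at h1
  linarith

/-- **S3, lower side.** -/
theorem gv_lo (hm : Em K m) (hb : Na K b) (hK : 1 ≤ K) (hW : ∀ i, 0 ≤ W i)
    (hv : ∀ i, 0 ≤ v i) {Vs g D : ℝ} (hVs : 0 < Vs) (hV : tot K v ≤ Vs)
    (hC : GV n K m b W + g * Vs - D ≤ GV n K m b (fun i => W i + sgl 1 Vs i)) :
    GV n K m b W + g * tot K v - D * (tot K v / Vs) ≤ GV n K m b (fun i => W i + v i) := by
  have ht : 0 ≤ tot K v := Finset.sum_nonneg fun _ _ => hv _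
  have h1 := all_first (n := n) hm hb hK hW hv
  have h2 := super_one (n := n) hm hb hW le_rfl hK ht (le_refl 0)
  have h3 := super_one (n := n) hm hb hW le_rfl hK ht hVs.le
  rw [sgl_zero] at h2
  set f := GV n K m b (fun i => W i + sgl 1 (tot K v) i) with hf
  set cc := cV n K m b (fun i => W i + sgl 1 (tot K v) i) 1 with hcc
  obtain ⟨l, hl⟩ : ∃ l, l = tot K v / Vs := ⟨_, rfl⟩
  have hl0 : 0 ≤ l := by rw [hl]; positivity
  have hl1 : l ≤ 1 := by rw [hl, div_le_one hVs]; exact hV
  have e : tot K v = l * Vs := by rw [hl]; field_simp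
  rw [← hl]
  have h4 := mul_le_mul_of_nonneg_left h2 (sub_nonneg.2 hl1)
  have h5 := mul_le_mul_of_nonneg_left (hC.trans h3) hl0
  rw [e] at h4 h5 ⊢
  nlinarith

end Vale.Agent.P146.H985.S3
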