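import Vale.Agent.P146.H93.Tl0

/-!
# P146: symmetries of a layered system (helper985)

`gz π ε` permutes and flips the Gaussian coordinates, `τ` permutes the configurations.
`SyS S π ε τ` says that `H (gz z) x = H z (τ x)` and that `π` preserves the levels.
Then the log-weights, the conditional averages, the pair law ... are equivariant.
-/

open MeasureTheory ProbabilityTheory

namespace Vale.Agent.P146.H985

open Vale.Agent.P157 Vale.Agent.P157.Lv Vale.Agent.P157.Lv.Sy
open Vale.Agent.P146.H425 Vale.Agent.P146.H93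

set_option linter.unusedSectionVars false

variable {ι X : Type}

/-- the coordinate change: `gz π ε z (π e) = ε e * z e` -/
def gz (π : ι ≃ ι) (ε : ι → ℝ) (z : ι → ℝ) : ι → ℝ := fun e => ε (π.symm e) * z (π.symm e)

variable {π : ι ≃ ι} {ε : ι → ℝ}

@[simp] lemma gz_apply (z : ι → ℝ) (e : ι) : gz π ε z (π e) = ε e * z e := by
  simp [gz]

lemma gz_symm_gz (hε : ∀ e, ε e * ε e = 1) (z : ι → ℝ) :
    gz π.symm (fun e => ε (π.symm e)) (gz π ε z) = z := by
  funext e
  simp only [gz, Equiv.symm_symm, Equiv.symm_apply_apply]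
  rw [← mul_assoc, hε, one_mul]

lemma gz_gz_symm (hε : ∀ e, ε e * ε e = 1) (z : ι → ℝ) :
    gz π ε (gz π.symm (fun e => ε (π.symm e)) z) = z := by
  funext e
  simp only [gz, Equiv.symm_symm, Equiv.apply_symm_apply]
  rw [← mul_assoc, hε, one_mul]

lemma measurable_gz : Measurable (gz π ε) := by
  refine measurable_pi_iff.2 fun e => ?_
  exact (measurable_pi_apply (π.symm e)).const_mul _

/-- the coordinate change as a measurable equivalence -/
def gzE (π : ι ≃ ι) {ε : ι → ℝ} (hε : ∀ e, ε e * ε e = 1) : (ι → ℝ) ≃ᵐ (ι → ℝ) where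
  toFun := gz π ε
  invFun := gz π.symm (fun e => ε (π.symm e))
  left_inv := gz_symm_gz hε
  right_inv := gz_gz_symm hε
  measurable_toFun := measurable_gz
  measurable_invFun := measurable_gz (π := π.symm) (ε := fun e => ε (π.symm e))

lemma abs_eps (hε : ∀ e, ε e * ε e = 1) (e : ι) : |ε e| = 1 := by
  rcases mul_self_eq_one_iff.1 (hε e) with h | h <;> rw [h] <;> simp

/-- the levels are compatible with the coordinate change -/
lemma mix_gz {lev : ι → ℕ} (hl : ∀ e, lev (π e) = lev e) (l : ℕ) (z w : ι → ℝ) :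
    mix lev l (gz π ε z) (gz π ε w) = gz π ε (mix lev l z w) := by
  funext e
  have h : lev (π.symm e) = lev e := by
    have := hl (π.symm e)
    rwa [Equiv.apply_symm_apply, eq_comm] at this
  simp only [mix, gz, h]
  split_ifs <;> rfl

section fin

variable [Fintype ι]

lemma mp_sign {s : ℝ} (hs : s * s = 1) :
    MeasurePreserving (fun x : ℝ => s * x) (gaussianReal 0 1) (gaussianReal 0 1) := by
  refine ⟨measurable_const_mul s, ?_⟩
  rw [gaussianReal_map_const_mul]
  congr 1
  · ring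
  · ext
    simp only [NNReal.coe_mk, NNReal.coe_one, mul_one]
    rw [sq, hs]

/-- the standard Gaussian measure is invariant -/
lemma mp_gz (hε : ∀ e, ε e * ε e = 1) : MeasurePreserving (gz π ε) (gI ι) (gI ι) := by
  have h1 : MeasurePreserving (fun (z : ι → ℝ) e => ε e * z e) (gI ι) (gI ι) :=
    measurePreserving_pi (fun _ : ι => gaussianReal 0 1) (fun _ : ι => gaussianReal 0 1)
      (f := fun e x => ε e * x) fun e => mp_sign (hε e)
  have h2 := measurePreserving_piCongrLeft (fun _ : ι => gaussianReal 0 1) π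
  have h3 := h2.comp h1
  refine (funext fun z => funext fun e => ?_ : (_ : (ι → ℝ) → ι → ℝ) = gz π ε) ▸ h3
  obtain ⟨e', rfl⟩ := π.surjective e
  simp only [Function.comp_apply, gz_apply]
  exact Equiv.piCongrLeft_apply_apply (P := fun _ : ι => ℝ) π (fun e => ε e * z e) e'

lemma integral_gz (hε : ∀ e, ε e * ε e = 1) (F : (ι → ℝ) → ℝ) :
    ∫ z, F (gz π ε z) ∂(gI ι) = ∫ z, F z ∂(gI ι) :=
  (mp_gz hε).integral_comp (gzE π hε).measurableEmbedding F

lemma norm_gz_le (hε : ∀ e, ε e * ε e = 1) (z : ι → ℝ) : ‖gz π ε z‖ ≤ ‖z‖ := by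
  rw [pi_norm_le_iff_of_nonneg (norm_nonneg _)]
  intro e
  simp only [gz, Real.norm_eq_abs, abs_mul, abs_eps hε, one_mul]
  rw [← Real.norm_eq_abs]
  exact norm_le_pi_norm z _

lemma EG.gz {F : (ι → ℝ) → ℝ} (hF : EG F) (hε : ∀ e, ε e * ε e = 1) :
    EG fun z => F (gz π ε z) := by
  obtain ⟨C, a, hC, ha, hb⟩ := hF.bdd
  refine ⟨hF.meas.comp measurable_gz, C, a, hC, ha, fun z => (hb _).trans ?_⟩
  gcongr
  exact norm_gz_le hε z

lemma J_gz {lev : ι → ℕ} (hε : ∀ e, ε e * ε e = 1) (hl : ∀ e, lev (π e) = lev e) (l : ℕ)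
    (F : (ι → ℝ) → ℝ) (z : ι → ℝ) :
    J lev l F (gz π ε z) = J lev l (fun z => F (gz π ε z)) z := by
  unfold J
  rw [← integral_gz (π := π) hε fun w => F (mix lev l (gz π ε z) w)]
  simp only [mix_gz hl]

end fin

lemma gz_update [DecidableEq ι] (z : ι → ℝ) (e : ι) (t : ℝ) :
    gz π ε (Function.update z e t) = Function.update (gz π ε z) (π e) (ε e * t) := by
  funext j
  obtain ⟨j', rfl⟩ := π.surjective j
  rw [gz_apply]
  by_cases h : j' = e
  · subst h
    simp
  · rw [Function.update_of_ne h, Function.update_of_ne (fun h' => h (π.injective h')), gz_apply]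

/-- the partial derivatives of a transformed function -/
lemma PD.gz [DecidableEq ι] {F F' : (ι → ℝ) → ℝ} {e : ι} (h : PD (π e) F F') :
    PD e (fun z => F (gz π ε z)) (fun z => ε e * F' (gz π ε z)) := by
  intro y x
  have h1 := h (H985.gz π ε y) (ε e * x)
  have h2 : HasDerivAt (fun t : ℝ => ε e * t) (ε e) x := by
    simpa using (hasDerivAt_id x).const_mul (ε e)
  have h3 := h1.comp x h2
  simp only [gz_update]
  exact h3.congr_deriv (mul_comm _ _)

section sys

variable [Fintype ι] [Fintype X]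

/-- a symmetry of the system -/
structure SyS (S : Sy ι X) (π : ι ≃ ι) (ε : ι → ℝ) (τ : X ≃ X) : Prop where
  sg : ∀ e, ε e * ε e = 1
  lev : ∀ e, S.lev (π e) = S.lev e
  H : ∀ z x, S.H (gz π ε z) x = S.H z (τ x)

variable {S : Sy ι X} {τ : X ≃ X} {a : X → ι → ℝ} {c : X → ℝ}

/-- The symmetry of a linear system. -/
theorem SyS.of_lin [Nonempty X] (h : LinS S a c) (hε : ∀ e, ε e * ε e = 1)
    (hl : ∀ e, S.lev (π e) = S.lev e) (ha : ∀ x e, a (τ x) e = ε e * a x (π e))
    (hc : ∀ x, c (τ x) = c x) : SyS S π ε τ := by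
  refine ⟨hε, hl, fun z x => ?_⟩
  rw [h.H, h.H, hc]
  congr 1
  rw [← Equiv.sum_comp π fun e => a x e * gz π ε z e]
  refine Finset.sum_congr rfl fun e _ => ?_
  rw [gz_apply, ha]
  ring

namespace SyS

/-- the inverse symmetry -/
theorem symm (h : SyS S π ε τ) : SyS S π.symm (fun e => ε (π.symm e)) τ.symm := by
  refine ⟨fun e => h.sg _, fun e => ?_, fun z x => ?_⟩
  · rw [← h.lev, Equiv.apply_symm_apply]
  · have h1 := h.H (gz π.symm (fun e => ε (π.symm e)) z) (τ.symm x)
    rw [gz_gz_symm h.sg, Equiv.apply_symm_apply] at h1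
    exact h1.symm

/-- the composition of two symmetries -/
theorem trans {π' : ι ≃ ι} {ε' : ι → ℝ} {τ' : X ≃ X} (h : SyS S π ε τ) (h' : SyS S π' ε' τ') :
    SyS S (π.trans π') (fun e => ε e * ε' (π e)) (τ'.trans τ) := by
  have hz : ∀ z, gz (π.trans π') (fun e => ε e * ε' (π e)) z = gz π' ε' (gz π ε z) := by
    intro z
    funext e
    simp only [gz, Equiv.symm_trans_apply, Equiv.apply_symm_apply]
    ring
  refine ⟨fun e => ?_, fun e => ?_, fun z x => ?_⟩
  · have h1 := h.sg e
    have h2 := h'.sg (π e)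
    calc ε e * ε' (π e) * (ε e * ε' (π e)) = (ε e * ε e) * (ε' (π e) * ε' (π e)) := by ring
      _ = 1 := by rw [h1, h2, one_mul]
  · rw [Equiv.trans_apply, h'.lev, h.lev]
  · rw [hz, h'.H, h.H, Equiv.trans_apply]

variable (h : SyS S π ε τ)

include h

lemma H' (z : ι → ℝ) (x : X) : S.H (gz π ε z) (τ.symm x) = S.H z x := by
  rw [h.H, Equiv.apply_symm_apply]

lemma sumH (z : ι → ℝ) : ∑ x, Real.exp (S.H (gz π ε z) x) = ∑ x, Real.exp (S.H z x) := by
  simp only [h.H]
  exact Equiv.sum_comp τ fun x => Real.exp (S.H z x)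

lemma top (z : ι → ℝ) : S.top (gz π ε z) = S.top z := by
  unfold Sy.top
  rw [h.sumH]

lemma rec' (d : ℕ) : ∀ l z, S.rec' l d (gz π ε z) = S.rec' l d z := by
  induction d with
  | zero => intro l z; exact h.top z
  | succ d ih =>
    intro l z
    simp only [Sy.rec', Sy.stp]
    rw [J_gz h.sg h.lev]
    simp only [ih]

/-- **The log-weights are invariant.** -/
lemma lg (l : ℕ) (z : ι → ℝ) : S.lg l (gz π ε z) = S.lg l z := h.rec' _ _ _

lemma dn (l : ℕ) (z : ι → ℝ) : S.dn l (gz π ε z) = S.dn l z := by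
  unfold Sy.dn
  simp only [h.lg]

lemma gb (z : ι → ℝ) (x : X) : S.gb (gz π ε z) x = S.gb z (τ x) := by
  unfold Sy.gb
  rw [h.sumH, h.H]

lemma gb' (z : ι → ℝ) (x : X) : S.gb (gz π ε z) (τ.symm x) = S.gb z x := by
  rw [h.gb, Equiv.apply_symm_apply]

lemma av (f : (ι → ℝ) → X → ℝ) (z : ι → ℝ) :
    S.av f (gz π ε z) = S.av (fun z x => f (gz π ε z) (τ.symm x)) z := by
  unfold Sy.av
  rw [← Equiv.sum_comp τ.symm fun x => S.gb (gz π ε z) x * f (gz π ε z) x]
  simp only [h.gb']

/-- **The conditional averages are equivariant.** -/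
theorem T (l : ℕ) (f : (ι → ℝ) → X → ℝ) (z : ι → ℝ) :
    S.T l f (gz π ε z) = S.T l (fun z x => f (gz π ε z) (τ.symm x)) z := by
  unfold Sy.T
  rw [J_gz h.sg h.lev]
  simp only [h.dn, h.av]

/-- **The average is invariant.** -/
theorem Ex (f : (ι → ℝ) → X → ℝ) :
    S.Ex (fun z x => f (gz π ε z) (τ.symm x)) = S.Ex f := by
  unfold Sy.Ex
  rw [← integral_gz (π := π) h.sg fun z => S.dn 0 z * S.av f z]
  simp only [h.dn, h.av]

/-- a function of the Gaussian coordinates only -/
theorem Ex_fst (f : (ι → ℝ) → ℝ) : S.Ex (fun z _ => f (gz π ε z)) = S.Ex (fun z _ => f z) :=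
  h.Ex fun z _ => f z

/-- a function of the configuration only -/
theorem T_snd (l : ℕ) (f : X → ℝ) (z : ι → ℝ) :
    S.T l (fun _ x => f x) (gz π ε z) = S.T l (fun _ x => f (τ.symm x)) z :=
  h.T l (fun _ x => f x) z

/-- an observable which is odd under the symmetry -/
theorem T_odd [Nonempty X] (l : ℕ) {f : X → ℝ} (ho : ∀ x, f (τ.symm x) = -f x) (z : ι → ℝ) :
    S.T l (fun _ x => f x) (gz π ε z) = -S.T l (fun _ x => f x) z := by
  rw [h.T_snd]
  have e : (fun (_ : ι → ℝ) (x : X) => f (τ.symm x)) =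
      fun z x => (-1 : ℝ) * (fun (_ : ι → ℝ) (x : X) => f x) z x := by
    funext _ x
    rw [ho]; ring
  rw [e, T_const_mul]
  ring

theorem T_even (l : ℕ) {f : X → ℝ} (ho : ∀ x, f (τ.symm x) = f x) (z : ι → ℝ) :
    S.T l (fun _ x => f x) (gz π ε z) = S.T l (fun _ x => f x) z := by
  rw [h.T_snd]
  simp only [ho]

/-- the law of the configuration given the levels at most `l` -/
theorem pr [DecidableEq X] [Nonempty X] (l : ℕ) (z : ι → ℝ) (x : X) :
    S.pr l (gz π ε z) x = S.pr l z (τ x) := by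
  unfold Sy.pr
  rw [h.T]
  congr 1
  funext _ y
  have : (τ.symm y = x) = (y = τ x) := propext (Equiv.symm_apply_eq τ)
  simp only [this]

/-- **The pair law is invariant.** -/
theorem pairEx' [DecidableEq X] [Nonempty X] (l : ℕ) (ψ : X → X → ℝ) :
    S.pairEx l (fun x x' => ψ (τ.symm x) (τ.symm x')) = S.pairEx l ψ := by
  unfold Sy.pairEx
  rw [← h.Ex_fst fun z => ∑ x, ∑ x', S.pr l z x * S.pr l z x' * ψ x x']
  congr 1
  funext z _
  rw [← Equiv.sum_comp τ]
  refine Finset.sum_congr rfl fun x _ => ?_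
  rw [← Equiv.sum_comp τ]
  refine Finset.sum_congr rfl fun x' _ => ?_
  simp only [Equiv.symm_apply_apply, h.pr]

theorem pairEx [DecidableEq X] [Nonempty X] (l : ℕ) (ψ : X → X → ℝ) :
    S.pairEx l (fun x x' => ψ (τ x) (τ x')) = S.pairEx l ψ := by
  rw [← h.pairEx' l fun x x' => ψ (τ x) (τ x')]
  simp only [Equiv.apply_symm_apply]

/-- a function of the Gaussian coordinates, transported by a general observable -/
theorem T_fst (l : ℕ) (f : (ι → ℝ) → ℝ) (z : ι → ℝ) :
    S.T l (fun z _ => f z) (gz π ε z) = S.T l (fun z _ => f (gz π ε z)) z :=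
  h.T l (fun z _ => f z) z

/-- products of conditional averages inside a conditional average -/
theorem T_comp {m l : ℕ} (g : (ι → ℝ) → X → ℝ) (f : (ι → ℝ) → X → ℝ) (z : ι → ℝ) :
    S.T l (fun z x => g z x * S.T m f z) (gz π ε z) =
      S.T l (fun z x => g (gz π ε z) (τ.symm x) *
        S.T m (fun z x => f (gz π ε z) (τ.symm x)) z) z := by
  rw [h.T]
  simp only [h.T m]

section rep

variable {R : Type} [Fintype R] [DecidableEq R]

/-- the Gibbs average over replicas -/
theorem AR [Nonempty X] (f : (R → X) → ℝ) (z : ι → ℝ) :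
    H93.AR S f (gz π ε z) = H93.AR S (fun σ => f fun r => τ.symm (σ r)) z := by
  unfold H93.AR
  rw [← Equiv.sum_comp (Equiv.piCongrRight fun _ : R => τ.symm)
    fun σ : R → X => (∏ r, S.gb (gz π ε z) (σ r)) * f σ]
  refine Finset.sum_congr rfl fun σ _ => ?_
  have e : (Equiv.piCongrRight fun _ : R => τ.symm) σ = fun r => τ.symm (σ r) := rfl
  rw [e]
  simp only [h.gb']

/-- **The leaf averages over replicas are equivariant.** -/
theorem ER [Nonempty X] (f : (R → X) → ℝ) (z : ι → ℝ) :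
    H93.ER S f (gz π ε z) = H93.ER S (fun σ => f fun r => τ.symm (σ r)) z := by
  unfold H93.ER
  rw [h.T]
  simp only [h.AR]

theorem ER_even [Nonempty X] {f : (R → X) → ℝ} (ho : ∀ σ, f (fun r => τ.symm (σ r)) = f σ)
    (z : ι → ℝ) : H93.ER S f (gz π ε z) = H93.ER S f z := by
  rw [h.ER]
  simp only [ho]

theorem ER_odd [Nonempty X] {f : (R → X) → ℝ} (ho : ∀ σ, f (fun r => τ.symm (σ r)) = -f σ)
    (z : ι → ℝ) : H93.ER S f (gz π ε z) = -H93.ER S f z := by
  rw [h.ER]
  have e : (fun σ : R → X => f fun r => τ.symm (σ r)) = fun σ => -f σ := funext ho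
  rw [e]
  unfold H93.ER
  have e2 : (fun (z : ι → ℝ) (_ : X) => H93.AR S (fun σ : R → X => -f σ) z) =
      fun z x => (-1 : ℝ) * (fun (z : ι → ℝ) (_ : X) => H93.AR S f z) z x := by
    funext z _
    unfold H93.AR
    rw [Finset.mul_sum]
    exact Finset.sum_congr rfl fun σ _ => by ring
  rw [e2, T_const_mul]
  ring

end rep

end SyS

end sys

end Vale.Agent.P146.H985
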